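import Vale.Agent.P139.D.Sem

/-! P139 D/Ball: soundness of the ball operations of D/Chk.lean.
Plan: imitate Vale/Agent/P206/U/NumBall.lean (`Mem.add`, `Mem.mul`, `div_near`, `shr_near`, `shr_ge`, `nat_div_bounds`, `z*_eq`).
`fN_eq`: cases n; rfl. `nw`: with `s = √n`, `(g + n/g)/2 ≥ s` (AM-GM), the two floors lose at most 1 in total.
`mem_invT`: with `c = a.c`, `u = z * 2^40`, `‖u - c‖ ≤ r < ‖c‖`, `den = ‖c‖² - r²`:
`‖u⁻¹ - conj c / den‖ ≤ r / den` (`inv_disc`: `‖den - conj c * u‖² - r² ‖u‖² = den * (‖u - c‖² - r²)`), then multiply by `2^80`. -/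

noncomputable section

open Set Complex
open scoped ComplexConjugate

namespace Vale.Agent.P139.D

open Vale.Agent.P139 Vale.Agent.P206.U.Num

theorem fN_eq (n : ℕ) (k : ℕ → Bool) : fN n k = k n := by
  cases n <;> rfl

theorem fZ_eq (a : ℤ) (k : ℤ → Bool) : fZ a k = k a := by
  rcases a with m | m
  · exact fN_eq m fun m => k (Int.ofNat m)
  · exact fN_eq m fun m => k (Int.negSucc m)

theorem fB_eq (a : B) (k : B → Bool) : fB a k = k a := by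
  unfold fB
  rw [fZ_eq, fZ_eq, fN_eq]

theorem gd_iff {c k : Bool} : gd c k = true ↔ c = true ∧ k = true := by
  cases c <;> simp [gd]

theorem sqrt_le_nw (n : ℕ) {g : ℕ} (hg : 0 < g) : √(n : ℝ) ≤ nw n g := by
  have hg' : (0 : ℝ) < g := by exact_mod_cast hg
  have h1 : n < g * (n / g + 1) := Nat.lt_mul_div_succ n hg
  have h2 : g + n / g + 1 ≤ 2 * nw n g := by
    show _ ≤ 2 * ((g + n / g) >>> 1 + 1)
    rw [Nat.shiftRight_eq_div_pow]
    omega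
  have h3 : (n : ℝ) ≤ g * ((n / g : ℕ) + 1) := by exact_mod_cast h1.le
  have h4 : (g : ℝ) + (n / g : ℕ) + 1 ≤ 2 * nw n g := by exact_mod_cast h2
  rw [Real.sqrt_le_left (by positivity)]
  have h5 : (0 : ℝ) ≤ (n / g : ℕ) := Nat.cast_nonneg _
  nlinarith [sq_nonneg ((g : ℝ) - ((n / g : ℕ) + 1))]

theorem nw_pos (n g : ℕ) : 0 < nw n g := by
  exact Nat.succ_pos _

theorem ab2_ge (x y : ℕ) : √((x : ℝ) ^ 2 + (y : ℝ) ^ 2) ≤ ab2 x y := by
  have h := sqrt_le_nw (sq2 x y) (nw_pos (sq2 x y) (Nat.succ (Nat.add x y)))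
  have e : ((sq2 x y : ℕ) : ℝ) = (x : ℝ) ^ 2 + (y : ℝ) ^ 2 := by
    simp only [sq2, Nat.add_eq, Nat.mul_eq]
    push_cast
    ring
  rw [e] at h
  exact h

/-- the norm of a Gaussian integer -/
theorem norm_le_ab2 (x y : ℤ) : ‖(⟨x, y⟩ : ℂ)‖ ≤ ab2 (zabs x) (zabs y) := by
  have h := ab2_ge (zabs x) (zabs y)
  rw [zabs_cast, zabs_cast, sq_abs, sq_abs] at h
  refine le_trans (le_of_eq ?_) h
  rw [Complex.norm_eq_sqrt_sq_add_sq]

theorem sq2_cast (x y : ℤ) : (sq2 (zabs x) (zabs y) : ℝ) = ‖(⟨x, y⟩ : ℂ)‖ ^ 2 := by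
  simp only [sq2, Nat.add_eq, Nat.mul_eq]
  push_cast
  rw [zabs_cast, zabs_cast, abs_mul_abs_self, abs_mul_abs_self, Complex.sq_norm, normSq_mk]

theorem nsq_cast (a : B) : (nsq a : ℝ) = ‖a.c‖ ^ 2 := by
  exact sq2_cast a.x a.y

theorem sqU_ge (n : ℕ) : √(n : ℝ) ≤ sqU n := by
  exact sqrt_le_nw n (nw_pos _ _)

theorem div_nw_le (n : ℕ) {g : ℕ} (hg : 0 < g) : ((Nat.div n (nw n g) : ℕ) : ℝ) ≤ √(n : ℝ) := by
  have h1 := sqrt_le_nw n hg
  have h2 : (0 : ℝ) < nw n g := by exact_mod_cast nw_pos n g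
  have h3 : ((Nat.div n (nw n g) : ℕ) : ℝ) ≤ n / nw n g := Nat.cast_div_le
  refine h3.trans ?_
  rw [div_le_iff₀ h2]
  have h4 := Real.mul_self_sqrt (Nat.cast_nonneg n : (0 : ℝ) ≤ n)
  nlinarith [Real.sqrt_nonneg (n : ℝ)]

theorem kN_le (n : ℕ) : (kN n : ℝ) ≤ √(n : ℝ) := by
  exact div_nw_le n (nw_pos _ _)

theorem ub_ge (a : B) : ‖a.c‖ ≤ ub a := by
  exact norm_le_ab2 a.x a.y

theorem mx2_eq (a b : ℕ) : mx2 a b = max a b := by
  unfold mx2 cond'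
  rcases le_total a b with h | h
  · rw [max_eq_right h, Nat.ble_eq_true_of_le h]
  · rw [max_eq_left h]
    cases e : Nat.ble a b
    · rfl
    · exact le_antisymm h (Nat.le_of_ble_eq_true e)

theorem inv_disc {u c : ℂ} {r : ℝ} (h : ‖u - c‖ ≤ r) (hr : r < ‖c‖) :
    u ≠ 0 ∧ ‖u⁻¹ - conj c / ((‖c‖ ^ 2 - r ^ 2 : ℝ) : ℂ)‖ ≤ r / (‖c‖ ^ 2 - r ^ 2) := by
  have h0 : 0 ≤ r := (norm_nonneg _).trans h
  have hu : u ≠ 0 := by
    rintro rfl
    rw [zero_sub, norm_neg] at h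
    linarith
  have hd : 0 < ‖c‖ ^ 2 - r ^ 2 := by nlinarith
  refine ⟨hu, ?_⟩
  have hd' : ((‖c‖ ^ 2 - r ^ 2 : ℝ) : ℂ) ≠ 0 := by exact_mod_cast hd.ne'
  have e : u⁻¹ - conj c / ((‖c‖ ^ 2 - r ^ 2 : ℝ) : ℂ) =
      (((‖c‖ ^ 2 - r ^ 2 : ℝ) : ℂ) - conj c * u) / (u * ((‖c‖ ^ 2 - r ^ 2 : ℝ) : ℂ)) := by
    field_simp
  have hu' : 0 < ‖u‖ := norm_pos_iff.2 hu
  rw [e, norm_div, norm_mul, Complex.norm_real, Real.norm_of_nonneg hd.le,
    div_le_div_iff₀ (by positivity) hd]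
  have k : ‖((‖c‖ ^ 2 - r ^ 2 : ℝ) : ℂ) - conj c * u‖ ≤ r * ‖u‖ := by
    refine pow_le_pow_left₀ (norm_nonneg _) ?_ 1 |>.trans_eq' (pow_one _) |>.trans_eq (pow_one _)
    refine abs_le_of_sq_le_sq' ?_ (by positivity) |>.2
    have h2 : ‖u - c‖ ^ 2 ≤ r ^ 2 := pow_le_pow_left₀ (norm_nonneg _) h 2
    have e2 : ‖((‖c‖ ^ 2 - r ^ 2 : ℝ) : ℂ) - conj c * u‖ ^ 2 - (r * ‖u‖) ^ 2 =
        (‖c‖ ^ 2 - r ^ 2) * (‖u - c‖ ^ 2 - r ^ 2) := by
      simp only [mul_pow, Complex.sq_norm, normSq_apply, sub_re, sub_im, mul_re, mul_im, conj_re,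
        conj_im, ofReal_re, ofReal_im]
      ring
    nlinarith
  nlinarith

variable {a b : B} {z w : ℂ}

theorem mem_norm (ha : Mem 40 a z) : ‖z‖ * 2 ^ 40 ≤ ub a + a.r := by
  have h1 := ub_ge a
  have h2 := norm_add_le (z * 2 ^ 40 - a.c) a.c
  rw [sub_add_cancel, norm_mul, norm_pow, Complex.norm_ofNat] at h2
  unfold Mem at ha
  linarith

theorem mem_sub (ha : Mem 40 a z) (hb : Mem 40 b w) : Mem 40 (subB a b) (z - w) := by
  have e : (z - w) * 2 ^ 40 - (subB a b).c = (z * 2 ^ 40 - a.c) - (w * 2 ^ 40 - b.c) := by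
    have : (subB a b).c = a.c - b.c := by
      apply Complex.ext <;> simp [subB, B.c, zsub_eq]
    rw [this]
    ring
  unfold Mem at *
  rw [e]
  refine (norm_sub_le _ _).trans ?_
  simp only [subB, Nat.add_eq, Nat.cast_add]
  linarith

theorem mem_conj (ha : Mem 40 a z) : Mem 40 (conjB a) (conj z) := by
  have e : conj z * 2 ^ 40 - (conjB a).c = conj (z * 2 ^ 40 - a.c) := by
    have : (conjB a).c = conj a.c := by
      apply Complex.ext <;> simp [conjB, B.c, zneg_eq]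
    rw [this, map_sub, map_mul, map_pow, map_ofNat]
  unfold Mem at *
  rw [e, Complex.norm_conj]
  exact ha

theorem mem_re {n : ℕ} (h : z * 2 ^ 40 = n) : Mem 40 (reB n) z := by
  have e : (reB n).c = n := by apply Complex.ext <;> simp [reB, B.c]
  unfold Mem
  rw [h, e, sub_self, norm_zero]
  positivity

theorem mem_SS : Mem 40 (reB SS) 1 := by
  exact mem_re (by norm_num [SS])

theorem mem_ell (l : ℕ) : Mem 40 (ell l) (((l + 5) / 2 : ℝ) : ℂ) := by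
  refine mem_re ?_
  simp only [Nat.shiftLeft_eq', Nat.shiftLeft_eq, Nat.add_eq]
  push_cast
  ring

theorem mem_mulT (ha : Mem 40 a z) (hb : Mem 40 b w) : Mem 40 (mulT a b) (z * w) := by
  have h1 : ‖a.c * b.c / 2 ^ 40 - (mulT a b).c‖ ≤ 2 := shr_near 40 a b _
  have h2 := shr_ge ((ub a + a.r) * b.r + ub b * a.r) 40
  have e : z * w * 2 ^ 40 - (mulT a b).c =
      ((a.c + (z * 2 ^ 40 - a.c)) * (w * 2 ^ 40 - b.c) + b.c * (z * 2 ^ 40 - a.c)) / 2 ^ 40 +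
        (a.c * b.c / 2 ^ 40 - (mulT a b).c) := by
    field_simp
    ring
  unfold Mem at *
  rw [e]
  refine (norm_add_le _ _).trans ?_
  have h3 : ‖((a.c + (z * 2 ^ 40 - a.c)) * (w * 2 ^ 40 - b.c) + b.c * (z * 2 ^ 40 - a.c)) / 2 ^ 40‖ ≤
      (((ub a + a.r) * b.r + ub b * a.r : ℕ) : ℝ) / 2 ^ 40 := by
    rw [norm_div, norm_pow, Complex.norm_ofNat]
    gcongr
    refine (norm_add_le _ _).trans ?_
    rw [norm_mul, norm_mul]
    have h5 := norm_add_le a.c (z * 2 ^ 40 - a.c)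
    have h6 := ub_ge a
    have h7 := ub_ge b
    push_cast
    gcongr
    linarith
  have h4 : ((mulT a b).r : ℝ) =
      (Nat.shiftRight ((ub a + a.r) * b.r + ub b * a.r) 40 : ℕ) + 3 := by
    show ((Nat.shiftRight ((ub a + a.r) * b.r + ub b * a.r) 40 + 3 : ℕ) : ℝ) = _
    rw [Nat.cast_add]
    norm_num
  linarith

theorem nz_c {h : ℕ} (hn : nz a h = true) : (a.r : ℝ) + h ≤ ‖a.c‖ := by
  have h1 : (a.r + h) * (a.r + h) ≤ nsq a := Nat.le_of_ble_eq_true hn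
  have h2 : ((a.r : ℝ) + h) * (a.r + h) ≤ nsq a := by exact_mod_cast h1
  rw [nsq_cast, ← sq] at h2
  exact (abs_le_of_sq_le_sq' h2 (norm_nonneg _)).2

theorem nz_le {h : ℕ} (ha : Mem 40 a z) (hn : nz a h = true) : (h : ℝ) ≤ ‖z‖ * 2 ^ 40 := by
  have h1 := nz_c hn
  have h2 := norm_sub_le (z * 2 ^ 40) (z * 2 ^ 40 - a.c)
  rw [sub_sub_cancel, norm_mul, norm_pow, Complex.norm_ofNat] at h2
  unfold Mem at ha
  linarith

theorem nz_ne (ha : Mem 40 a z) (hn : nz a 1 = true) : z ≠ 0 := by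
  have h := nz_le ha hn
  rintro rfl
  norm_num at h

theorem mem_invT (ha : Mem 40 a z) (hn : nz a 1 = true) : Mem 40 (invT a) z⁻¹ := by
  have h1 := nz_c hn
  have hr : (a.r : ℝ) < ‖a.c‖ := by push_cast at h1; linarith
  obtain ⟨hu, h2⟩ := inv_disc ha hr
  have hz := nz_ne ha hn
  have h0 : (0 : ℝ) ≤ a.r := Nat.cast_nonneg _
  have hlt : a.r * a.r < nsq a := by
    have : (a.r : ℝ) * a.r < nsq a := by rw [nsq_cast]; nlinarith
    exact_mod_cast this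
  set den := nsq a - a.r * a.r with hden
  have hd : 0 < den := by omega
  have ed : (den : ℝ) = ‖a.c‖ ^ 2 - a.r ^ 2 := by
    rw [hden, Nat.cast_sub hlt.le, nsq_cast]
    push_cast
    ring
  have hd' : (0 : ℝ) < den := by exact_mod_cast hd
  have h3 := div_near (zshl a.x 80) (zshl (zneg a.y) 80) (Nat.add (Nat.div (Nat.shiftLeft a.r 80) den) 3) hd
  have e3 : (⟨(zshl a.x 80 : ℤ), (zshl (zneg a.y) 80 : ℤ)⟩ : ℂ) = conj a.c * 2 ^ 80 := by
    have : (2 : ℂ) ^ 80 = ((2 ^ 80 : ℝ) : ℂ) := by push_cast; rfl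
    rw [this]
    apply Complex.ext
    · simp only [re_mul_ofReal, zshl_eq, B.c, conj_re]
      norm_num
    · simp only [im_mul_ofReal, zshl_eq, zneg_eq, B.c, conj_im]
      norm_num
  have h4 := (nat_div_bounds (a.r * 2 ^ 80) hd).2
  have h5 : ((invT a).r : ℝ) = ((a.r * 2 ^ 80) / den : ℕ) + 3 := by
    show (((a.r <<< 80) / den + 3 : ℕ) : ℝ) = _
    rw [Nat.shiftLeft_eq, Nat.cast_add]
    norm_num
  rw [e3] at h3
  rw [← ed] at h2
  have e : z⁻¹ * 2 ^ 40 - (invT a).c = ((z * 2 ^ 40)⁻¹ - conj a.c / ((den : ℝ) : ℂ)) * 2 ^ 80 +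
      (conj a.c * 2 ^ 80 / den - (invT a).c) := by
    push_cast
    field_simp
    ring
  unfold Mem
  rw [e, h5]
  refine (norm_add_le _ _).trans ?_
  rw [norm_mul, norm_pow, Complex.norm_ofNat]
  have h6 : ‖conj a.c * 2 ^ 80 / den - (invT a).c‖ ≤ 2 := h3
  have h7 : (a.r : ℝ) / den * 2 ^ 80 ≤ (((a.r * 2 ^ 80 : ℕ) : ℝ) + 1) / den := by
    rw [div_mul_eq_mul_div]
    gcongr
    push_cast
    linarith
  nlinarith

theorem mem_til {p : Par} {X L : ℝ} (hp : PM p X L) (ha : Mem 40 a z) :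
    Mem 40 (til p a) (z + I * X) := by
  have e : (z + I * X) * 2 ^ 40 - (til p a).c =
      (z * 2 ^ 40 - a.c) + I * ((X * 2 ^ 40 - p.x : ℝ) : ℂ) := by
    have : (til p a).c = a.c + I * p.x := by
      apply Complex.ext <;> simp [til, B.c, zadd_eq]
    rw [this]
    push_cast
    ring
  unfold Mem at *
  rw [e]
  refine (norm_add_le _ _).trans ?_
  rw [norm_mul, norm_I, one_mul, Complex.norm_real, Real.norm_eq_abs]
  simp only [til, Nat.add_eq, Nat.cast_add]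
  linarith [hp.1]

theorem mem_KB (l : ℕ) (ha : Mem 40 a z) (hb : Mem 40 b w) :
    Mem 40 (KB l a b) ((z + ((l + 5) / 2 : ℝ)) * (((l + 5) / 2 : ℝ) - w)) := by
  exact mem_mulT (ha.add (mem_ell l)) (mem_sub (mem_ell l) hb)

theorem mem_im_le (ha : Mem 40 a z) : z.im * 2 ^ 40 ≤ a.y + a.r := by
  have h := (Complex.abs_im_le_norm _).trans ha
  have e : (2 : ℂ) ^ 40 = ((2 ^ 40 : ℝ) : ℂ) := by push_cast; rfl
  rw [e, sub_im, im_mul_ofReal] at h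
  have := (abs_le.1 h).2
  simp only [B.c] at this
  linarith

/-- a rectangle inside a ball -/
theorem mem_of_rect {x y : ℤ} {r : ℕ} {s t : ℝ} (hx : |z.re * 2 ^ 40 - x| ≤ s)
    (hy : |z.im * 2 ^ 40 - y| ≤ t) (hr : √(s ^ 2 + t ^ 2) ≤ r) : Mem 40 ⟨x, y, r⟩ z := by
  unfold Mem
  have e : (2 : ℂ) ^ 40 = ((2 ^ 40 : ℝ) : ℂ) := by push_cast; rfl
  refine le_trans ?_ hr
  rw [Complex.norm_eq_sqrt_sq_add_sq, e, sub_re, sub_im, re_mul_ofReal, im_mul_ofReal]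
  refine Real.sqrt_le_sqrt (add_le_add ?_ ?_)
  · exact sq_le_sq' (abs_le.1 hx).1 (abs_le.1 hx).2
  · exact sq_le_sq' (abs_le.1 hy).1 (abs_le.1 hy).2

/-- raising the level -/
theorem mem_nuB {mx r : ℕ} {y : ℤ} (h : Mem 40 (nuB mx y r 0) z) (j : ℕ) :
    Mem 40 (nuB mx y r j) (z + j) := by
  have e : (nuB mx y r j).c = (nuB mx y r 0).c + j * 2 ^ 40 := by
    have : (j : ℂ) * 2 ^ 40 = ((j * 2 ^ 40 : ℝ) : ℂ) := by push_cast; rfl
    rw [this]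
    apply Complex.ext
    · simp only [nuB, B.c, snn_eq, Nat.add_eq, Nat.shiftLeft_eq', Nat.shiftLeft_eq, add_re, ofReal_re]
      push_cast
      ring
    · simp only [nuB, B.c, add_im, ofReal_im, add_zero]
  unfold Mem at *
  rw [e, show (z + j) * 2 ^ 40 - ((nuB mx y r 0).c + j * 2 ^ 40) = z * 2 ^ 40 - (nuB mx y r 0).c by ring]
  exact h

theorem LL_cast (l : ℕ) : (LL l : ℝ) = ((l + 5) / 2) ^ 2 * 2 ^ 80 := by
  have e : LL l = (l + 5) * (l + 5) * 2 ^ 78 := Nat.shiftLeft_eq _ _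
  rw [e, Nat.cast_mul, Nat.cast_pow, Nat.cast_ofNat, Nat.cast_mul, Nat.cast_add, Nat.cast_ofNat]
  ring

theorem PM_par (l : ℕ) {X : ℝ} (hX : X ∈ Icc Xlo Xhi) : PM (par l) X (((l + 5) / 2) ^ 2) := by
  obtain ⟨h1, h2⟩ := hX
  unfold Xlo at h1
  unfold Xhi at h2
  refine ⟨?_, ?_⟩
  · simp only [par]
    push_cast
    rw [abs_le]
    constructor <;> linarith
  · simp only [par]
    rw [LL_cast, sub_self, abs_zero, Nat.cast_zero]

end Vale.Agent.P139.D
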