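import Vale.Agent.P139.D.Chk

/-! P139 part D: certificates. -/

namespace Vale.Agent.P139.D

set_option maxRecDepth 100000

def t22 : Tr :=
  (.h (.v (.h (.v (.h (.v (.h (.a 5 1 6) (.a 5 1 6)) (.a 6 1 6)) (.v (.h (.a 5 1 6) (.a 5 1 6))
  (.a 6 1 6))) (.h (.v (.a 6 1 6) (.a 5 1 7)) (.v (.a 6 1 6) (.a 5 1 6)))) (.v (.h (.v (.h (.a 5 1
  5) (.a 5 1 5)) (.a 6 1 6)) (.v (.h (.a 5 1 5) (.a 5 1 5)) (.a 6 1 6))) (.h (.v (.a 5 1 6) (.a 5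
  1 6)) (.v (.a 5 1 6) (.a 5 1 5))))) (.h (.v (.h (.a 6 1 6) (.a 6 1 6)) (.h (.a 5 1 6) (.a 5 1
  6))) (.v (.h (.a 6 1 6) (.a 5 1 6)) (.h (.a 5 1 5) (.a 5 1 5))))) (.v (.h (.v (.h (.v (.h (.a 5
  1 5) (.a 5 1 5)) (.a 5 1 6)) (.v (.b 5 1 6) (.a 5 1 6))) (.h (.a 6 1 8) (.a 5 1 6))) (.v (.h (.b
  6 1 6) (.a 5 1 6)) (.h (.a 5 1 5) (.a 5 1 5)))) (.h (.v (.h (.a 5 1 5) (.a 5 1 5)) (.h (.a 5 1
  5) (.a 5 1 5))) (.v (.h (.a 5 1 5) (.a 5 1 5)) (.a 5 1 7)))))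

theorem c22 : cover 1 t22 343597383680 687194767360 171798691840 343597383680 = true := by
  decide +kernel

def t29 : Tr :=
  (.v (.v (.h (.v (.h (.a 12 5 3) (.a 10 5 3)) (.h (.a 12 5 3) (.b 10 5 3))) (.v (.a 12 5 3) (.a
  14 5 3))) (.h (.v (.b 18 5 6) (.b 18 5 4)) (.a 18 5 3))) (.v (.h (.v (.a 18 5 3) (.a 18 5 3))
  (.a 20 5 3)) (.h (.b 26 5 6) (.a 20 5 3))))

theorem c29 : cover 1 t29 0 2748779069440 5497558138880 10995116277760 = true := by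
  decide +kernel

def t48 : Tr :=
  (.v (.v (.v (.h (.a 20 5 3) (.a 18 5 3)) (.h (.a 20 5 3) (.a 18 5 3))) (.v (.h (.a 23 5 3) (.a
  20 5 3)) (.h (.a 23 5 3) (.a 23 5 3)))) (.v (.v (.h (.a 23 5 3) (.a 23 5 3)) (.h (.a 26 5 3) (.a
  23 5 3))) (.v (.h (.a 26 5 3) (.a 26 5 3)) (.h (.a 30 5 3) (.a 26 5 3)))))

theorem c48 : cover 4 t48 0 2748779069440 10995116277760 21990232555520 = true := by
  decide +kernel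

def t53 : Tr :=
  (.v (.v (.v (.v (.v (.h (.a 3 1 3) (.a 3 2 3)) (.a 3 4 7)) (.v (.a 3 4 5) (.a 3 4 4))) (.v (.a 3
  4 12) (.a 3 4 6))) (.v (.v (.a 3 4 5) (.a 3 2 4)) (.v (.a 3 2 4) (.a 3 2 3)))) (.v (.v (.a 3 4
  12) (.a 3 2 8)) (.v (.a 3 1 7) (.a 3 1 6))))

theorem c53 : cover 5 t53 0 2748779069440 43980465111040 87960930222080 = true := by
  decide +kernel

def t61 : Tr :=
  (.v (.v (.v (.v (.a 35 5 3) (.a 35 5 3)) (.v (.a 40 5 3) (.a 40 5 3))) (.v (.v (.a 40 5 3) (.a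
  40 5 3)) (.v (.a 46 5 3) (.a 46 5 3)))) (.v (.v (.v (.a 46 5 3) (.a 46 5 3)) (.v (.a 46 5 3) (.a
  52 5 3))) (.v (.v (.a 52 5 3) (.a 52 5 3)) (.v (.a 52 5 3) (.a 52 5 3)))))

theorem c61 : cover 8 t61 0 2748779069440 21990232555520 43980465111040 = true := by
  decide +kernel

def t66 : Tr :=
  (.v (.v (.v (.v (.v (.v (.h (.a 10 5 10) (.a 7 1 7)) (.h (.a 10 5 10) (.a 7 1 7))) (.v (.h (.a
  10 5 10) (.a 8 5 8)) (.h (.a 10 5 10) (.a 10 5 8)))) (.v (.v (.h (.a 12 5 12) (.a 10 5 10)) (.h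
  (.a 12 5 12) (.a 10 5 10))) (.v (.a 16 5 16) (.a 18 5 16)))) (.v (.v (.v (.a 18 5 16) (.a 20 5
  16)) (.a 30 5 23)) (.v (.a 35 5 23) (.a 40 5 23)))) (.v (.v (.v (.a 40 5 23) (.a 46 5 3)) (.v
  (.a 46 5 3) (.a 52 5 3))) (.v (.v (.a 52 5 3) (.v (.a 46 5 3) (.a 46 5 3))) (.v (.v (.a 46 5 3)
  (.a 46 5 3)) (.v (.a 46 5 3) (.a 3 6 14)))))) (.v (.v (.v (.v (.v (.a 3 6 5) (.a 3 4 3)) (.a 3 6
  12)) (.v (.a 3 4 5) (.a 3 4 3))) (.v (.v (.a 3 2 3) (.a 3 1 3)) (.a 3 4 16))) (.v (.v (.a 3 2 8)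
  (.a 3 2 5)) (.v (.a 3 1 4) (.a 3 2 3)))))

theorem c66 : cover 10 t66 0 2748779069440 0 87960930222080 = true := by
  decide +kernel

def t73 : Tr :=
  (.v (.v (.v (.v (.v (.a 12 5 12) (.a 12 5 14)) (.v (.a 14 5 14) (.a 16 5 16))) (.v (.v (.a 18 5
  18) (.a 20 5 20)) (.v (.a 23 5 20) (.a 26 5 23)))) (.v (.v (.v (.a 30 5 23) (.a 30 5 26)) (.v
  (.a 35 5 26) (.a 35 5 26))) (.v (.v (.a 40 5 30) (.a 40 5 3)) (.v (.a 46 5 3) (.a 46 5 3)))))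
  (.v (.v (.v (.v (.a 46 5 3) (.a 3 4 30)) (.v (.a 3 4 3) (.a 3 2 3))) (.v (.a 3 4 52) (.a 3 1
  52))) (.v (.v (.a 3 2 3) (.a 3 1 3)) (.v (.a 3 1 3) (.a 3 1 3)))))

theorem c73 : cover 17 t73 0 2748779069440 0 87960930222080 = true := by
  decide +kernel

def t79 : Tr :=
  (.v (.v (.v (.v (.v (.a 14 5 14) (.a 14 5 14)) (.v (.a 16 5 14) (.a 16 5 16))) (.v (.v (.a 18 5
  18) (.a 20 5 18)) (.a 30 5 30))) (.v (.v (.a 40 5 35) (.a 46 5 40)) (.v (.a 52 5 46) (.v (.a 35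
  5 30) (.a 40 5 35))))) (.v (.v (.v (.v (.a 40 5 3) (.a 3 2 35)) (.v (.a 3 1 35) (.a 3 1 3))) (.v
  (.v (.a 3 1 3) (.a 3 1 3)) (.v (.a 3 1 3) (.a 3 1 3)))) (.v (.v (.a 3 1 3) (.a 3 1 3)) (.v (.a 3
  1 3) (.a 3 1 3)))))

theorem c79 : cover 23 t79 0 2748779069440 0 87960930222080 = true := by
  decide +kernel

end Vale.Agent.P139.D
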