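import Vale.Agent.P139.D.Chk

/-! P139 part D: certificates. -/

namespace Vale.Agent.P139.D

set_option maxRecDepth 100000

def t8 : Tr :=
  (.v (.v (.v (.h (.b 26 5 5) (.a 23 5 3)) (.h (.a 26 5 3) (.a 26 5 3))) (.v (.h (.a 30 5 3) (.a
  26 5 3)) (.h (.a 30 5 3) (.a 26 5 3)))) (.v (.v (.h (.a 30 5 3) (.a 30 5 3)) (.h (.a 30 5 3) (.a
  30 5 3))) (.v (.h (.a 35 5 3) (.a 30 5 3)) (.h (.a 35 5 3) (.a 30 5 4)))))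

theorem c8 : cover 0 t8 0 2748779069440 10995116277760 21990232555520 = true := by
  decide +kernel

def t15 : Tr :=
  (.h (.v (.h (.v (.h (.a 6 1 6) (.a 7 1 7)) (.h (.a 6 1 6) (.a 6 1 7))) (.v (.h (.v (.a 6 1 6)
  (.a 6 1 6)) (.v (.a 6 1 6) (.a 6 1 6))) (.h (.v (.a 6 1 6) (.a 6 1 6)) (.v (.a 6 1 6) (.a 6 1
  6))))) (.h (.v (.h (.a 6 1 6) (.a 6 1 6)) (.h (.a 6 1 6) (.a 6 1 6))) (.v (.h (.a 8 5 8) (.v (.a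
  6 1 6) (.a 6 1 6))) (.h (.a 6 1 6) (.v (.a 6 1 6) (.a 5 1 7)))))) (.v (.h (.v (.h (.v (.h (.a 5
  1 6) (.a 5 1 7)) (.h (.a 5 1 6) (.a 5 1 6))) (.v (.h (.a 6 1 6) (.a 6 1 6)) (.h (.a 6 1 6) (.a 6
  1 6)))) (.h (.v (.b 7 1 8) (.b 6 1 7)) (.v (.h (.a 5 1 7) (.a 6 1 6)) (.h (.a 5 1 6) (.a 5 1
  7))))) (.v (.h (.v (.h (.a 6 1 6) (.b 7 1 7)) (.h (.a 6 1 6) (.b 6 1 7))) (.v (.h (.v (.b 6 1 6)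
  (.b 6 1 6)) (.v (.h (.a 6 1 6) (.a 6 1 6)) (.h (.a 6 1 6) (.a 6 1 6)))) (.h (.v (.b 6 1 6) (.b 6
  1 6)) (.v (.h (.a 6 1 6) (.a 6 1 6)) (.h (.b 5 1 7) (.a 6 1 6)))))) (.h (.v (.h (.a 6 1 6) (.b 6
  1 6)) (.h (.a 6 1 6) (.a 6 1 6))) (.v (.h (.v (.a 6 1 6) (.a 6 1 6)) (.v (.b 6 1 7) (.b 6 1 6)))
  (.h (.b 6 1 7) (.v (.b 6 1 6) (.a 6 1 6))))))) (.h (.v (.h (.v (.b 6 1 6) (.a 6 1 6)) (.v (.h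
  (.a 5 1 6) (.a 5 1 6)) (.b 7 1 7))) (.h (.v (.a 6 1 6) (.a 6 1 6)) (.v (.b 6 1 6) (.a 6 1 6))))
  (.v (.h (.v (.h (.a 5 1 7) (.a 6 1 6)) (.h (.a 5 1 6) (.a 5 1 6))) (.v (.h (.a 6 1 6) (.b 6 1
  6)) (.h (.b 5 1 7) (.b 5 1 7)))) (.h (.v (.h (.a 5 1 6) (.a 5 1 6)) (.b 6 1 7)) (.v (.h (.a 5 1
  6) (.a 5 1 6)) (.h (.a 5 1 6) (.a 5 1 6))))))))

theorem c15 : cover 1 t15 343597383680 515396075520 0 85899345920 = true := by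
  decide +kernel

def t30 : Tr :=
  (.v (.v (.v (.h (.a 26 5 3) (.a 23 5 3)) (.h (.a 26 5 3) (.a 23 5 3))) (.v (.h (.a 26 5 3) (.a
  26 5 3)) (.h (.a 26 5 3) (.a 26 5 3)))) (.v (.v (.h (.a 30 5 3) (.a 26 5 3)) (.h (.a 30 5 3) (.a
  30 5 3))) (.v (.h (.a 30 5 3) (.a 30 5 3)) (.h (.a 35 5 3) (.a 30 5 3)))))

theorem c30 : cover 1 t30 0 2748779069440 10995116277760 21990232555520 = true := by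
  decide +kernel

def t32 : Tr :=
  (.v (.v (.v (.v (.v (.h (.a 3 1 3) (.a 3 4 5)) (.h (.a 3 1 3) (.a 3 4 4))) (.v (.h (.a 3 1 3)
  (.a 3 2 4)) (.h (.a 3 1 3) (.a 3 2 4)))) (.v (.v (.a 3 4 14) (.a 3 4 8)) (.v (.a 3 4 7) (.a 3 4
  6)))) (.v (.v (.v (.a 3 2 6) (.a 3 2 5)) (.a 3 4 10)) (.v (.a 3 2 8) (.a 3 2 6)))) (.v (.v (.v
  (.a 3 1 6) (.a 3 2 5)) (.a 3 2 23)) (.v (.a 3 2 12) (.a 3 1 10))))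

theorem c32 : cover 1 t32 0 2748779069440 43980465111040 87960930222080 = true := by
  decide +kernel

def t33 : Tr :=
  (.h (.v (.h (.v (.h (.v (.h (.a 6 1 6) (.a 6 1 6)) (.h (.a 6 1 7) (.a 6 1 6))) (.v (.h (.a 6 1
  6) (.a 5 1 6)) (.h (.a 6 1 6) (.a 5 1 6)))) (.h (.v (.h (.b 7 1 7) (.a 6 1 6)) (.h (.v (.a 6 1
  6) (.b 6 1 6)) (.b 6 1 6))) (.v (.h (.a 6 1 6) (.a 5 1 6)) (.h (.a 6 1 6) (.a 5 1 6))))) (.v (.h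
  (.v (.a 6 1 6) (.a 6 1 6)) (.a 5 1 6)) (.h (.v (.a 6 1 6) (.a 6 1 6)) (.a 5 1 6)))) (.h (.v (.h
  (.v (.h (.v (.b 6 1 6) (.b 6 1 6)) (.b 6 1 7)) (.h (.v (.b 6 1 6) (.b 6 1 6)) (.b 6 1 7))) (.v
  (.h (.b 6 1 6) (.a 6 1 6)) (.h (.b 6 1 6) (.b 6 1 6)))) (.h (.v (.h (.v (.b 6 1 7) (.b 6 1 7))
  (.v (.b 6 1 6) (.b 6 1 6))) (.h (.v (.b 7 1 7) (.h (.b 6 1 6) (.b 6 1 6))) (.v (.b 6 1 6) (.b 6
  1 7)))) (.v (.h (.b 6 1 6) (.b 6 1 6)) (.h (.b 6 1 7) (.b 6 1 6))))) (.v (.h (.v (.b 6 1 6) (.b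
  6 1 7)) (.a 5 1 7)) (.h (.v (.b 6 1 7) (.b 7 1 7)) (.a 6 1 6))))) (.v (.h (.v (.a 6 1 6) (.a 6 1
  6)) (.a 5 1 5)) (.h (.v (.a 6 1 6) (.a 6 1 6)) (.a 5 1 5))))

theorem c33 : cover 2 t33 0 1374389534720 0 687194767360 = true := by
  decide +kernel

def t46 : Tr :=
  (.v (.v (.v (.v (.v (.h (.a 3 1 3) (.a 3 4 3)) (.h (.a 3 1 3) (.a 3 2 3))) (.v (.a 3 4 10) (.a 3
  4 7))) (.v (.v (.a 3 4 6) (.a 3 4 5)) (.a 3 4 12))) (.v (.v (.a 3 4 7) (.a 3 2 6)) (.v (.a 3 2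
  5) (.a 3 1 5)))) (.v (.v (.a 3 4 35) (.a 3 2 12)) (.v (.a 3 2 8) (.a 3 2 7))))

theorem c46 : cover 3 t46 0 2748779069440 43980465111040 87960930222080 = true := by
  decide +kernel

def t76 : Tr :=
  (.v (.v (.v (.v (.v (.a 12 5 12) (.a 14 5 14)) (.v (.a 14 5 14) (.a 16 5 16))) (.v (.v (.a 18 5
  18) (.a 20 5 18)) (.v (.a 23 5 20) (.a 23 5 23)))) (.v (.v (.v (.a 26 5 23) (.a 30 5 26)) (.v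
  (.a 30 5 26) (.a 35 5 30))) (.v (.v (.a 35 5 30) (.a 35 5 30)) (.v (.a 40 5 3) (.a 40 5 3)))))
  (.v (.v (.v (.v (.a 46 5 3) (.a 3 4 35)) (.v (.a 3 4 3) (.a 3 1 3))) (.v (.a 3 4 52) (.a 3 1
  52))) (.v (.v (.a 3 2 3) (.a 3 1 3)) (.v (.a 3 1 3) (.a 3 1 3)))))

theorem c76 : cover 20 t76 0 2748779069440 0 87960930222080 = true := by
  decide +kernel

def t78 : Tr :=
  (.v (.v (.v (.v (.v (.a 14 5 14) (.a 14 5 14)) (.v (.a 14 5 14) (.a 16 5 16))) (.v (.v (.a 18 5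
  18) (.a 20 5 18)) (.v (.a 23 5 20) (.a 23 5 23)))) (.v (.v (.a 40 5 35) (.a 46 5 40)) (.v (.a 52
  5 46) (.v (.a 35 5 30) (.a 40 5 35))))) (.v (.v (.v (.v (.a 40 5 3) (.a 3 2 35)) (.v (.a 3 1 35)
  (.a 3 1 3))) (.v (.v (.a 3 1 3) (.a 3 1 3)) (.v (.a 3 1 3) (.a 3 1 3)))) (.v (.v (.a 3 1 3) (.a
  3 1 3)) (.v (.a 3 1 3) (.a 3 1 3)))))

theorem c78 : cover 22 t78 0 2748779069440 0 87960930222080 = true := by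
  decide +kernel

end Vale.Agent.P139.D
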