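import Vale.Agent.P139.D.Chk

/-! P139 part D: certificates. -/

namespace Vale.Agent.P139.D

set_option maxRecDepth 100000

def t23 : Tr :=
  (.h (.v (.h (.v (.h (.v (.h (.v (.a 6 1 6) (.a 6 1 6)) (.v (.a 6 1 6) (.a 6 1 6))) (.h (.a 6 1
  7) (.a 6 1 6))) (.v (.h (.a 6 1 7) (.a 6 1 6)) (.h (.a 6 1 6) (.a 6 1 6)))) (.h (.v (.h (.a 6 1
  6) (.a 6 1 6)) (.h (.a 6 1 5) (.a 6 1 5))) (.v (.h (.a 6 1 5) (.a 6 1 5)) (.h (.a 6 1 5) (.a 6 1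
  5))))) (.v (.h (.v (.h (.a 6 1 6) (.a 6 1 6)) (.h (.a 6 1 5) (.a 6 1 5))) (.v (.h (.a 6 1 5) (.a
  5 1 6)) (.h (.a 5 1 6) (.a 5 1 5)))) (.h (.v (.h (.a 6 1 5) (.a 5 1 6)) (.a 8 5 10)) (.v (.h (.a
  5 1 5) (.a 5 1 5)) (.a 6 1 6))))) (.h (.v (.h (.v (.h (.a 6 1 5) (.a 6 1 5)) (.h (.a 6 1 5) (.a
  6 1 5))) (.v (.a 10 5 8) (.a 6 1 6))) (.h (.v (.h (.a 6 1 5) (.b 5 9 6)) (.b 6 1 6)) (.v (.a 6 1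
  6) (.a 6 1 5)))) (.v (.h (.v (.a 6 1 6) (.a 6 1 5)) (.v (.a 6 1 5) (.a 6 1 5))) (.h (.v (.a 6 1
  5) (.a 6 1 5)) (.b 6 1 7))))) (.v (.h (.v (.h (.v (.h (.a 5 1 5) (.a 5 1 5)) (.h (.a 5 1 5) (.a
  5 1 5))) (.v (.h (.a 5 1 5) (.a 5 1 5)) (.a 6 1 6))) (.h (.v (.a 6 1 6) (.a 6 1 5)) (.v (.a 5 1
  6) (.a 5 1 5)))) (.v (.h (.v (.a 6 1 6) (.a 5 1 5)) (.v (.a 5 1 5) (.a 5 1 5))) (.h (.a 6 1 6)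
  (.a 5 1 5)))) (.h (.v (.h (.v (.b 5 1 6) (.a 5 1 5)) (.a 6 1 5)) (.h (.a 6 1 5) (.b 5 1 5))) (.v
  (.h (.a 5 1 5) (.a 5 1 5)) (.h (.a 5 1 5) (.a 5 1 4))))))

theorem c23 : cover 1 t23 0 687194767360 343597383680 687194767360 = true := by
  decide +kernel

def t25 : Tr :=
  (.h (.v (.h (.v (.h (.v (.h (.v (.b 6 1 6) (.b 6 1 5)) (.b 6 1 7)) (.h (.b 6 1 6) (.b 6 1 6)))
  (.v (.h (.b 6 1 6) (.a 6 1 5)) (.h (.b 6 1 5) (.b 5 1 5)))) (.h (.v (.h (.b 6 1 5) (.b 6 1 5))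
  (.h (.b 6 1 5) (.b 6 1 5))) (.v (.h (.b 5 1 6) (.b 5 1 5)) (.b 6 1 6)))) (.v (.h (.v (.h (.b 5 1
  5) (.a 5 1 5)) (.h (.b 5 1 5) (.a 5 1 5))) (.v (.b 6 1 6) (.b 5 1 5))) (.h (.v (.b 6 1 6) (.b 5
  1 6)) (.b 6 1 6)))) (.h (.v (.h (.v (.b 6 1 7) (.b 6 1 6)) (.v (.b 6 1 5) (.b 6 1 5))) (.h (.b 7
  1 6) (.b 6 1 6))) (.v (.h (.b 6 1 6) (.b 5 1 5)) (.h (.b 6 1 5) (.b 5 1 5))))) (.v (.h (.v (.h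
  (.b 6 1 6) (.a 5 1 4)) (.h (.b 5 1 5) (.a 5 1 4))) (.v (.a 5 1 4) (.a 5 1 4))) (.h (.v (.b 8 5
  7) (.b 6 1 5)) (.b 5 1 6))))

theorem c25 : cover 1 t25 0 1374389534720 687194767360 1374389534720 = true := by
  decide +kernel

def t28 : Tr :=
  (.v (.h (.v (.h (.v (.h (.b 8 5 4) (.b 7 1 4)) (.h (.b 8 5 3) (.b 7 1 3))) (.v (.b 7 1 5) (.b 7
  1 5))) (.h (.v (.b 10 5 5) (.b 10 5 4)) (.b 10 5 5))) (.v (.h (.a 7 1 3) (.a 6 1 3)) (.h (.a 8 5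
  3) (.a 6 1 3)))) (.h (.v (.h (.b 12 5 8) (.a 10 5 3)) (.h (.b 12 5 4) (.a 10 5 3))) (.v (.a 12 5
  4) (.a 12 5 3))))

theorem c28 : cover 1 t28 0 2748779069440 2748779069440 5497558138880 = true := by
  decide +kernel

def t34 : Tr :=
  (.h (.v (.h (.v (.h (.v (.h (.v (.h (.b 6 1 6) (.b 6 1 6)) (.h (.b 6 1 7) (.b 6 1 6))) (.v (.b 6
  1 7) (.b 6 1 8))) (.h (.v (.h (.b 6 1 7) (.b 6 1 7)) (.h (.b 7 1 7) (.b 6 1 7))) (.v (.b 7 1 8)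
  (.h (.b 6 1 6) (.b 6 1 6))))) (.v (.h (.b 6 1 8) (.b 6 1 6)) (.h (.b 8 5 10) (.b 6 1 6)))) (.h
  (.v (.h (.v (.h (.v (.b 6 1 7) (.b 7 1 7)) (.b 6 1 8)) (.h (.v (.b 7 1 7) (.a 7 1 8)) (.b 7 1
  7))) (.v (.h (.b 6 1 7) (.b 6 1 6)) (.h (.a 6 1 7) (.b 6 1 6)))) (.h (.v (.h (.v (.a 7 1 8) (.a
  7 1 8)) (.a 7 1 8)) (.h (.v (.a 7 1 7) (.a 7 1 7)) (.a 7 1 7))) (.v (.h (.a 6 1 7) (.a 6 1 6))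
  (.h (.a 6 1 7) (.a 6 1 6))))) (.v (.h (.v (.b 6 1 7) (.a 6 1 7)) (.b 6 1 6)) (.h (.v (.a 6 1 7)
  (.a 6 1 7)) (.a 6 1 6))))) (.v (.h (.v (.b 7 1 7) (.b 7 1 8)) (.a 6 1 6)) (.h (.v (.a 6 1 8) (.a
  6 1 7)) (.a 5 1 7)))) (.h (.v (.h (.v (.h (.v (.h (.v (.a 7 1 7) (.a 7 1 7)) (.a 6 1 8)) (.h (.a
  7 1 7) (.a 6 1 7))) (.v (.a 7 1 8) (.a 6 1 8))) (.h (.v (.h (.a 6 1 7) (.a 6 1 7)) (.a 7 1 8))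
  (.a 7 1 8))) (.v (.h (.a 6 1 7) (.a 6 1 6)) (.h (.a 6 1 6) (.a 6 1 6)))) (.h (.v (.h (.a 8 5 8)
  (.a 6 1 7)) (.h (.a 7 1 6) (.a 6 1 6))) (.v (.a 7 1 7) (.a 6 1 7)))) (.v (.h (.a 8 5 10) (.a 5 1
  6)) (.h (.a 6 1 6) (.a 5 1 6))))) (.v (.h (.v (.a 6 1 6) (.a 5 1 6)) (.a 5 1 5)) (.h (.a 10 5
  10) (.a 5 1 5))))

theorem c34 : cover 2 t34 0 1374389534720 687194767360 1374389534720 = true := by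
  decide +kernel

def t41 : Tr :=
  (.v (.v (.v (.v (.v (.h (.a 3 1 3) (.a 3 4 4)) (.h (.a 3 1 3) (.a 3 4 3))) (.v (.h (.a 3 1 3)
  (.a 3 2 3)) (.a 3 4 10))) (.v (.v (.a 3 4 7) (.a 3 4 6)) (.v (.a 3 2 6) (.a 3 2 5)))) (.v (.v
  (.a 3 4 10) (.a 3 4 7)) (.v (.a 3 2 6) (.a 3 2 5)))) (.v (.v (.v (.a 3 1 5) (.a 3 1 5)) (.a 3 2
  14)) (.v (.a 3 2 10) (.a 3 2 8))))

theorem c41 : cover 2 t41 0 2748779069440 43980465111040 87960930222080 = true := by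
  decide +kernel

def t44 : Tr :=
  (.v (.v (.v (.h (.a 20 5 3) (.a 18 5 3)) (.h (.a 23 5 3) (.a 20 5 3))) (.v (.h (.a 23 5 3) (.a
  23 5 3)) (.h (.a 26 5 3) (.a 23 5 3)))) (.v (.v (.h (.a 26 5 3) (.a 23 5 3)) (.h (.a 26 5 3) (.a
  26 5 3))) (.v (.h (.a 30 5 3) (.a 26 5 3)) (.h (.a 30 5 3) (.a 30 5 3)))))

theorem c44 : cover 3 t44 0 2748779069440 10995116277760 21990232555520 = true := by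
  decide +kernel

def t45 : Tr :=
  (.v (.v (.v (.v (.h (.a 30 5 3) (.a 30 5 3)) (.h (.a 30 5 3) (.a 30 5 3))) (.v (.h (.a 35 5 3)
  (.a 30 5 3)) (.h (.a 35 5 3) (.a 35 5 3)))) (.v (.v (.h (.a 35 5 3) (.a 35 5 3)) (.h (.a 35 5 3)
  (.a 35 5 3))) (.v (.h (.a 35 5 3) (.a 35 5 3)) (.h (.a 40 5 3) (.a 35 5 3))))) (.v (.v (.v (.h
  (.a 3 4 6) (.a 40 5 3)) (.h (.a 3 4 3) (.a 40 5 3))) (.v (.h (.a 3 2 3) (.a 40 5 3)) (.h (.a 3 2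
  3) (.a 40 5 3)))) (.v (.v (.h (.a 3 1 3) (.a 3 6 12)) (.h (.a 3 1 3) (.a 3 4 6))) (.v (.h (.a 3
  1 3) (.a 3 4 4)) (.h (.a 3 1 3) (.a 3 4 3))))))

theorem c45 : cover 3 t45 0 2748779069440 21990232555520 43980465111040 = true := by
  decide +kernel

def t49 : Tr :=
  (.v (.v (.v (.v (.h (.a 30 5 3) (.a 26 5 3)) (.h (.a 30 5 3) (.a 30 5 3))) (.v (.a 46 5 3) (.h
  (.a 35 5 3) (.a 30 5 3)))) (.v (.v (.h (.a 35 5 3) (.a 35 5 3)) (.h (.a 35 5 3) (.a 35 5 3)))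
  (.v (.a 52 5 3) (.a 52 5 3)))) (.v (.v (.v (.h (.a 3 4 4) (.a 35 5 3)) (.h (.a 3 4 3) (.a 40 5
  3))) (.v (.h (.a 3 2 3) (.a 40 5 3)) (.h (.a 3 1 3) (.a 40 5 3)))) (.v (.v (.h (.a 3 1 3) (.a 3
  6 6)) (.h (.a 3 1 3) (.a 3 4 4))) (.v (.h (.a 3 1 3) (.a 3 4 3)) (.h (.a 3 1 3) (.a 3 4 3))))))

theorem c49 : cover 4 t49 0 2748779069440 21990232555520 43980465111040 = true := by
  decide +kernel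

end Vale.Agent.P139.D
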