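import Vale.Agent.P139.D.Chk

/-! P139 part D: certificates. -/

namespace Vale.Agent.P139.D

set_option maxRecDepth 100000

def t7 : Tr :=
  (.v (.v (.h (.v (.h (.b 12 5 4) (.a 12 5 3)) (.h (.b 12 5 4) (.a 12 5 3))) (.v (.a 14 5 3) (.a
  14 5 3))) (.h (.v (.h (.a 14 5 3) (.a 12 5 3)) (.b 20 5 5)) (.b 23 5 6))) (.v (.h (.v (.a 20 5
  3) (.a 20 5 3)) (.a 23 5 3)) (.h (.v (.a 20 5 3) (.a 20 5 3)) (.a 23 5 3))))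

theorem c7 : cover 0 t7 0 2748779069440 5497558138880 10995116277760 = true := by
  decide +kernel

def t9 : Tr :=
  (.v (.v (.v (.v (.h (.a 35 5 3) (.a 35 5 3)) (.h (.a 35 5 3) (.a 35 5 3))) (.v (.h (.a 35 5 3)
  (.a 35 5 3)) (.h (.a 40 5 3) (.a 35 5 3)))) (.v (.v (.h (.a 40 5 3) (.a 40 5 3)) (.h (.a 40 5 3)
  (.a 40 5 3))) (.v (.h (.a 40 5 3) (.a 40 5 3)) (.h (.a 40 5 3) (.a 40 5 3))))) (.v (.v (.v (.h
  (.a 46 5 3) (.a 40 5 3)) (.h (.a 46 5 3) (.a 40 5 3))) (.v (.h (.a 3 4 5) (.a 46 5 3)) (.h (.a 3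
  4 4) (.a 46 5 3)))) (.v (.v (.h (.a 3 4 3) (.a 46 5 3)) (.h (.a 3 2 3) (.a 46 5 3))) (.v (.h (.a
  3 1 3) (.a 46 5 3)) (.h (.a 3 1 3) (.a 3 4 14))))))

theorem c9 : cover 0 t9 0 2748779069440 21990232555520 43980465111040 = true := by
  decide +kernel

def t26 : Tr :=
  (.v (.h (.v (.h (.a 4 1 4) (.a 4 1 3)) (.h (.a 4 1 4) (.a 4 1 3))) (.a 4 1 4)) (.h (.v (.a 7 1
  5) (.a 6 1 4)) (.a 4 1 4)))

theorem c26 : cover 1 t26 1374389534720 2748779069440 0 1374389534720 = true := by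
  decide +kernel

def t27 : Tr :=
  (.h (.v (.h (.v (.h (.v (.h (.b 6 1 6) (.b 6 1 5)) (.h (.b 6 1 5) (.b 6 1 5))) (.v (.b 8 5 7)
  (.b 6 1 6))) (.h (.v (.b 10 5 7) (.b 7 1 6)) (.b 8 5 7))) (.v (.h (.b 7 1 6) (.b 5 1 5)) (.h (.b
  6 1 5) (.b 5 1 4)))) (.h (.v (.h (.v (.b 7 1 5) (.b 7 1 5)) (.b 7 1 5)) (.h (.b 8 5 5) (.b 7 1
  4))) (.v (.h (.b 6 1 4) (.b 5 1 4)) (.b 8 5 5)))) (.v (.h (.v (.a 6 1 4) (.b 5 1 5)) (.a 5 1 3))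
  (.h (.a 7 1 5) (.a 5 1 3))))

theorem c27 : cover 1 t27 0 2748779069440 1374389534720 2748779069440 = true := by
  decide +kernel

def t35 : Tr :=
  (.v (.h (.v (.a 5 1 5) (.a 5 1 5)) (.a 4 1 4)) (.h (.a 6 1 6) (.a 4 1 4)))

theorem c35 : cover 2 t35 1374389534720 2748779069440 0 1374389534720 = true := by
  decide +kernel

def t54 : Tr :=
  (.v (.v (.v (.v (.h (.v (.h (.v (.a 7 1 7) (.a 7 1 7)) (.a 6 1 6)) (.h (.v (.a 7 1 7) (.a 7 1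
  7)) (.a 6 1 6))) (.a 6 1 7)) (.h (.v (.h (.a 10 5 10) (.a 7 1 7)) (.h (.a 8 5 8) (.a 7 1 7)))
  (.a 7 1 7))) (.v (.h (.v (.h (.a 8 5 8) (.a 7 1 7)) (.h (.a 8 5 10) (.a 7 1 7))) (.a 8 5 8)) (.h
  (.v (.a 14 5 14) (.a 12 5 10)) (.a 10 5 8)))) (.v (.v (.h (.v (.a 12 5 10) (.a 12 5 10)) (.a 10
  5 10)) (.h (.a 14 5 12) (.a 12 5 10))) (.v (.h (.a 16 5 12) (.a 14 5 10)) (.h (.a 16 5 10) (.a
  14 5 10))))) (.v (.v (.v (.h (.a 18 5 10) (.a 16 5 3)) (.a 30 5 14)) (.v (.a 30 5 14) (.a 30 5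
  12))) (.v (.v (.a 35 5 3) (.a 35 5 3)) (.v (.a 35 5 3) (.a 40 5 3)))))

theorem c54 : cover 6 t54 0 2748779069440 0 21990232555520 = true := by
  decide +kernel

def t58 : Tr :=
  (.v (.v (.v (.v (.a 35 5 3) (.a 40 5 3)) (.v (.a 40 5 3) (.a 40 5 3))) (.v (.v (.a 46 5 3) (.a
  46 5 3)) (.v (.a 46 5 3) (.a 46 5 3)))) (.v (.v (.v (.a 46 5 3) (.a 52 5 3)) (.v (.a 52 5 3) (.a
  52 5 3))) (.v (.v (.a 52 5 3) (.a 52 5 3)) (.v (.h (.a 3 1 3) (.a 3 2 3)) (.h (.a 3 1 3) (.a 3 2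
  3))))))

theorem c58 : cover 7 t58 0 2748779069440 21990232555520 43980465111040 = true := by
  decide +kernel

def t63 : Tr :=
  (.v (.v (.v (.v (.h (.v (.a 8 5 8) (.a 8 5 8)) (.a 7 1 7)) (.h (.v (.a 8 5 8) (.a 8 5 10)) (.a 7
  1 7))) (.v (.h (.a 14 5 14) (.a 8 5 8)) (.h (.a 12 5 12) (.a 10 5 8)))) (.v (.v (.h (.a 12 5 12)
  (.a 10 5 10)) (.h (.a 12 5 12) (.a 10 5 10))) (.v (.h (.a 14 5 12) (.a 12 5 10)) (.a 20 5 16))))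
  (.v (.v (.v (.a 20 5 16) (.a 23 5 16)) (.v (.a 23 5 16) (.a 26 5 16))) (.v (.v (.a 26 5 16) (.a
  30 5 16)) (.a 40 5 23))))

theorem c63 : cover 9 t63 0 2748779069440 0 21990232555520 = true := by
  decide +kernel

def t75 : Tr :=
  (.v (.v (.v (.v (.v (.a 12 5 12) (.a 14 5 14)) (.v (.a 14 5 14) (.a 16 5 16))) (.v (.v (.a 18 5
  18) (.a 20 5 18)) (.v (.a 23 5 20) (.a 26 5 23)))) (.v (.v (.v (.a 26 5 23) (.a 30 5 26)) (.v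
  (.a 30 5 26) (.a 35 5 30))) (.v (.v (.a 35 5 30) (.a 40 5 30)) (.v (.a 40 5 3) (.a 40 5 3)))))
  (.v (.v (.v (.v (.a 46 5 3) (.a 3 4 35)) (.v (.a 3 4 3) (.a 3 1 3))) (.v (.a 3 4 52) (.a 3 1
  52))) (.v (.v (.a 3 2 3) (.a 3 1 3)) (.v (.a 3 1 3) (.a 3 1 3)))))

theorem c75 : cover 19 t75 0 2748779069440 0 87960930222080 = true := by
  decide +kernel

end Vale.Agent.P139.D
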