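import Vale.Agent.P139.D.Chk

/-! P139 part D: certificates. -/

namespace Vale.Agent.P139.D

set_option maxRecDepth 100000

def t1 : Tr :=
  (.h (.v (.h (.v (.h (.v (.a 5 1 5) (.a 6 1 6)) (.v (.a 5 1 4) (.a 5 1 4))) (.h (.v (.h (.a 5 1
  4) (.a 5 1 4)) (.h (.a 5 1 4) (.a 5 1 4))) (.v (.a 5 1 5) (.a 6 1 4)))) (.v (.h (.a 5 1 5) (.a 5
  1 4)) (.h (.a 6 1 6) (.a 5 1 4)))) (.h (.v (.h (.v (.h (.a 6 1 4) (.a 5 1 4)) (.h (.a 6 1 5) (.a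
  5 1 4))) (.v (.a 6 1 5) (.a 7 1 6))) (.h (.v (.h (.a 6 1 4) (.a 5 1 4)) (.h (.a 6 1 4) (.a 5 1
  4))) (.v (.h (.a 5 1 4) (.a 5 1 4)) (.b 8 5 7)))) (.v (.h (.v (.a 5 1 4) (.a 5 1 4)) (.b 5 1 5))
  (.h (.v (.a 5 1 4) (.a 5 1 4)) (.b 5 1 5))))) (.v (.h (.v (.h (.a 5 1 4) (.a 5 1 4)) (.h (.a 5 1
  4) (.a 5 1 4))) (.v (.b 6 1 6) (.b 5 1 5))) (.h (.v (.h (.a 5 1 4) (.a 5 1 4)) (.h (.b 5 1 4)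
  (.a 5 1 4))) (.v (.b 5 1 5) (.b 5 1 5)))))

theorem c1 : cover 0 t1 0 687194767360 343597383680 687194767360 = true := by
  decide +kernel

def t10 : Tr :=
  (.v (.v (.v (.v (.v (.h (.a 3 1 3) (.a 3 4 7)) (.h (.a 3 1 3) (.a 3 4 6))) (.v (.h (.a 3 1 3)
  (.a 3 2 5)) (.h (.a 3 1 3) (.a 3 2 5)))) (.v (.v (.h (.a 3 1 3) (.a 3 2 4)) (.h (.a 3 1 3) (.a 3
  1 4))) (.v (.a 3 4 12) (.a 3 2 10)))) (.v (.v (.v (.a 3 4 7) (.a 3 2 7)) (.v (.a 3 2 6) (.a 3 2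
  5))) (.v (.a 3 2 10) (.a 3 2 8)))) (.v (.v (.v (.a 3 2 7) (.a 3 2 6)) (.v (.a 3 1 6) (.a 3 1
  5))) (.v (.a 3 2 14) (.a 3 2 10))))

theorem c10 : cover 0 t10 0 2748779069440 43980465111040 87960930222080 = true := by
  decide +kernel

def t13 : Tr :=
  (.v (.h (.v (.h (.v (.h (.a 6 1 6) (.a 6 1 6)) (.h (.a 6 1 6) (.a 6 1 6))) (.v (.h (.a 6 1 6)
  (.a 6 1 6)) (.h (.a 6 1 6) (.a 6 1 6)))) (.h (.v (.h (.a 6 1 6) (.a 6 1 6)) (.h (.a 6 1 6) (.a 6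
  1 6))) (.v (.h (.a 6 1 6) (.a 6 1 6)) (.h (.a 6 1 6) (.a 6 1 6))))) (.v (.h (.v (.h (.a 6 1 6)
  (.a 6 1 6)) (.h (.a 6 1 6) (.a 6 1 6))) (.v (.h (.a 6 1 6) (.a 6 1 6)) (.h (.a 6 1 6) (.a 6 1
  6)))) (.h (.v (.h (.a 6 1 6) (.a 6 1 6)) (.h (.a 6 1 6) (.a 6 1 6))) (.v (.h (.a 6 1 6) (.a 6 1
  6)) (.h (.a 6 1 6) (.a 6 1 6)))))) (.h (.v (.h (.v (.h (.a 6 1 6) (.a 6 1 6)) (.h (.a 6 1 6) (.a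
  6 1 6))) (.v (.h (.a 6 1 6) (.a 6 1 6)) (.h (.a 6 1 6) (.a 6 1 6)))) (.h (.v (.h (.a 6 1 6) (.a
  6 1 6)) (.h (.a 6 1 6) (.a 6 1 6))) (.v (.h (.a 6 1 6) (.a 6 1 6)) (.h (.a 6 1 6) (.a 6 1 6)))))
  (.v (.h (.v (.h (.a 6 1 6) (.a 6 1 6)) (.h (.a 6 1 6) (.a 6 1 6))) (.v (.h (.a 6 1 6) (.a 6 1
  6)) (.h (.a 6 1 6) (.a 6 1 6)))) (.h (.v (.h (.a 6 1 6) (.a 6 1 6)) (.h (.a 6 1 6) (.a 6 1 5)))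
  (.v (.h (.a 5 1 7) (.a 5 1 6)) (.h (.a 5 1 6) (.a 5 1 6)))))))

theorem c13 : cover 1 t13 171798691840 343597383680 0 171798691840 = true := by
  decide +kernel

def t14 : Tr :=
  (.h (.v (.h (.v (.h (.v (.h (.v (.a 6 1 6) (.a 6 1 6)) (.a 7 1 7)) (.h (.a 7 1 7) (.a 6 1 7)))
  (.v (.h (.a 6 1 7) (.a 6 1 6)) (.h (.a 6 1 6) (.a 6 1 6)))) (.h (.v (.h (.a 6 1 6) (.a 6 1 6))
  (.h (.a 6 1 6) (.a 6 1 6))) (.v (.h (.a 6 1 6) (.a 6 1 6)) (.h (.a 6 1 6) (.a 6 1 6))))) (.v (.h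
  (.v (.h (.a 6 1 6) (.a 6 1 6)) (.h (.a 6 1 6) (.a 6 1 6))) (.v (.h (.a 6 1 6) (.a 6 1 6)) (.h
  (.a 6 1 6) (.a 6 1 6)))) (.h (.v (.h (.a 6 1 6) (.a 6 1 6)) (.h (.a 6 1 6) (.a 6 1 6))) (.v (.h
  (.a 6 1 6) (.a 6 1 6)) (.a 7 1 7))))) (.h (.v (.h (.v (.h (.a 6 1 6) (.a 6 1 6)) (.h (.a 6 1 6)
  (.a 6 1 6))) (.v (.h (.a 6 1 6) (.a 6 1 6)) (.a 8 5 7))) (.h (.v (.a 7 1 8) (.a 6 1 7)) (.v (.a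
  6 1 7) (.a 6 1 6)))) (.v (.h (.v (.a 7 1 8) (.a 6 1 7)) (.v (.a 6 1 6) (.a 6 1 6))) (.h (.v (.a
  6 1 6) (.a 6 1 6)) (.v (.a 6 1 6) (.a 6 1 6)))))) (.v (.h (.v (.h (.v (.h (.a 6 1 6) (.a 6 1 6))
  (.h (.a 6 1 6) (.a 6 1 5))) (.v (.h (.a 6 1 6) (.a 6 1 5)) (.a 8 5 10))) (.h (.v (.a 7 1 7) (.a
  6 1 6)) (.v (.a 6 1 7) (.a 6 1 6)))) (.v (.h (.v (.h (.a 5 1 6) (.a 5 1 6)) (.a 6 1 8)) (.v (.h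
  (.a 5 1 6) (.a 5 1 6)) (.a 6 1 7))) (.h (.v (.a 6 1 6) (.a 6 1 6)) (.v (.a 6 1 6) (.a 6 1 6)))))
  (.h (.v (.h (.v (.a 6 1 6) (.a 6 1 6)) (.v (.a 6 1 6) (.a 6 1 6))) (.h (.a 7 1 6) (.a 6 1 6)))
  (.v (.h (.v (.a 6 1 6) (.a 6 1 5)) (.a 6 1 7)) (.h (.a 6 1 6) (.a 6 1 6))))))

theorem c14 : cover 1 t14 0 343597383680 171798691840 343597383680 = true := by
  decide +kernel

def t39 : Tr :=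
  (.v (.v (.v (.h (.a 23 5 3) (.a 20 5 3)) (.h (.a 23 5 3) (.a 23 5 3))) (.v (.h (.a 26 5 3) (.a
  23 5 3)) (.h (.a 26 5 3) (.a 23 5 3)))) (.v (.v (.h (.a 26 5 3) (.a 26 5 3)) (.h (.a 30 5 3) (.a
  26 5 3))) (.v (.h (.a 30 5 3) (.a 30 5 3)) (.h (.a 30 5 3) (.a 30 5 3)))))

theorem c39 : cover 2 t39 0 2748779069440 10995116277760 21990232555520 = true := by
  decide +kernel

def t50 : Tr :=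
  (.v (.v (.v (.v (.v (.h (.a 3 1 3) (.a 3 2 3)) (.a 3 4 12)) (.v (.a 3 4 7) (.a 3 4 5))) (.v (.v
  (.a 3 4 5) (.a 3 4 4)) (.a 3 4 8))) (.v (.v (.a 3 4 6) (.a 3 2 5)) (.v (.a 3 2 4) (.a 3 2 4))))
  (.v (.v (.a 3 4 14) (.a 3 2 10)) (.v (.a 3 1 8) (.a 3 1 7))))

theorem c50 : cover 4 t50 0 2748779069440 43980465111040 87960930222080 = true := by
  decide +kernel

def t57 : Tr :=
  (.v (.v (.v (.v (.h (.v (.h (.a 8 5 8) (.a 6 1 7)) (.h (.a 8 5 8) (.a 7 1 6))) (.a 6 1 7)) (.h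
  (.v (.h (.a 8 5 8) (.a 7 1 7)) (.h (.a 8 5 8) (.a 7 1 7))) (.a 7 1 7))) (.v (.h (.v (.a 12 5 14)
  (.a 10 5 10)) (.a 8 5 8)) (.h (.v (.a 10 5 10) (.a 10 5 10)) (.a 10 5 8)))) (.v (.v (.h (.a 16 5
  14) (.a 10 5 10)) (.h (.a 14 5 12) (.a 12 5 10))) (.v (.h (.a 14 5 12) (.a 12 5 10)) (.h (.a 16
  5 12) (.a 14 5 10))))) (.v (.v (.v (.a 26 5 16) (.a 26 5 16)) (.v (.a 26 5 16) (.a 30 5 14)))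
  (.v (.v (.a 30 5 3) (.a 35 5 3)) (.v (.a 35 5 3) (.a 35 5 3)))))

theorem c57 : cover 7 t57 0 2748779069440 0 21990232555520 = true := by
  decide +kernel

def t72 : Tr :=
  (.v (.v (.v (.v (.v (.v (.a 10 5 10) (.a 10 5 12)) (.a 14 5 14)) (.v (.a 14 5 14) (.a 16 5 16)))
  (.v (.v (.a 18 5 18) (.a 23 5 20)) (.v (.a 23 5 23) (.a 26 5 23)))) (.v (.v (.v (.a 30 5 23) (.a
  30 5 26)) (.v (.a 35 5 26) (.a 35 5 26))) (.v (.v (.a 40 5 3) (.a 40 5 3)) (.v (.a 46 5 3) (.a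
  46 5 3))))) (.v (.v (.v (.v (.a 52 5 3) (.a 3 4 30)) (.v (.a 3 4 3) (.a 3 2 3))) (.v (.a 3 4 46)
  (.a 3 1 46))) (.v (.v (.a 3 1 46) (.a 3 1 3)) (.v (.a 3 1 3) (.a 3 1 3)))))

theorem c72 : cover 16 t72 0 2748779069440 0 87960930222080 = true := by
  decide +kernel

end Vale.Agent.P139.D
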