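import Vale.Agent.P139.D.Chk

/-! P139 part D: certificates. -/

namespace Vale.Agent.P139.D

set_option maxRecDepth 100000

def t16 : Tr :=
  (.h (.v (.h (.v (.h (.a 6 1 6) (.a 6 1 6)) (.h (.a 6 1 6) (.a 6 1 6))) (.v (.h (.a 6 1 6) (.a 6
  1 6)) (.h (.a 6 1 6) (.a 6 1 6)))) (.h (.v (.h (.a 5 1 6) (.a 5 1 6)) (.h (.a 5 1 6) (.a 5 1
  6))) (.v (.h (.a 5 1 6) (.a 5 1 6)) (.h (.a 5 1 6) (.a 5 1 6))))) (.v (.h (.v (.h (.a 7 1 7) (.v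
  (.a 6 1 6) (.a 5 1 6))) (.h (.a 6 1 6) (.a 6 1 6))) (.v (.h (.v (.a 6 1 6) (.a 5 1 7)) (.v (.b 6
  1 6) (.b 5 1 7))) (.h (.b 6 1 6) (.b 6 1 7)))) (.h (.v (.h (.a 5 1 6) (.a 5 1 6)) (.h (.a 5 1 6)
  (.a 5 1 6))) (.v (.h (.a 5 1 6) (.a 5 1 6)) (.h (.a 5 1 6) (.a 5 1 6))))))

theorem c16 : cover 1 t16 343597383680 515396075520 85899345920 171798691840 = true := by
  decide +kernel

def t20 : Tr :=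
  (.v (.h (.v (.h (.v (.h (.b 6 1 6) (.b 5 1 6)) (.h (.a 6 1 6) (.b 5 1 6))) (.v (.b 6 1 6) (.a 6
  1 6))) (.h (.v (.h (.b 5 1 7) (.b 5 1 6)) (.h (.b 5 1 6) (.a 5 1 6))) (.v (.b 5 1 7) (.b 5 1
  6)))) (.v (.h (.a 6 1 6) (.b 5 1 5)) (.h (.b 5 1 6) (.a 5 1 5)))) (.h (.v (.h (.v (.b 6 1 6) (.b
  6 1 6)) (.b 6 1 6)) (.h (.b 6 1 7) (.b 5 1 6))) (.v (.h (.a 5 1 6) (.a 5 1 5)) (.h (.b 5 1 5)
  (.a 5 1 5)))))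

theorem c20 : cover 1 t20 601295421440 687194767360 0 85899345920 = true := by
  decide +kernel

def t24 : Tr :=
  (.v (.h (.v (.h (.v (.h (.v (.h (.v (.b 5 1 6) (.b 5 1 6)) (.b 5 1 5)) (.h (.v (.a 5 1 6) (.b 5
  1 5)) (.a 5 1 5))) (.v (.a 6 1 6) (.b 5 1 6))) (.h (.v (.h (.b 5 1 6) (.a 5 1 5)) (.h (.a 5 1 5)
  (.a 5 1 5))) (.v (.a 5 1 6) (.a 5 1 5)))) (.v (.h (.a 5 1 5) (.a 5 1 5)) (.h (.a 5 1 5) (.a 5 1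
  4)))) (.h (.v (.h (.v (.h (.a 5 1 5) (.a 5 1 5)) (.b 5 1 7)) (.a 6 1 6)) (.h (.v (.a 5 1 5) (.a
  5 1 5)) (.a 5 1 5))) (.v (.h (.a 5 1 5) (.b 4 1 5)) (.a 5 1 6)))) (.v (.h (.a 5 1 5) (.a 4 1 4))
  (.h (.a 5 1 5) (.a 4 1 4)))) (.h (.v (.h (.v (.h (.a 5 1 5) (.a 5 1 5)) (.h (.a 5 1 5) (.a 5 1
  4))) (.v (.a 5 1 5) (.a 5 1 4))) (.h (.v (.a 6 1 6) (.a 5 1 5)) (.a 5 1 5))) (.v (.h (.a 5 1 4)
  (.a 4 1 4)) (.a 6 1 5))))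

theorem c24 : cover 1 t24 687194767360 1374389534720 0 687194767360 = true := by
  decide +kernel

def t47 : Tr :=
  (.v (.v (.v (.h (.v (.h (.v (.h (.v (.a 7 1 7) (.a 7 1 7)) (.a 6 1 6)) (.h (.v (.a 7 1 7) (.a 7
  1 7)) (.a 6 1 6))) (.v (.a 6 1 6) (.a 6 1 6))) (.h (.v (.h (.v (.a 7 1 7) (.a 7 1 7)) (.a 6 1
  6)) (.h (.a 8 5 8) (.a 6 1 6))) (.a 8 5 10))) (.v (.a 6 1 6) (.a 6 1 6))) (.h (.v (.h (.v (.h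
  (.a 7 1 8) (.a 6 1 6)) (.h (.a 7 1 8) (.a 6 1 7))) (.a 7 1 7)) (.h (.v (.h (.a 7 1 8) (.a 6 1
  7)) (.h (.a 7 1 8) (.a 7 1 6))) (.a 7 1 7))) (.v (.a 6 1 6) (.a 7 1 6)))) (.v (.h (.v (.h (.v
  (.a 10 5 10) (.a 8 5 10)) (.a 7 1 7)) (.h (.a 14 5 12) (.a 8 5 7))) (.a 10 5 10)) (.h (.v (.h
  (.a 10 5 8) (.a 8 5 7)) (.h (.a 10 5 7) (.a 8 5 6))) (.a 12 5 8)))) (.v (.v (.h (.v (.a 14 5 10)
  (.a 14 5 8)) (.a 12 5 8)) (.h (.v (.a 14 5 7) (.a 14 5 7)) (.a 14 5 7))) (.v (.h (.a 18 5 8) (.a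
  16 5 3)) (.h (.a 18 5 3) (.a 16 5 3)))))

theorem c47 : cover 4 t47 0 2748779069440 0 10995116277760 = true := by
  decide +kernel

def t62 : Tr :=
  (.v (.v (.v (.v (.v (.a 3 6 6) (.a 3 4 4)) (.v (.a 3 4 3) (.a 3 4 3))) (.v (.a 3 4 6) (.a 3 4
  4))) (.v (.v (.a 3 4 3) (.a 3 2 3)) (.a 3 4 14))) (.v (.v (.a 3 2 10) (.a 3 2 6)) (.v (.a 3 1 5)
  (.a 3 1 4))))

theorem c62 : cover 8 t62 0 2748779069440 43980465111040 87960930222080 = true := by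
  decide +kernel

def t67 : Tr :=
  (.v (.v (.v (.v (.v (.v (.h (.a 10 5 10) (.a 7 1 7)) (.h (.a 10 5 10) (.a 8 5 8))) (.v (.h (.a
  10 5 10) (.a 8 5 8)) (.h (.a 10 5 10) (.a 10 5 8)))) (.v (.v (.a 14 5 14) (.a 14 5 14)) (.v (.a
  16 5 14) (.a 16 5 16)))) (.v (.v (.v (.a 18 5 16) (.a 20 5 16)) (.a 30 5 23)) (.v (.a 30 5 23)
  (.a 35 5 23)))) (.v (.v (.v (.a 40 5 23) (.a 40 5 23)) (.v (.a 46 5 3) (.a 46 5 3))) (.v (.v (.a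
  52 5 3) (.a 52 5 3)) (.v (.v (.a 46 5 3) (.a 46 5 3)) (.v (.a 46 5 3) (.a 3 6 14)))))) (.v (.v
  (.v (.v (.v (.a 3 6 5) (.a 3 4 3)) (.a 3 6 12)) (.v (.a 3 4 4) (.a 3 4 3))) (.v (.v (.a 3 2 3)
  (.a 3 1 3)) (.a 3 4 23))) (.v (.v (.a 3 2 8) (.a 3 2 4)) (.v (.a 3 2 3) (.a 3 1 3)))))

theorem c67 : cover 11 t67 0 2748779069440 0 87960930222080 = true := by
  decide +kernel

def t69 : Tr :=
  (.v (.v (.v (.v (.v (.v (.a 10 5 10) (.a 10 5 10)) (.v (.a 12 5 12) (.a 12 5 12))) (.v (.v (.a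
  12 5 12) (.a 14 5 14)) (.v (.a 14 5 14) (.a 16 5 14)))) (.v (.v (.a 23 5 20) (.a 26 5 20)) (.v
  (.a 30 5 23) (.a 30 5 23)))) (.v (.v (.v (.a 35 5 23) (.a 35 5 26)) (.v (.a 40 5 26) (.a 46 5
  3))) (.v (.v (.a 46 5 3) (.a 46 5 3)) (.v (.a 52 5 3) (.a 52 5 3))))) (.v (.v (.v (.v (.v (.a 3
  6 5) (.a 3 4 3)) (.a 3 6 16)) (.v (.a 3 4 4) (.a 3 2 3))) (.v (.v (.a 3 1 3) (.a 3 1 3)) (.a 3 2
  35))) (.v (.v (.a 3 1 30) (.a 3 2 3)) (.v (.a 3 1 3) (.a 3 1 3)))))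

theorem c69 : cover 13 t69 0 2748779069440 0 87960930222080 = true := by
  decide +kernel

def t80 : Tr :=
  (.v (.v (.v (.v (.v (.a 14 5 14) (.a 14 5 14)) (.v (.a 16 5 16) (.a 16 5 16))) (.v (.v (.a 18 5
  18) (.a 20 5 18)) (.a 30 5 30))) (.v (.v (.a 35 5 35) (.a 40 5 40)) (.v (.a 46 5 46) (.a 52 5
  46)))) (.v (.v (.v (.v (.a 40 5 35) (.a 3 2 35)) (.v (.a 3 1 35) (.a 3 1 3))) (.v (.v (.a 3 1 3)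
  (.a 3 1 3)) (.v (.a 3 1 3) (.a 3 1 3)))) (.v (.v (.a 3 1 3) (.a 3 1 3)) (.v (.a 3 1 3) (.a 3 1
  3)))))

theorem c80 : cover 24 t80 0 2748779069440 0 87960930222080 = true := by
  decide +kernel

end Vale.Agent.P139.D
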