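import Vale.Agent.P139.D.Chk

/-! P139 part D: certificates. -/

namespace Vale.Agent.P139.D

set_option maxRecDepth 100000

def t0 : Tr :=
  (.h (.v (.h (.v (.h (.v (.h (.v (.h (.v (.h (.s 0) (.v (.h (.s 0) (.a 6 1 6)) (.h (.a 6 1 7) (.a
  6 1 6)))) (.h (.v (.h (.s 0) (.a 6 1 6)) (.h (.a 6 1 6) (.a 6 1 6))) (.v (.a 7 1 7) (.a 6 1
  6)))) (.v (.h (.a 6 1 8) (.a 6 1 6)) (.h (.a 6 1 6) (.a 5 1 6)))) (.h (.v (.h (.a 7 1 8) (.a 6 1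
  6)) (.h (.a 6 1 5) (.a 5 1 6))) (.v (.a 8 5 8) (.a 6 1 6)))) (.v (.h (.a 6 1 7) (.a 5 1 5)) (.h
  (.a 6 1 6) (.a 5 1 5)))) (.h (.v (.h (.v (.a 6 1 6) (.a 5 1 6)) (.a 6 1 6)) (.h (.a 5 1 6) (.a 5
  1 5))) (.v (.h (.a 5 1 5) (.a 5 1 5)) (.a 6 1 6)))) (.v (.h (.v (.a 5 1 5) (.a 5 1 5)) (.a 5 1
  5)) (.h (.a 6 1 5) (.a 5 1 5)))) (.h (.v (.h (.v (.a 6 1 6) (.a 5 1 5)) (.a 6 1 6)) (.h (.a 5 1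
  5) (.a 5 1 5))) (.v (.h (.a 5 1 5) (.a 5 1 5)) (.h (.a 5 1 5) (.a 5 1 4))))) (.v (.h (.v (.a 5 1
  5) (.a 5 1 5)) (.a 5 1 5)) (.h (.v (.a 5 1 5) (.a 5 1 5)) (.a 5 1 5)))) (.h (.v (.h (.v (.h (.a
  5 1 5) (.a 5 1 5)) (.a 6 1 6)) (.v (.a 5 1 6) (.a 5 1 5))) (.h (.v (.a 5 1 5) (.a 5 1 5)) (.v
  (.a 5 1 5) (.a 5 1 5)))) (.v (.h (.a 6 1 5) (.a 5 1 5)) (.h (.a 5 1 5) (.a 5 1 4))))) (.v (.h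
  (.v (.h (.a 5 1 5) (.a 4 1 5)) (.h (.a 5 1 4) (.a 5 1 4))) (.v (.h (.a 4 1 5) (.a 4 1 4)) (.h
  (.a 4 1 5) (.a 4 1 4)))) (.h (.v (.h (.a 5 1 4) (.a 5 1 4)) (.h (.a 5 1 4) (.a 5 1 4))) (.v (.h
  (.b 4 1 5) (.b 4 1 4)) (.h (.b 4 1 5) (.b 4 1 4))))))

theorem c0 : cover 0 t0 0 687194767360 0 343597383680 = true := by
  decide +kernel

def t2 : Tr :=
  (.v (.h (.v (.h (.v (.h (.a 4 1 4) (.a 4 1 4)) (.h (.a 4 1 4) (.a 4 1 4))) (.v (.h (.a 5 1 5)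
  (.v (.h (.a 4 1 4) (.a 4 1 5)) (.a 6 1 6))) (.h (.a 5 1 4) (.v (.a 5 1 4) (.a 4 1 4))))) (.h (.v
  (.h (.b 4 1 4) (.b 4 1 4)) (.b 6 1 6)) (.v (.h (.b 4 1 4) (.b 4 1 4)) (.h (.b 4 1 4) (.b 4 1
  4))))) (.v (.h (.v (.h (.v (.h (.v (.h (.a 4 1 4) (.a 5 1 5)) (.a 5 1 6)) (.v (.h (.v (.h (.a 5
  1 5) (.v (.s 2) (.h (.a 5 1 4) (.s 2)))) (.h (.a 5 1 4) (.a 5 1 5))) (.v (.h (.s 2) (.v (.h (.s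
  2) (.a 4 1 5)) (.a 5 1 5))) (.h (.a 6 1 7) (.a 5 1 4)))) (.h (.a 5 1 5) (.a 6 1 6)))) (.h (.a 5
  1 5) (.v (.a 6 1 6) (.a 4 1 4)))) (.v (.h (.v (.h (.v (.a 5 1 5) (.a 4 1 5)) (.a 4 1 4)) (.h (.a
  4 1 5) (.a 4 1 4))) (.a 4 1 4)) (.h (.a 5 1 4) (.a 4 1 4)))) (.h (.v (.h (.a 4 1 4) (.a 4 1 4))
  (.a 4 1 4)) (.v (.a 4 1 5) (.a 4 1 4)))) (.v (.h (.a 4 1 4) (.a 3 1 4)) (.a 5 1 5))) (.h (.v (.h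
  (.b 4 1 4) (.a 4 1 4)) (.b 5 1 5)) (.v (.a 4 1 4) (.a 4 1 4))))) (.h (.v (.h (.v (.b 5 1 5) (.b
  5 1 4)) (.v (.b 4 1 5) (.b 4 1 4))) (.h (.b 5 1 6) (.b 4 1 5))) (.v (.h (.b 4 1 6) (.b 4 1 4))
  (.h (.b 4 1 4) (.b 4 1 4)))))

theorem c2 : cover 0 t2 687194767360 1374389534720 0 687194767360 = true := by
  decide +kernel

def t19 : Tr :=
  (.h (.v (.h (.v (.h (.b 7 1 7) (.v (.b 6 1 6) (.b 5 1 7))) (.h (.a 6 1 6) (.b 6 1 6))) (.v (.h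
  (.v (.b 6 1 6) (.b 5 1 7)) (.v (.b 6 1 6) (.b 5 1 7))) (.h (.b 6 1 6) (.b 6 1 6)))) (.h (.v (.h
  (.b 5 1 6) (.b 5 1 6)) (.h (.a 5 1 6) (.a 5 1 6))) (.v (.h (.b 5 1 6) (.b 5 1 6)) (.h (.a 5 1 6)
  (.a 5 1 6))))) (.v (.h (.v (.h (.b 8 5 8) (.b 6 1 6)) (.h (.b 5 1 7) (.b 5 1 6))) (.v (.h (.b 5
  1 7) (.b 5 1 6)) (.h (.b 5 1 6) (.a 5 1 6)))) (.h (.v (.h (.a 5 1 6) (.a 5 1 6)) (.b 6 1 7)) (.v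
  (.b 6 1 7) (.b 5 1 7)))))

theorem c19 : cover 1 t19 515396075520 601295421440 42949672960 85899345920 = true := by
  decide +kernel

def t43 : Tr :=
  (.v (.v (.h (.v (.h (.a 10 5 5) (.a 10 5 3)) (.b 14 5 8)) (.a 14 5 7)) (.h (.v (.a 16 5 3) (.a
  14 5 4)) (.a 14 5 6))) (.v (.h (.b 20 5 8) (.a 16 5 3)) (.h (.a 20 5 3) (.a 18 5 3))))

theorem c43 : cover 3 t43 0 2748779069440 5497558138880 10995116277760 = true := by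
  decide +kernel

def t56 : Tr :=
  (.v (.v (.v (.v (.v (.a 3 6 10) (.a 3 4 6)) (.v (.a 3 4 4) (.a 3 4 4))) (.v (.a 3 4 8) (.a 3 4
  5))) (.v (.v (.a 3 4 4) (.a 3 2 4)) (.a 3 4 26))) (.v (.v (.a 3 2 12) (.a 3 2 8)) (.v (.a 3 2 6)
  (.a 3 2 5))))

theorem c56 : cover 6 t56 0 2748779069440 43980465111040 87960930222080 = true := by
  decide +kernel

def t64 : Tr :=
  (.v (.v (.v (.v (.a 35 5 3) (.a 35 5 3)) (.v (.a 35 5 3) (.a 35 5 3))) (.v (.v (.a 40 5 3) (.a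
  40 5 3)) (.v (.a 40 5 3) (.a 40 5 3)))) (.v (.v (.v (.a 46 5 3) (.a 46 5 3)) (.v (.a 46 5 3) (.a
  46 5 3))) (.v (.v (.a 46 5 3) (.a 52 5 3)) (.v (.a 52 5 3) (.a 3 6 16)))))

theorem c64 : cover 9 t64 0 2748779069440 21990232555520 43980465111040 = true := by
  decide +kernel

def t68 : Tr :=
  (.v (.v (.v (.v (.v (.v (.h (.a 10 5 10) (.a 8 5 8)) (.h (.a 10 5 10) (.a 8 5 8))) (.v (.a 12 5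
  14) (.a 12 5 12))) (.v (.v (.a 14 5 12) (.a 14 5 14)) (.v (.a 16 5 14) (.a 16 5 14)))) (.v (.v
  (.v (.a 18 5 16) (.a 18 5 16)) (.a 26 5 23)) (.v (.a 30 5 23) (.a 35 5 23)))) (.v (.v (.v (.a 35
  5 23) (.a 40 5 23)) (.v (.a 40 5 3) (.a 46 5 3))) (.v (.v (.a 46 5 3) (.a 52 5 3)) (.v (.a 52 5
  3) (.v (.a 46 5 3) (.a 3 6 18)))))) (.v (.v (.v (.v (.v (.a 3 4 5) (.a 3 4 3)) (.a 3 6 14)) (.v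
  (.a 3 4 4) (.a 3 2 3))) (.v (.v (.a 3 1 3) (.a 3 1 3)) (.a 3 2 30))) (.v (.v (.a 3 1 20) (.a 3 2
  4)) (.v (.a 3 1 3) (.a 3 1 3)))))

theorem c68 : cover 12 t68 0 2748779069440 0 87960930222080 = true := by
  decide +kernel

def t70 : Tr :=
  (.v (.v (.v (.v (.v (.v (.a 10 5 10) (.a 10 5 10)) (.v (.a 10 5 12) (.a 12 5 12))) (.v (.v (.a
  12 5 12) (.a 14 5 14)) (.a 18 5 18))) (.v (.v (.a 20 5 18) (.a 23 5 20)) (.v (.a 26 5 23) (.a 30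
  5 23)))) (.v (.v (.v (.a 35 5 23) (.a 35 5 26)) (.v (.a 40 5 26) (.a 40 5 3))) (.v (.v (.a 46 5
  3) (.a 46 5 3)) (.v (.a 46 5 3) (.a 52 5 3))))) (.v (.v (.v (.v (.a 52 5 3) (.a 3 4 23)) (.v (.a
  3 4 3) (.a 3 2 3))) (.v (.v (.a 3 1 3) (.a 3 1 3)) (.a 3 2 40))) (.v (.v (.a 3 1 35) (.a 3 1 3))
  (.v (.a 3 1 3) (.a 3 1 3)))))

theorem c70 : cover 14 t70 0 2748779069440 0 87960930222080 = true := by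
  decide +kernel

end Vale.Agent.P139.D
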