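import Vale.Agent.P139.D.Chk

/-! P139 part D: certificates. -/

namespace Vale.Agent.P139.D

set_option maxRecDepth 100000

def t5 : Tr :=
  (.h (.v (.h (.v (.h (.v (.h (.v (.b 6 1 5) (.b 6 1 4)) (.b 6 1 5)) (.h (.b 7 1 5) (.b 6 1 4)))
  (.v (.h (.b 6 1 4) (.b 5 1 4)) (.h (.b 6 1 3) (.b 5 1 3)))) (.h (.v (.h (.b 7 1 3) (.b 6 1 3))
  (.h (.b 6 1 4) (.b 6 1 3))) (.v (.b 7 1 5) (.b 6 1 5)))) (.v (.h (.v (.b 6 1 4) (.b 5 1 5)) (.b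
  5 1 4)) (.h (.b 6 1 5) (.b 5 1 4)))) (.h (.v (.h (.v (.b 10 5 5) (.b 8 5 4)) (.b 8 5 5)) (.h (.v
  (.b 7 1 4) (.b 7 1 3)) (.b 7 1 4))) (.v (.h (.b 6 1 4) (.b 5 1 3)) (.h (.b 6 1 3) (.b 5 1 4)))))
  (.v (.h (.v (.b 6 1 6) (.b 6 1 4)) (.a 5 1 3)) (.h (.b 10 5 5) (.a 6 1 3))))

theorem c5 : cover 0 t5 0 2748779069440 1374389534720 2748779069440 = true := by
  decide +kernel

def t17 : Tr :=
  (.v (.h (.v (.h (.v (.h (.b 6 1 6) (.v (.b 6 1 6) (.b 6 1 6))) (.h (.b 6 1 6) (.b 7 1 7))) (.v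
  (.h (.v (.b 8 5 8) (.b 7 1 7)) (.v (.h (.b 6 1 6) (.s 1)) (.h (.b 6 1 6) (.s 1)))) (.h (.v (.b 7
  1 7) (.b 6 1 7)) (.v (.h (.b 6 1 6) (.b 6 1 7)) (.h (.a 6 1 6) (.b 6 1 6)))))) (.h (.v (.h (.b 6
  1 6) (.b 6 1 7)) (.h (.a 6 1 6) (.b 6 1 6))) (.v (.h (.v (.b 6 1 7) (.b 6 1 6)) (.v (.h (.a 6 1
  6) (.a 6 1 6)) (.b 7 1 7))) (.h (.b 6 1 7) (.v (.b 6 1 7) (.b 6 1 6)))))) (.v (.s 1) (.h (.v (.h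
  (.v (.h (.b 6 1 6) (.s 1)) (.h (.a 6 1 6) (.b 6 1 6))) (.v (.s 1) (.h (.b 6 1 7) (.s 1)))) (.h
  (.v (.b 12 5 10) (.b 6 1 7)) (.v (.h (.b 6 1 6) (.b 6 1 6)) (.b 7 1 8)))) (.v (.h (.s 1) (.v (.s
  1) (.h (.s 1) (.b 6 1 7)))) (.h (.v (.h (.b 6 1 6) (.b 6 1 6)) (.b 7 1 8)) (.v (.h (.b 6 1 6)
  (.b 6 1 6)) (.b 6 1 8))))))) (.h (.v (.h (.v (.h (.a 6 1 6) (.a 6 1 6)) (.h (.b 5 1 6) (.b 5 1
  7))) (.v (.h (.b 6 1 6) (.b 6 1 7)) (.h (.a 6 1 6) (.b 6 1 6)))) (.h (.v (.b 6 1 7) (.b 6 1 6))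
  (.v (.h (.b 5 1 6) (.b 5 1 7)) (.b 6 1 7)))) (.v (.h (.v (.h (.b 7 1 8) (.v (.b 6 1 7) (.b 6 1
  6))) (.h (.b 6 1 6) (.b 6 1 6))) (.v (.h (.v (.b 6 1 7) (.b 6 1 6)) (.b 10 5 10)) (.h (.b 6 1 7)
  (.b 6 1 6)))) (.h (.v (.h (.b 5 1 7) (.b 5 1 7)) (.b 10 5 10)) (.v (.h (.b 5 1 7) (.b 5 1 7))
  (.b 7 1 8))))))

theorem c17 : cover 1 t17 515396075520 558345748480 0 42949672960 = true := by
  decide +kernel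

def t37 : Tr :=
  (.v (.h (.v (.h (.v (.h (.b 7 1 6) (.a 7 1 5)) (.b 10 5 8)) (.b 10 5 8)) (.h (.v (.b 10 5 6) (.b
  10 5 5)) (.b 8 5 7))) (.v (.a 10 5 6) (.a 10 5 6))) (.h (.v (.h (.b 10 5 8) (.a 10 5 3)) (.h (.a
  12 5 3) (.a 10 5 3))) (.v (.a 10 5 5) (.a 12 5 3))))

theorem c37 : cover 2 t37 0 2748779069440 2748779069440 5497558138880 = true := by
  decide +kernel

def t51 : Tr :=
  (.v (.v (.v (.v (.h (.v (.h (.v (.h (.a 7 1 7) (.a 6 1 6)) (.h (.a 7 1 7) (.a 6 1 6))) (.a 6 1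
  6)) (.h (.v (.h (.a 7 1 7) (.a 6 1 6)) (.h (.a 7 1 7) (.a 6 1 6))) (.a 6 1 7))) (.a 7 1 8)) (.h
  (.v (.h (.v (.a 8 5 8) (.a 8 5 8)) (.a 7 1 7)) (.h (.v (.a 8 5 8) (.a 8 5 8)) (.a 7 1 7))) (.a 8
  5 8))) (.v (.h (.v (.h (.v (.a 8 5 8) (.a 8 5 8)) (.a 7 1 7)) (.h (.a 10 5 10) (.a 7 1 7))) (.a
  10 5 8)) (.h (.v (.h (.a 10 5 8) (.a 8 5 7)) (.a 14 5 12)) (.a 10 5 8)))) (.v (.v (.h (.v (.a 12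
  5 10) (.a 12 5 10)) (.a 12 5 8)) (.h (.a 16 5 12) (.a 12 5 8))) (.v (.h (.a 16 5 10) (.a 14 5
  8)) (.h (.a 18 5 10) (.a 16 5 3))))) (.v (.v (.v (.h (.a 18 5 3) (.a 16 5 3)) (.h (.a 20 5 3)
  (.a 18 5 3))) (.v (.h (.a 20 5 3) (.a 18 5 3)) (.h (.a 23 5 3) (.a 20 5 3)))) (.v (.v (.a 35 5
  3) (.h (.a 23 5 3) (.a 23 5 3))) (.v (.h (.a 26 5 3) (.a 23 5 3)) (.a 40 5 3)))))

theorem c51 : cover 5 t51 0 2748779069440 0 21990232555520 = true := by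
  decide +kernel

def t55 : Tr :=
  (.v (.v (.v (.v (.a 40 5 3) (.a 40 5 3)) (.v (.a 40 5 3) (.a 46 5 3))) (.v (.v (.a 46 5 3) (.a
  46 5 3)) (.v (.a 46 5 3) (.a 52 5 3)))) (.v (.v (.v (.a 52 5 3) (.a 52 5 3)) (.v (.a 52 5 3) (.a
  52 5 3))) (.v (.v (.h (.a 3 1 3) (.a 3 6 4)) (.h (.a 3 1 3) (.a 3 4 3))) (.v (.h (.a 3 1 3) (.a
  3 4 3)) (.h (.a 3 1 3) (.a 3 2 3))))))

theorem c55 : cover 6 t55 0 2748779069440 21990232555520 43980465111040 = true := by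
  decide +kernel

def t60 : Tr :=
  (.v (.v (.v (.v (.h (.v (.a 10 5 10) (.a 10 5 10)) (.a 7 1 7)) (.h (.v (.a 10 5 10) (.a 10 5
  10)) (.a 7 1 7))) (.v (.h (.v (.a 10 5 10) (.a 10 5 10)) (.a 8 5 8)) (.h (.v (.a 10 5 10) (.a 10
  5 10)) (.a 10 5 8)))) (.v (.v (.h (.a 12 5 12) (.a 10 5 10)) (.h (.a 12 5 12) (.a 12 5 10))) (.v
  (.h (.a 14 5 12) (.a 12 5 10)) (.a 23 5 16)))) (.v (.v (.v (.a 23 5 16) (.a 23 5 16)) (.v (.a 26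
  5 16) (.a 26 5 16))) (.v (.v (.a 30 5 16) (.a 30 5 3)) (.v (.a 30 5 3) (.a 35 5 3)))))

theorem c60 : cover 8 t60 0 2748779069440 0 21990232555520 = true := by
  decide +kernel

def t65 : Tr :=
  (.v (.v (.v (.v (.v (.a 3 4 6) (.a 3 4 4)) (.a 3 6 14)) (.v (.a 3 4 5) (.a 3 4 4))) (.v (.v (.a
  3 2 3) (.a 3 1 3)) (.a 3 4 14))) (.v (.v (.a 3 2 10) (.a 3 2 6)) (.v (.a 3 2 4) (.a 3 1 4))))

theorem c65 : cover 9 t65 0 2748779069440 43980465111040 87960930222080 = true := by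
  decide +kernel

def t77 : Tr :=
  (.v (.v (.v (.v (.v (.a 12 5 12) (.a 14 5 14)) (.v (.a 14 5 14) (.a 16 5 16))) (.v (.v (.a 18 5
  18) (.a 20 5 18)) (.v (.a 23 5 20) (.a 23 5 23)))) (.v (.v (.a 40 5 40) (.v (.a 30 5 26) (.a 30
  5 26))) (.v (.v (.a 35 5 30) (.a 35 5 30)) (.v (.a 40 5 30) (.a 40 5 3))))) (.v (.v (.v (.v (.a
  40 5 3) (.a 3 2 35)) (.v (.a 3 1 35) (.a 3 1 3))) (.v (.a 3 4 52) (.v (.a 3 1 3) (.a 3 1 3))))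
  (.v (.v (.a 3 2 3) (.a 3 1 3)) (.v (.a 3 1 3) (.a 3 1 3)))))

theorem c77 : cover 21 t77 0 2748779069440 0 87960930222080 = true := by
  decide +kernel

end Vale.Agent.P139.D
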