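import Vale.Agent.P139.D.Chk

/-! P139 part D: certificates. -/

namespace Vale.Agent.P139.D

set_option maxRecDepth 100000

def t11 : Tr :=
  (.h (.v (.h (.v (.h (.v (.h (.a 6 1 7) (.a 6 1 7)) (.h (.a 6 1 7) (.a 6 1 7))) (.v (.h (.a 6 1
  6) (.a 6 1 6)) (.h (.a 6 1 6) (.a 6 1 6)))) (.h (.v (.h (.a 6 1 7) (.a 6 1 7)) (.h (.a 6 1 7)
  (.a 6 1 6))) (.v (.h (.a 6 1 6) (.a 6 1 6)) (.h (.a 6 1 6) (.a 6 1 6))))) (.v (.h (.v (.h (.a 6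
  1 6) (.a 6 1 6)) (.h (.a 6 1 6) (.a 6 1 6))) (.v (.a 7 1 7) (.a 7 1 7))) (.h (.v (.h (.a 6 1 6)
  (.a 6 1 6)) (.a 8 5 8)) (.v (.a 7 1 7) (.a 7 1 7))))) (.h (.v (.h (.v (.h (.a 6 1 7) (.a 6 1 6))
  (.h (.a 6 1 7) (.a 6 1 6))) (.v (.h (.a 6 1 6) (.a 6 1 6)) (.h (.a 6 1 6) (.a 6 1 6)))) (.h (.v
  (.h (.a 6 1 6) (.a 6 1 6)) (.h (.a 6 1 6) (.a 6 1 6))) (.v (.h (.a 6 1 6) (.a 6 1 6)) (.h (.a 6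
  1 6) (.a 6 1 6))))) (.v (.h (.v (.a 7 1 8) (.a 7 1 7)) (.v (.a 6 1 7) (.a 6 1 7))) (.h (.v (.a 7
  1 7) (.a 7 1 7)) (.v (.a 6 1 7) (.a 6 1 7)))))) (.v (.h (.v (.h (.v (.a 6 1 7) (.a 6 1 7)) (.v
  (.a 6 1 6) (.a 6 1 6))) (.h (.v (.a 6 1 7) (.a 6 1 6)) (.v (.a 6 1 6) (.a 6 1 6)))) (.v (.h (.a
  7 1 7) (.a 6 1 7)) (.h (.a 7 1 7) (.a 6 1 7)))) (.h (.v (.h (.v (.a 6 1 6) (.a 6 1 6)) (.a 8 5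
  8)) (.h (.v (.a 6 1 6) (.a 6 1 6)) (.a 7 1 7))) (.v (.h (.a 7 1 7) (.a 6 1 7)) (.h (.a 6 1 7)
  (.a 6 1 6))))))

theorem c11 : cover 1 t11 0 171798691840 0 85899345920 = true := by
  decide +kernel

def t12 : Tr :=
  (.h (.v (.h (.v (.h (.v (.h (.a 6 1 6) (.a 6 1 6)) (.h (.a 6 1 6) (.a 6 1 6))) (.v (.a 8 5 8)
  (.a 7 1 7))) (.h (.v (.h (.a 6 1 6) (.a 6 1 6)) (.a 7 1 8)) (.v (.a 7 1 7) (.a 7 1 6)))) (.v (.h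
  (.v (.a 7 1 7) (.a 6 1 7)) (.v (.a 6 1 6) (.a 6 1 6))) (.h (.v (.a 6 1 7) (.a 6 1 6)) (.v (.a 6
  1 6) (.a 6 1 6))))) (.h (.v (.h (.v (.a 7 1 7) (.a 7 1 6)) (.v (.a 6 1 7) (.a 6 1 7))) (.h (.v
  (.a 6 1 7) (.a 6 1 7)) (.v (.a 6 1 6) (.a 6 1 6)))) (.v (.h (.v (.a 6 1 6) (.a 6 1 6)) (.a 7 1
  7)) (.h (.a 7 1 7) (.a 6 1 7))))) (.v (.h (.v (.h (.a 8 5 8) (.a 7 1 7)) (.h (.a 7 1 7) (.a 6 1
  7))) (.v (.h (.a 6 1 7) (.a 6 1 6)) (.h (.a 6 1 6) (.a 6 1 6)))) (.h (.v (.h (.a 6 1 7) (.a 6 1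
  6)) (.h (.a 6 1 6) (.a 6 1 6))) (.v (.h (.a 6 1 6) (.a 6 1 6)) (.h (.a 6 1 6) (.a 6 1 6))))))

theorem c12 : cover 1 t12 0 171798691840 85899345920 171798691840 = true := by
  decide +kernel

def t31 : Tr :=
  (.v (.v (.v (.v (.h (.a 35 5 3) (.a 30 5 3)) (.h (.a 35 5 3) (.a 35 5 3))) (.v (.h (.a 35 5 3)
  (.a 35 5 3)) (.h (.a 35 5 3) (.a 35 5 3)))) (.v (.v (.h (.a 40 5 3) (.a 35 5 3)) (.h (.a 40 5 3)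
  (.a 40 5 3))) (.v (.h (.a 40 5 3) (.a 40 5 3)) (.h (.a 40 5 3) (.a 40 5 3))))) (.v (.v (.v (.h
  (.a 40 5 3) (.a 40 5 3)) (.h (.a 3 4 6) (.a 40 5 3))) (.v (.h (.a 3 4 4) (.a 40 5 3)) (.h (.a 3
  4 3) (.a 46 5 3)))) (.v (.v (.h (.a 3 2 3) (.a 46 5 3)) (.h (.a 3 1 3) (.a 46 5 3))) (.v (.h (.a
  3 1 3) (.a 3 4 10)) (.h (.a 3 1 3) (.a 3 4 6))))))

theorem c31 : cover 1 t31 0 2748779069440 21990232555520 43980465111040 = true := by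
  decide +kernel

def t36 : Tr :=
  (.h (.v (.h (.v (.h (.v (.h (.v (.h (.a 6 1 6) (.a 6 1 6)) (.a 7 1 6)) (.a 7 1 7)) (.h (.v (.a 7
  1 6) (.b 6 1 7)) (.a 7 1 6))) (.v (.h (.a 6 1 5) (.a 5 1 5)) (.a 7 1 7))) (.h (.v (.h (.a 7 1 6)
  (.a 6 1 6)) (.h (.b 6 1 7) (.a 6 1 5))) (.v (.a 7 1 5) (.b 6 1 6)))) (.v (.h (.a 6 1 6) (.a 5 1
  5)) (.h (.a 6 1 5) (.a 5 1 5)))) (.h (.v (.h (.v (.b 7 1 7) (.b 7 1 6)) (.b 7 1 6)) (.h (.b 8 5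
  6) (.a 7 1 5))) (.v (.a 10 5 6) (.a 7 1 6)))) (.v (.h (.a 6 1 5) (.a 4 1 4)) (.h (.a 6 1 5) (.a
  5 1 4))))

theorem c36 : cover 2 t36 0 2748779069440 1374389534720 2748779069440 = true := by
  decide +kernel

def t38 : Tr :=
  (.v (.v (.h (.v (.h (.a 12 5 3) (.a 10 5 3)) (.b 16 5 8)) (.a 16 5 6)) (.h (.v (.a 18 5 3) (.a
  16 5 3)) (.a 16 5 3))) (.v (.h (.b 26 5 10) (.a 18 5 3)) (.h (.a 23 5 3) (.a 18 5 3))))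

theorem c38 : cover 2 t38 0 2748779069440 5497558138880 10995116277760 = true := by
  decide +kernel

def t52 : Tr :=
  (.v (.v (.v (.v (.a 40 5 3) (.h (.a 30 5 3) (.a 26 5 3))) (.v (.a 46 5 3) (.a 46 5 3))) (.v (.v
  (.a 46 5 3) (.h (.a 35 5 3) (.a 30 5 3))) (.v (.a 52 5 3) (.a 52 5 3)))) (.v (.v (.v (.a 52 5 3)
  (.a 52 5 3)) (.v (.h (.a 3 2 3) (.a 35 5 3)) (.h (.a 3 1 3) (.a 40 5 3)))) (.v (.v (.h (.a 3 1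
  3) (.a 3 6 5)) (.h (.a 3 1 3) (.a 3 4 3))) (.v (.h (.a 3 1 3) (.a 3 4 3)) (.h (.a 3 1 3) (.a 3 2
  3))))))

theorem c52 : cover 5 t52 0 2748779069440 21990232555520 43980465111040 = true := by
  decide +kernel

def t59 : Tr :=
  (.v (.v (.v (.v (.v (.a 3 6 7) (.a 3 4 5)) (.v (.a 3 4 4) (.a 3 4 3))) (.v (.a 3 4 7) (.a 3 4
  5))) (.v (.v (.a 3 2 4) (.a 3 2 3)) (.a 3 4 16))) (.v (.v (.a 3 2 10) (.a 3 2 7)) (.v (.a 3 1 6)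
  (.a 3 1 5))))

theorem c59 : cover 7 t59 0 2748779069440 43980465111040 87960930222080 = true := by
  decide +kernel

def t74 : Tr :=
  (.v (.v (.v (.v (.v (.a 12 5 12) (.a 12 5 14)) (.v (.a 14 5 14) (.a 16 5 16))) (.v (.v (.a 18 5
  18) (.a 20 5 20)) (.v (.a 23 5 20) (.a 26 5 23)))) (.v (.v (.v (.a 26 5 23) (.a 30 5 26)) (.v
  (.a 35 5 26) (.a 35 5 30))) (.v (.v (.a 35 5 30) (.a 40 5 3)) (.v (.a 40 5 3) (.a 46 5 3)))))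
  (.v (.v (.v (.v (.a 46 5 3) (.a 3 4 30)) (.v (.a 3 4 3) (.a 3 1 3))) (.v (.a 3 4 52) (.a 3 1
  52))) (.v (.v (.a 3 2 3) (.a 3 1 3)) (.v (.a 3 1 3) (.a 3 1 3)))))

theorem c74 : cover 18 t74 0 2748779069440 0 87960930222080 = true := by
  decide +kernel

end Vale.Agent.P139.D
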