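import Vale.Agent.P139.D.Chk

/-! P139 part D: certificates. -/

namespace Vale.Agent.P139.D

set_option maxRecDepth 100000

def t3 : Tr :=
  (.h (.v (.h (.v (.h (.v (.h (.v (.h (.a 6 1 4) (.a 5 1 4)) (.h (.a 6 1 4) (.a 5 1 4))) (.v (.b 6
  1 5) (.b 6 1 5))) (.h (.v (.h (.b 5 1 5) (.a 5 1 4)) (.b 6 1 6)) (.v (.a 6 1 5) (.a 6 1 4))))
  (.v (.h (.b 6 1 5) (.b 5 1 5)) (.h (.b 6 1 5) (.b 5 1 4)))) (.h (.v (.h (.v (.b 6 1 5) (.b 6 1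
  4)) (.b 6 1 5)) (.h (.b 6 1 5) (.b 6 1 4))) (.v (.h (.b 5 1 5) (.b 5 1 4)) (.h (.b 5 1 5) (.b 5
  1 4))))) (.v (.h (.v (.h (.b 5 1 4) (.a 5 1 4)) (.b 6 1 5)) (.v (.b 5 1 4) (.b 5 1 4))) (.h (.v
  (.b 6 1 5) (.b 5 1 5)) (.b 6 1 5)))) (.h (.v (.h (.v (.h (.b 6 1 4) (.b 6 1 4)) (.h (.b 6 1 4)
  (.b 6 1 4))) (.v (.b 7 1 6) (.b 6 1 5))) (.h (.v (.h (.b 6 1 4) (.b 6 1 3)) (.b 7 1 5)) (.v (.b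
  6 1 4) (.b 6 1 4)))) (.v (.h (.b 7 1 5) (.b 5 1 4)) (.h (.b 6 1 4) (.b 5 1 4))))) (.v (.h (.v
  (.h (.b 5 1 4) (.b 4 1 4)) (.h (.b 5 1 4) (.b 4 1 4))) (.v (.b 5 1 5) (.b 5 1 4))) (.h (.v (.h
  (.b 5 1 4) (.b 4 1 4)) (.b 6 1 5)) (.b 6 1 5))))

theorem c3 : cover 0 t3 0 1374389534720 687194767360 1374389534720 = true := by
  decide +kernel

def t4 : Tr :=
  (.v (.h (.v (.h (.v (.a 4 1 5) (.a 5 1 4)) (.a 3 1 3)) (.h (.v (.b 4 1 4) (.b 4 1 4)) (.b 3 1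
  4))) (.a 4 1 4)) (.h (.v (.h (.b 4 1 5) (.b 3 9 4)) (.h (.b 4 1 4) (.a 4 1 3))) (.a 5 1 3)))

theorem c4 : cover 0 t4 1374389534720 2748779069440 0 1374389534720 = true := by
  decide +kernel

def t6 : Tr :=
  (.v (.h (.v (.h (.v (.h (.b 8 5 5) (.b 7 1 3)) (.h (.b 8 5 3) (.b 7 1 3))) (.v (.b 8 5 5) (.b 8
  5 4))) (.h (.v (.h (.b 8 5 3) (.b 7 1 3)) (.b 12 5 4)) (.b 12 5 5))) (.v (.h (.b 8 5 4) (.a 6 1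
  3)) (.h (.b 8 5 3) (.a 7 1 3)))) (.h (.v (.h (.v (.b 10 5 4) (.b 10 5 3)) (.b 10 5 4)) (.h (.b
  14 5 4) (.b 10 5 3))) (.v (.b 18 5 10) (.b 14 5 5))))

theorem c6 : cover 0 t6 0 2748779069440 2748779069440 5497558138880 = true := by
  decide +kernel

def t18 : Tr :=
  (.v (.h (.v (.h (.v (.h (.s 1) (.v (.h (.s 1) (.b 6 1 6)) (.h (.b 6 1 7) (.b 6 1 6)))) (.h (.v
  (.s 1) (.h (.s 1) (.b 6 1 7))) (.v (.h (.b 6 1 7) (.b 6 1 6)) (.b 10 5 10)))) (.v (.h (.v (.b 6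
  1 7) (.b 6 1 7)) (.b 6 1 7)) (.h (.v (.b 6 1 7) (.b 6 1 7)) (.b 6 1 7)))) (.h (.v (.h (.v (.h
  (.b 6 1 7) (.b 6 1 6)) (.h (.b 6 1 6) (.a 6 1 6))) (.v (.b 7 1 7) (.b 6 1 7))) (.h (.v (.b 7 1
  7) (.b 6 1 7)) (.b 7 1 8))) (.v (.h (.b 7 1 7) (.b 6 1 6)) (.h (.b 6 1 7) (.a 6 1 6))))) (.v (.h
  (.v (.h (.a 6 1 6) (.a 6 1 6)) (.h (.a 6 1 6) (.a 6 1 6))) (.v (.b 6 1 6) (.b 6 1 6))) (.h (.v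
  (.b 8 5 8) (.b 6 1 7)) (.b 7 1 7)))) (.h (.v (.h (.v (.h (.b 6 1 7) (.b 6 1 6)) (.h (.b 6 1 6)
  (.a 6 1 6))) (.v (.h (.b 6 1 6) (.b 5 1 7)) (.b 8 5 8))) (.h (.v (.h (.b 5 1 7) (.b 5 1 6)) (.b
  6 1 7)) (.v (.b 6 1 7) (.b 6 1 6)))) (.v (.h (.v (.b 6 1 6) (.b 6 1 6)) (.b 6 1 6)) (.h (.b 6 1
  7) (.a 6 1 6)))))

theorem c18 : cover 1 t18 558345748480 601295421440 0 42949672960 = true := by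
  decide +kernel

def t21 : Tr :=
  (.h (.v (.h (.v (.h (.v (.b 6 1 6) (.b 5 1 7)) (.v (.b 6 1 6) (.b 5 1 6))) (.h (.b 6 1 6) (.b 6
  1 6))) (.v (.h (.v (.b 5 1 7) (.a 5 1 6)) (.b 6 1 6)) (.h (.b 5 1 6) (.a 5 1 6)))) (.h (.v (.h
  (.a 5 1 6) (.a 5 1 6)) (.h (.a 5 1 6) (.a 5 1 5))) (.v (.h (.a 5 1 6) (.b 5 1 5)) (.h (.a 5 1 5)
  (.a 5 1 5))))) (.v (.h (.v (.h (.b 5 1 6) (.a 5 1 6)) (.h (.a 5 1 6) (.a 5 1 5))) (.v (.b 6 1 6)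
  (.b 5 1 6))) (.h (.v (.b 6 1 7) (.b 5 1 6)) (.b 6 1 7))))

theorem c21 : cover 1 t21 515396075520 687194767360 85899345920 171798691840 = true := by
  decide +kernel

def t40 : Tr :=
  (.v (.v (.v (.v (.h (.a 30 5 3) (.a 30 5 3)) (.h (.a 35 5 3) (.a 30 5 3))) (.v (.h (.a 35 5 3)
  (.a 35 5 3)) (.h (.a 35 5 3) (.a 35 5 3)))) (.v (.v (.h (.a 35 5 3) (.a 35 5 3)) (.h (.a 40 5 3)
  (.a 35 5 3))) (.v (.h (.a 40 5 3) (.a 35 5 3)) (.h (.a 40 5 3) (.a 40 5 3))))) (.v (.v (.v (.h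
  (.a 3 6 12) (.a 40 5 3)) (.h (.a 3 4 4) (.a 40 5 3))) (.v (.h (.a 3 4 3) (.a 40 5 3)) (.h (.a 3
  2 3) (.a 40 5 3)))) (.v (.v (.h (.a 3 1 3) (.a 46 5 3)) (.h (.a 3 1 3) (.a 3 4 10))) (.v (.h (.a
  3 1 3) (.a 3 4 5)) (.h (.a 3 1 3) (.a 3 4 4))))))

theorem c40 : cover 2 t40 0 2748779069440 21990232555520 43980465111040 = true := by
  decide +kernel

def t42 : Tr :=
  (.v (.v (.h (.v (.h (.v (.h (.v (.h (.a 7 1 7) (.a 6 1 6)) (.h (.a 7 1 7) (.a 6 1 6))) (.v (.a 6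
  1 6) (.a 6 1 6))) (.h (.v (.h (.a 6 1 7) (.a 6 1 6)) (.h (.a 6 1 7) (.a 6 1 6))) (.v (.a 6 1 6)
  (.a 6 1 6)))) (.v (.h (.a 5 1 6) (.a 5 1 5)) (.h (.a 5 1 7) (.a 5 1 5)))) (.h (.v (.h (.v (.h
  (.a 6 1 7) (.a 6 1 6)) (.h (.a 6 1 8) (.a 6 1 6))) (.v (.a 6 1 6) (.a 6 1 6))) (.h (.v (.h (.a 7
  1 7) (.a 6 1 6)) (.h (.a 7 1 8) (.a 6 1 7))) (.v (.a 6 1 6) (.a 6 1 6)))) (.v (.h (.a 6 1 6) (.a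
  5 1 5)) (.a 8 5 12)))) (.v (.h (.a 5 1 5) (.a 4 1 4)) (.h (.a 5 1 5) (.a 4 1 4)))) (.h (.v (.h
  (.v (.h (.v (.h (.a 7 1 8) (.a 6 1 7)) (.h (.a 7 1 8) (.a 6 1 7))) (.a 8 5 8)) (.h (.v (.h (.a 7
  1 7) (.a 6 1 6)) (.h (.a 6 6 8) (.a 6 1 6))) (.a 7 1 7))) (.v (.a 7 1 7) (.a 7 1 6))) (.h (.v
  (.h (.v (.a 7 1 8) (.a 7 1 7)) (.a 7 1 6)) (.h (.a 8 5 7) (.a 7 1 6))) (.v (.a 7 1 6) (.a 7 1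
  6)))) (.v (.a 8 5 7) (.a 8 5 6)))) (.v (.h (.v (.h (.v (.h (.a 8 5 6) (.a 7 1 6)) (.a 14 5 12))
  (.a 8 5 6)) (.h (.v (.a 10 5 7) (.a 10 5 6)) (.a 8 5 6))) (.v (.a 8 5 6) (.a 8 5 6))) (.h (.v
  (.h (.b 10 5 8) (.a 8 5 6)) (.h (.a 10 5 6) (.a 10 5 5))) (.a 14 5 8))))

theorem c42 : cover 3 t42 0 2748779069440 0 5497558138880 = true := by
  decide +kernel

def t71 : Tr :=
  (.v (.v (.v (.v (.v (.v (.a 10 5 10) (.a 10 5 10)) (.v (.a 12 5 12) (.a 12 5 12))) (.v (.a 16 5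
  16) (.a 18 5 16))) (.v (.v (.a 20 5 18) (.a 23 5 20)) (.v (.a 26 5 23) (.a 30 5 23)))) (.v (.v
  (.v (.a 30 5 23) (.a 35 5 26)) (.v (.a 35 5 26) (.a 40 5 26))) (.v (.v (.a 40 5 3) (.a 46 5 3))
  (.v (.a 46 5 3) (.a 52 5 3))))) (.v (.v (.v (.v (.a 52 5 3) (.a 3 4 26)) (.v (.a 3 4 3) (.a 3 2
  3))) (.v (.a 3 4 46) (.a 3 2 46))) (.v (.v (.a 3 1 40) (.a 3 1 3)) (.v (.a 3 1 3) (.a 3 1 3)))))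

theorem c71 : cover 15 t71 0 2748779069440 0 87960930222080 = true := by
  decide +kernel

end Vale.Agent.P139.D
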