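import Vale.Agent.P206.U.NumDef

/-! P139 part D: the checker (ball arithmetic at scale `2^40`), written for the kernel. -/

namespace Vale.Agent.P139.D

open Vale.Agent.P206.U.Num

noncomputable section

def fN (n : Nat) (k : Nat → Bool) : Bool := Nat.rec (k 0) (fun p _ => k (Nat.succ p)) n

def fZ (a : Int) (k : Int → Bool) : Bool :=
  Int.rec (fun m => fN m fun m => k (Int.ofNat m)) (fun m => fN m fun m => k (Int.negSucc m)) a

def fB (a : B) (k : B → Bool) : Bool := fZ a.x fun x => fZ a.y fun y => fN a.r fun r => k ⟨x, y, r⟩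

/-- guard -/
def gd (c k : Bool) : Bool := Bool.rec false k c

def SS : Nat := 1099511627776

/-- Newton step for an upper bound of the square root -/
def nw (n g : Nat) : Nat := Nat.succ (Nat.shiftRight (Nat.add g (Nat.div n g)) 1)

def sq2 (x y : Nat) : Nat := Nat.add (Nat.mul x x) (Nat.mul y y)

def ab2 (x y : Nat) : Nat := nw (sq2 x y) (nw (sq2 x y) (Nat.succ (Nat.add x y)))

def sqU (n : Nat) : Nat :=
  nw n (nw n (nw n (nw n (Nat.shiftLeft 1 (Nat.succ (Nat.shiftRight (Nat.log2 n) 1))))))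

/-- upper bound for the norm of the centre -/
def ub (a : B) : Nat := ab2 (zabs a.x) (zabs a.y)

def subB (a b : B) : B := ⟨zsub a.x b.x, zsub a.y b.y, Nat.add a.r b.r⟩

def conjB (a : B) : B := ⟨a.x, zneg a.y, a.r⟩

def reB (n : Nat) : B := ⟨Int.ofNat n, Int.ofNat 0, 0⟩

def mulT (a b : B) : B :=
  ⟨zshr (reM a b) 40, zshr (imM a b) 40, Nat.add (Nat.shiftRight
    (Nat.add (Nat.mul (Nat.add (ub a) a.r) b.r) (Nat.mul (ub b) a.r)) 40) 3⟩

def invD (a : B) (den : Nat) : B :=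
  ⟨zdiv (zshl a.x 80) den, zdiv (zshl (zneg a.y) 80) den,
    Nat.add (Nat.div (Nat.shiftLeft a.r 80) den) 3⟩

def invT (a : B) : B := invD a (Nat.sub (nsq a) (Nat.mul a.r a.r))

/-- all points of the ball have norm at least `h / 2^40` -/
def nz (a : B) (h : Nat) : Bool := Nat.ble (Nat.mul (Nat.add a.r h) (Nat.add a.r h)) (nsq a)

/-- `X` at scale `2^40` and `L` at scale `2^80` -/
structure Par where
  x : Nat
  e : Nat
  L : Nat
  eL : Nat

def til (p : Par) (T : B) : B := ⟨T.x, zadd T.y (Int.ofNat p.x), Nat.add T.r p.e⟩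

/-- one step of the continued fraction -/
def step (p : Par) (n T : B) (k : B → Bool) : Bool :=
  fB (til p T) fun t =>
  fZ (zsub n.x t.x) fun wx => fZ (zsub n.y t.y) fun wy =>
  fN (sq2 (zabs wx) (zabs wy)) fun q =>
  fN (Nat.sub (Nat.div q (nw q (nw q (Nat.succ (Nat.add (zabs wx) (zabs wy))))))
    (Nat.add t.r n.r)) fun gap =>
  gd (Nat.ble 1073741824 gap)
    (fN (Nat.sub q (Nat.mul t.r t.r)) fun den =>
    fZ (zsub (zsub (zmul n.x n.x) (zmul n.y n.y)) (Int.ofNat p.L)) fun ax =>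
    fZ (zmul (Int.ofNat 2) (zmul n.x n.y)) fun ay =>
    fZ (zsub (zdiv (zadd (zmul ax wx) (zmul ay wy)) den) n.x) fun cx =>
    fZ (zsub (zdiv (zsub (zmul ay wx) (zmul ax wy)) den) n.y) fun cy =>
    fN (Nat.add (Nat.div (Nat.mul (ab2 (zabs ax) (zabs ay)) t.r) den) 3) fun r0 =>
    fN (Nat.add (Nat.div (Nat.add (Nat.mul n.r (Nat.add (Nat.add
      (ab2 (zabs (zsub t.x cx)) (zabs (zsub t.y cy))) t.r) r0)) p.eL) gap) (Nat.succ r0)) fun r =>
    k ⟨cx, cy, r⟩)

/-- from level `m + 1` down to level `1` -/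
def chain (p : Par) (nu : Nat → B) (m : Nat) (T : B) (k : B → Bool) : Bool :=
  Nat.rec (motive := fun _ => B → Bool) k
    (fun j ih T => fB (nu (Nat.succ j)) fun n => step p n T ih) m T

/-- the starting disc with centre `-(a + i q)` -/
def start (L1 X1 s1 : Nat) (o0 o1 : Int) (a : Nat) (q : Int) (kk : Nat) (k : B → Bool) : Bool :=
  gd (Nat.ble s1 a) (gd (zge (zsub o0 q) 0)
    (fB ⟨snn 0 a, zneg q, sqU (zpos (zsub (zadd (zadd (Int.ofNat (Nat.add L1 (Nat.mul a a)))
      (zmul q q)) (zmul (zsub o1 q) (Int.ofNat X1)))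
      (Int.ofNat (Nat.mul (Nat.mul 2 (Nat.sub a s1)) kk))))⟩ k))

/-! ### Bounded region -/

def LL (l : Nat) : Nat := Nat.shiftLeft (Nat.mul (Nat.add l 5) (Nat.add l 5)) 78

def par (l : Nat) : Par := ⟨2974255918948, 21990234, LL l, 0⟩

def ell (l : Nat) : B := reB (Nat.shiftLeft (Nat.add l 5) 39)

/-- the ball for `ν + j` -/
def nuB (mx : Nat) (y : Int) (r j : Nat) : B :=
  ⟨snn (Nat.add mx (Nat.shiftLeft j 40)) 2748779069440, y, r⟩

def sig (b m : Nat) : Nat := Nat.sub (Nat.add b (Nat.shiftLeft (Nat.succ m) 40)) 2748779069440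

def kN (n : Nat) : Nat := Nat.div n (sqU n)

def kF (l c : Nat) : Nat := cond' (Nat.ble 1855255447571 c)
  (kN (Nat.add (LL l) (Nat.mul 2974233928715 (Nat.sub c 1855255447571)))) 0

def mx2 (a b : Nat) : Nat := cond' (Nat.ble a b) b a

/-- disc for level one, `im ν ∈ [c - β, d - β]` -/
def runF (l b c d mx : Nat) (y : Int) (r m t : Nat) (k : B → Bool) : Bool :=
  gd (Nat.ble 3 m) (fN (kF l c) fun kk => fN (sig b m) fun s =>
    start (LL l) 2974277909182 s (snn c 368116492980) (snn d 368072512514) (mx2 s kk)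
      (snn (Nat.shiftRight (Nat.mul c t) 5) 368116492980) kk fun T =>
        chain (par l) (nuB mx y r) m T k)

/-- disc for level one, `im ν ∈ [-d - β, -c - β]` -/
def runG (l b c d mx : Nat) (y : Int) (r m : Nat) (k : B → Bool) : Bool :=
  gd (Nat.ble 3 m) (fN (sig b m) fun s =>
    start (LL l) 2974277909182 s (snn 0 (Nat.add d 368116492980)) (snn 0 (Nat.add c 368072512514)) s
      (snn 0 (Nat.add d 368116492980)) 0 fun T => chain (par l) (nuB mx y r) m T k)

def KB (l : Nat) (n t : B) : B := mulT (B.add n (ell l)) (subB (ell l) t)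

def fin1 (l : Nat) (n n' F G : B) : Bool :=
  fB (til (par l) F) fun t => fB (til (par l) G) fun t' =>
  fB (KB l n t) fun K => fB (KB l n' t') fun K' =>
  fB (B.add (mulT K (conjB (subB n' t'))) (mulT (subB n t) (conjB K'))) fun D => nz D 1

def fin0 (l : Nat) (n n' F G : B) : Bool :=
  step (par l) n F fun F0 => step (par l) n' G fun G0 =>
  fB (subB (subB (B.add (ell l) (ell l)) F0) (conjB G0)) fun D => nz D 1

def mid (a b : Nat) : Nat := Nat.shiftRight (Nat.add a b) 1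

def rad (a b c d : Nat) : Nat := ab2 (Nat.succ (Nat.shiftRight (Nat.sub b a) 1))
  (Nat.add (Nat.shiftRight (Nat.sub d c) 1) 21990234)

def leaf (fin : Nat → B → B → B → B → Bool) (l a b c d m t m' : Nat) : Bool :=
  fN (mid a b) fun mx => fN (rad a b c d) fun r =>
  fZ (snn (mid c d) 368094502747) fun y => fZ (snn 0 (Nat.add (mid c d) 368094502747)) fun y' =>
  runF l b c d mx y r m t fun F => runG l b c d mx y' r m' fun G =>
  fin l (nuB mx y r 0) (nuB mx y' r 0) F G

/-- the box lies in the disc of radius `1 / 64` about `z / 2` -/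
def inS (z a b d : Nat) : Bool :=
  Nat.blt (sq2 (mx2 (Nat.sub (Nat.shiftLeft z 39) a) (Nat.sub b (Nat.shiftLeft z 39))) d)
    (Nat.shiftLeft 1 68)

def symZ (l z : Nat) : Bool :=
  or (and (Nat.beq l 0) (or (Nat.beq z 0) (Nat.beq z 2))) (and (Nat.beq l 1) (Nat.beq z 1))

inductive Tr where
  | a (m t m' : Nat) : Tr
  | b (m t m' : Nat) : Tr
  | s (z : Nat) : Tr
  | h (u v : Tr) : Tr
  | v (u v : Tr) : Tr

def cover (l : Nat) (T : Tr) : Nat → Nat → Nat → Nat → Bool :=
  Tr.rec (motive := fun _ => Nat → Nat → Nat → Nat → Bool)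
    (fun m t m' a b c d => leaf fin0 l a b c d m t m')
    (fun m t m' a b c d => leaf fin1 l a b c d m t m')
    (fun z a b _ d => gd (symZ l z) (inS z a b d))
    (fun _ _ f g a b c d => fN (mid a b) fun w => gd (f a w c d) (g w b c d))
    (fun _ _ f g a b c d => fN (mid c d) fun w => gd (f a b c w) (g a b w d)) T

/-! ### Large frequencies, everything divided by `|im ν| ≥ 79` -/

def parT (l : Nat) : Par :=
  ⟨18824543731, 18824543731, Nat.mul (Nat.mul (Nat.add l 5) (Nat.add l 5)) 24213383668161231482,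
    Nat.mul (Nat.mul (Nat.add l 5) (Nat.add l 5)) 24213383668161231482⟩

def nuT (y : Int) (j : Nat) : B :=
  ⟨zshr (snn (Nat.mul (Nat.mul 2 j) 13917868707) (Nat.mul (Nat.sub 5 (Nat.mul 2 j)) 13917868707)) 2,
    y, Nat.add (Nat.shiftRight (Nat.mul (Nat.add (Nat.mul 2 j) (Nat.sub 5 (Nat.mul 2 j)))
      13917868707) 2) 2⟩

/-- bound for the real part -/
def reS (p : Par) (n T : B) (s c : Nat) (k : Nat → Bool) : Bool :=
  fB (subB n (til p T)) fun w => gd (nz w 1) (fB (invT w) fun W => fB (mulT n W) fun P =>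
  fN (Nat.add (ub W) W.r) fun a => fN (Nat.mul (Nat.add p.L p.eL) (Nat.mul a a)) fun La =>
  fN (Nat.add (ub P) P.r) fun u => fN (Nat.add (ub (subB P (reB SS))) P.r) fun v =>
  fN (Nat.succ (Nat.shiftRight (Nat.add
    (Nat.mul (Nat.add (Nat.shiftLeft (Nat.mul u u) 80) La) c)
    (Nat.mul (Nat.add (Nat.shiftLeft (Nat.mul v v) 80) La) s)) 160)) k)

/-- `y = ± 2^40`; start at level `m + 3` -/
def tail (l : Nat) (y q : Int) (m : Nat) (k : Nat → Bool) : Bool :=
  gd (Nat.ble 1 m) (start (Nat.mul 2 (parT l).L) 37649087462 (Nat.mul (Nat.add m 3) 13917868707) y y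
    (Nat.mul (Nat.add m 3) 13917868707) q 0 fun T =>
    chain (parT l) (fun j => nuT y (Nat.add j 2)) m T fun T3 =>
    reS (parT l) (nuT y 2) T3 549755813888 0 fun c2 => step (parT l) (nuT y 2) T3 fun T2 =>
    reS (parT l) (nuT y 1) T2 1649267441664 c2 fun c1 => step (parT l) (nuT y 1) T2 fun T1 =>
    reS (parT l) (nuT y 0) T1 2748779069440 c1 k)

def tailOK (l : Nat) : Bool :=
  tail l (Int.ofNat SS) (Int.ofNat 439804651110) 1 fun c =>
  tail l (snn 0 SS) (snn 0 SS) 1 fun c' => Nat.blt (Nat.add c c') (Nat.shiftLeft (Nat.add l 5) 40)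

/-! ### Divided differences near a symmetry eigenvalue -/

def dstep (p : Par) (n T D : B) : B :=
  mulT (mulT (B.add (subB (reB (Nat.shiftRight p.L 40)) (mulT (til p T) (til p T)))
    (mulT D (subB (mulT n n) (reB (Nat.shiftRight p.L 40))))) (invT (subB n (til p T))))
    (invT (subB n (til p T)))

def dchain (p : Par) (nu : Nat → B) (m : Nat) (T D : B) (k : B → B → Bool) : Bool :=
  Nat.rec (motive := fun _ => B → B → Bool) k
    (fun j ih T D => fB (nu (Nat.succ j)) fun n => gd (nz (subB n (til p T)) 1)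
      (fB (dstep p n T D) fun D' => step p n T fun T' => ih T' D')) m T D

def nuS (z : Nat) : Nat → B := nuB (Nat.shiftLeft z 39) (snn 0 368094502747) 17201859420

def symF (l : Nat) (n T D : B) : Bool :=
  fB (til (par l) T) fun t => fB (subB n t) fun b => fB (KB l n t) fun K =>
  fB (subB (subB (ell l) t) (mulT (B.add n (ell l)) D)) fun κ => fB (subB (reB SS) D) fun e =>
  fB (B.add (B.add (mulT κ (conjB b)) (mulT K (conjB e)))
    (B.add (mulT e (conjB K)) (mulT b (conjB κ)))) fun Δ => nz Δ SS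

def symOK (l z : Nat) : Bool :=
  start (LL l) 2974277909182 (Nat.mul 23 SS) (snn 0 SS) (Int.ofNat 0) (Nat.mul 23 SS) (snn 0 SS) 0
    fun T => chain (par l) (fun j => nuS z (Nat.add j 11)) 12 T fun T12 =>
    dchain (par l) (nuS z) 11 T12
      ⟨Int.ofNat 0, Int.ofNat 0, Nat.succ (Nat.div (zpos (zadd T12.y
        (Int.ofNat (Nat.add T12.r 1487138954591)))) 9)⟩ fun T D => symF l (nuS z 0) T D

/-! ### The mismatch -/

def misOK (u : B) (x e b r : Nat) : Bool :=
  start (LL 0) 2974277909182 (Nat.mul 22 SS) (snn 0 SS) (Int.ofNat 0) (Nat.mul 22 SS) (snn 0 SS) 0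
    fun T => chain ⟨x, e, LL 0, 0⟩ (fun j => nuB 0 (snn 0 b) r (Nat.add j 3)) 20 T fun T4 =>
    step ⟨x, e, LL 0, 0⟩ (nuB 0 (snn 0 b) r 3) T4 fun T3 =>
    step ⟨x, e, LL 0, 0⟩ (nuB 0 (snn 0 b) r 2) T3 fun T2 =>
    step ⟨x, e, LL 0, 0⟩ (nuB 0 (snn 0 b) r 1) T2 fun T1 =>
    fB (mulT (subB (nuB 0 (snn 0 b) r 3) (til ⟨x, e, LL 0, 0⟩ T4))
      (subB (nuB 0 (snn 0 b) r 2) (til ⟨x, e, LL 0, 0⟩ T3))) fun A =>
    fB (mulT (subB (nuB 0 (snn 0 b) r 1) (til ⟨x, e, LL 0, 0⟩ T2))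
      (KB 0 (nuB 0 (snn 0 b) r 0) (til ⟨x, e, LL 0, 0⟩ T1))) fun A' =>
    fB (mulT u (mulT A A')) fun M => zge M.x (Nat.succ M.r)

end

end Vale.Agent.P139.D
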