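import Vale.Agent.P139.D.Leaf
import Vale.Agent.P139.D.C0
import Vale.Agent.P139.D.C1
import Vale.Agent.P139.D.C2
import Vale.Agent.P139.D.C3
import Vale.Agent.P139.D.C4
import Vale.Agent.P139.D.C5
import Vale.Agent.P139.D.C6
import Vale.Agent.P139.D.C7
import Vale.Agent.P139.D.C8
import Vale.Agent.P139.D.C9

/-! P139 part D: the bounded region. -/

namespace Vale.Agent.P139.D

theorem box0 : Box 0 0 2748779069440 0 87960930222080 :=
  (Box_v (Box_v (Box_v (Box_v (Box_v (Box_v (Box_h (Box_v (Box_h (Box_v (cover_sound _ _ _ _ _ c0)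
  (cover_sound _ _ _ _ _ c1)) (cover_sound _ _ _ _ _ c2)) (cover_sound _ _ _ _ _ c3)) (cover_sound
  _ _ _ _ _ c4)) (cover_sound _ _ _ _ _ c5)) (cover_sound _ _ _ _ _ c6)) (cover_sound _ _ _ _ _
  c7)) (cover_sound _ _ _ _ _ c8)) (cover_sound _ _ _ _ _ c9)) (cover_sound _ _ _ _ _ c10))

theorem box1 : Box 1 0 2748779069440 0 87960930222080 :=
  (Box_v (Box_v (Box_v (Box_v (Box_v (Box_v (Box_h (Box_v (Box_h (Box_v (Box_h (Box_v (Box_h
  (Box_v (cover_sound _ _ _ _ _ c11) (cover_sound _ _ _ _ _ c12)) (cover_sound _ _ _ _ _ c13))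
  (cover_sound _ _ _ _ _ c14)) (Box_v (Box_h (Box_v (cover_sound _ _ _ _ _ c15) (cover_sound _ _ _
  _ _ c16)) (Box_v (Box_h (Box_v (Box_h (cover_sound _ _ _ _ _ c17) (cover_sound _ _ _ _ _ c18))
  (cover_sound _ _ _ _ _ c19)) (cover_sound _ _ _ _ _ c20)) (cover_sound _ _ _ _ _ c21)))
  (cover_sound _ _ _ _ _ c22))) (cover_sound _ _ _ _ _ c23)) (cover_sound _ _ _ _ _ c24))
  (cover_sound _ _ _ _ _ c25)) (cover_sound _ _ _ _ _ c26)) (cover_sound _ _ _ _ _ c27))
  (cover_sound _ _ _ _ _ c28)) (cover_sound _ _ _ _ _ c29)) (cover_sound _ _ _ _ _ c30))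
  (cover_sound _ _ _ _ _ c31)) (cover_sound _ _ _ _ _ c32))

theorem box2 : Box 2 0 2748779069440 0 87960930222080 :=
  (Box_v (Box_v (Box_v (Box_v (Box_v (Box_v (Box_h (Box_v (cover_sound _ _ _ _ _ c33) (cover_sound
  _ _ _ _ _ c34)) (cover_sound _ _ _ _ _ c35)) (cover_sound _ _ _ _ _ c36)) (cover_sound _ _ _ _ _
  c37)) (cover_sound _ _ _ _ _ c38)) (cover_sound _ _ _ _ _ c39)) (cover_sound _ _ _ _ _ c40))
  (cover_sound _ _ _ _ _ c41))

theorem box3 : Box 3 0 2748779069440 0 87960930222080 :=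
  (Box_v (Box_v (Box_v (Box_v (cover_sound _ _ _ _ _ c42) (cover_sound _ _ _ _ _ c43))
  (cover_sound _ _ _ _ _ c44)) (cover_sound _ _ _ _ _ c45)) (cover_sound _ _ _ _ _ c46))

theorem box4 : Box 4 0 2748779069440 0 87960930222080 :=
  (Box_v (Box_v (Box_v (cover_sound _ _ _ _ _ c47) (cover_sound _ _ _ _ _ c48)) (cover_sound _ _ _
  _ _ c49)) (cover_sound _ _ _ _ _ c50))

theorem box5 : Box 5 0 2748779069440 0 87960930222080 :=
  (Box_v (Box_v (cover_sound _ _ _ _ _ c51) (cover_sound _ _ _ _ _ c52)) (cover_sound _ _ _ _ _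
  c53))

theorem box6 : Box 6 0 2748779069440 0 87960930222080 :=
  (Box_v (Box_v (cover_sound _ _ _ _ _ c54) (cover_sound _ _ _ _ _ c55)) (cover_sound _ _ _ _ _
  c56))

theorem box7 : Box 7 0 2748779069440 0 87960930222080 :=
  (Box_v (Box_v (cover_sound _ _ _ _ _ c57) (cover_sound _ _ _ _ _ c58)) (cover_sound _ _ _ _ _
  c59))

theorem box8 : Box 8 0 2748779069440 0 87960930222080 :=
  (Box_v (Box_v (cover_sound _ _ _ _ _ c60) (cover_sound _ _ _ _ _ c61)) (cover_sound _ _ _ _ _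
  c62))

theorem box9 : Box 9 0 2748779069440 0 87960930222080 :=
  (Box_v (Box_v (cover_sound _ _ _ _ _ c63) (cover_sound _ _ _ _ _ c64)) (cover_sound _ _ _ _ _
  c65))

theorem box10 : Box 10 0 2748779069440 0 87960930222080 :=
  (cover_sound _ _ _ _ _ c66)

theorem box11 : Box 11 0 2748779069440 0 87960930222080 :=
  (cover_sound _ _ _ _ _ c67)

theorem box12 : Box 12 0 2748779069440 0 87960930222080 :=
  (cover_sound _ _ _ _ _ c68)

theorem box13 : Box 13 0 2748779069440 0 87960930222080 :=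
  (cover_sound _ _ _ _ _ c69)

theorem box14 : Box 14 0 2748779069440 0 87960930222080 :=
  (cover_sound _ _ _ _ _ c70)

theorem box15 : Box 15 0 2748779069440 0 87960930222080 :=
  (cover_sound _ _ _ _ _ c71)

theorem box16 : Box 16 0 2748779069440 0 87960930222080 :=
  (cover_sound _ _ _ _ _ c72)

theorem box17 : Box 17 0 2748779069440 0 87960930222080 :=
  (cover_sound _ _ _ _ _ c73)

theorem box18 : Box 18 0 2748779069440 0 87960930222080 :=
  (cover_sound _ _ _ _ _ c74)

theorem box19 : Box 19 0 2748779069440 0 87960930222080 :=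
  (cover_sound _ _ _ _ _ c75)

theorem box20 : Box 20 0 2748779069440 0 87960930222080 :=
  (cover_sound _ _ _ _ _ c76)

theorem box21 : Box 21 0 2748779069440 0 87960930222080 :=
  (cover_sound _ _ _ _ _ c77)

theorem box22 : Box 22 0 2748779069440 0 87960930222080 :=
  (cover_sound _ _ _ _ _ c78)

theorem box23 : Box 23 0 2748779069440 0 87960930222080 :=
  (cover_sound _ _ _ _ _ c79)

theorem box24 : Box 24 0 2748779069440 0 87960930222080 :=
  (cover_sound _ _ _ _ _ c80)

theorem box_all {l : ℕ} (hl : l < 25) : Box l 0 2748779069440 0 87960930222080 := by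
  interval_cases l
  exacts [box0, box1, box2, box3, box4, box5, box6, box7, box8, box9, box10, box11, box12,
    box13, box14, box15, box16, box17, box18, box19, box20, box21, box22, box23, box24]

end Vale.Agent.P139.D
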