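import Vale.Agent.P139.D.Sem

/-! P139 D/TT: algebra of the continued fraction; uses only the interface N.lean (NF_rec, NF_re, NF_im, NF_H, NF_F, NF_lip).
`rowStep ν ℓ X (B * -N, B) = (B (ℓ² - ν Ñ), B (ν - Ñ))`, `Ñ = N + I X`; if `ν - Ñ ≠ 0` this is `(B' * -(mob ..), B')`, `B' = B (ν - Ñ)`.
`KK = bb 0 * (ℓ - TT 0)` if `bb 0 ≠ 0`. `mob_re`: multiply by `normSq (ν - Ñ)`. -/

noncomputable section

open Set Complex
open scoped ComplexConjugate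

namespace Vale.Agent.P139.D

open Vale.Agent.P139 Vale.Agent.P206.U.Num

variable {ν ν' : ℂ} {ℓ X : ℝ}

theorem TT_ge {j : ℕ} (hj : 4 ≤ j) : TT ν ℓ X j = NF (ν + j) ℓ X := by
  obtain ⟨i, rfl⟩ := Nat.exists_eq_add_of_le' hj
  rfl

theorem re_lev (h : -5 / 2 ≤ ν.re) {j : ℕ} (hj : 4 ≤ j) : 3 / 2 ≤ (ν + j).re := by
  have : (4 : ℝ) ≤ j := by exact_mod_cast hj
  rw [add_re, natCast_re]
  linarith

theorem TT_rec (hl : 0 ≤ ℓ) (h : -5 / 2 ≤ ν.re) (hX : 0 < X) (j : ℕ) :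
    TT ν ℓ X j = mob (ν + j) (ℓ ^ 2) X (TT ν ℓ X (j + 1)) := by
  rcases Nat.lt_or_ge j 4 with hj | hj
  · interval_cases j <;> simp [TT]
  · rw [TT_ge hj, TT_ge (by omega : 4 ≤ j + 1), (NF_rec hl (by linarith [re_lev h hj]) hX).2, mob]
    push_cast
    rw [add_assoc ν]

theorem TT_H (hl : 0 ≤ ℓ) (h : -5 / 2 ≤ ν.re) (hX : 0 < X) {j : ℕ} (hj : 4 ≤ j) :
    ‖TT ν ℓ X j‖ ^ 2 + 2 * ((ν.re + j) * (TT ν ℓ X j).re + ν.im * (TT ν ℓ X j).im) ≤ ℓ ^ 2 := by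
  have k := NF_H (ν := ν + j) hl (by linarith [re_lev h hj]) hX
  rw [TT_ge hj]
  simpa using k

theorem TT_im (hl : 0 ≤ ℓ) (h : -5 / 2 ≤ ν.re) (hX : 0 < X) {j : ℕ} (hj : 4 ≤ j) :
    -X / 2 ≤ (TT ν ℓ X j).im := by
  rw [TT_ge hj]
  exact NF_im hl (by linarith [re_lev h hj]) hX

theorem TT_F (hl : 0 ≤ ℓ) (h : -5 / 2 ≤ ν.re) (hX : 0 < X) {j : ℕ} (hj : 4 ≤ j)
    (h2 : X / 2 ≤ ν.im) : (TT ν ℓ X j).re ≤ -√(ℓ ^ 2 + X * (ν.im - X / 2)) := by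
  have k := NF_F (ν := ν + j) hl (by linarith [re_lev h hj]) hX (by simpa using h2)
  rw [TT_ge hj]
  simpa using k

theorem mob_re {L : ℝ} {N : ℂ} (h : ν - (N + I * X) ≠ 0) : (mob ν L X N).re =
    (‖ν * (ν - (N + I * X))⁻¹‖ ^ 2 + L * ‖(ν - (N + I * X))⁻¹‖ ^ 2) * N.re -
      ν.re * (‖ν * (ν - (N + I * X))⁻¹ - 1‖ ^ 2 + L * ‖(ν - (N + I * X))⁻¹‖ ^ 2) := by
  set W := (ν - (N + I * X))⁻¹ with hW
  have e1 : (ν - (N + I * X)) * W = 1 := mul_inv_cancel₀ h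
  have e2 : mob ν L X N = (ν * (N + I * X) - L) * conj (ν - (N + I * X)) * (normSq W : ℝ) := by
    have e3 : conj (ν - (N + I * X)) * conj W = 1 := by rw [← map_mul, e1, map_one]
    rw [mob, div_eq_mul_inv, ← hW, normSq_eq_conj_mul_self]
    linear_combination (-(ν * (N + I * X) - L) * W) * e3
  have e4 : ν * W - 1 = (N + I * X) * W := by linear_combination e1
  rw [e2, e4, re_mul_ofReal]
  simp only [norm_mul, mul_pow, Complex.sq_norm]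
  simp only [normSq_apply ν, normSq_apply (N + I * X), mul_re, mul_im, sub_re, sub_im, add_re, add_im,
    conj_re, conj_im, ofReal_re, ofReal_im, I_re, I_im]
  ring

theorem mob_smul {L s : ℝ} (hs : s ≠ 0) (N : ℂ) :
    mob (s * ν) (s ^ 2 * L) (s * X) (s * N) = s * mob ν L X N := by
  have hs' : (s : ℂ) ≠ 0 := by exact_mod_cast hs
  unfold mob
  push_cast
  rw [show (s : ℂ) * ν * (s * N + I * (s * X)) - s ^ 2 * L = s * (s * (ν * (N + I * X) - L)) by ring,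
    show (s : ℂ) * ν - (s * N + I * (s * X)) = s * (ν - (N + I * X)) by ring,
    mul_div_mul_left _ _ hs', mul_div_assoc]

/-- a step with `0 < re ν` keeps the left half plane -/
theorem mob_re_le {L : ℝ} {N : ℂ} (hL : 0 ≤ L) (h : 0 < ν.re) (hN : N.re ≤ 0) :
    ν - (N + I * X) ≠ 0 ∧ (mob ν L X N).re ≤ 0 := by
  have h0 : ν - (N + I * X) ≠ 0 := fun e => by
    have := congrArg re e
    simp at this
    linarith
  refine ⟨h0, ?_⟩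
  rw [mob_re h0]
  have a1 : 0 ≤ ‖ν * (ν - (N + I * X))⁻¹‖ ^ 2 + L * ‖(ν - (N + I * X))⁻¹‖ ^ 2 := by positivity
  have a2 : 0 ≤ ‖ν * (ν - (N + I * X))⁻¹ - 1‖ ^ 2 + L * ‖(ν - (N + I * X))⁻¹‖ ^ 2 := by positivity
  nlinarith [mul_nonneg h.le a2]

theorem TT_re (hl : 0 ≤ ℓ) (h : -5 / 2 ≤ ν.re) (hX : 0 < X) {j : ℕ} (hj : 3 ≤ j) :
    (TT ν ℓ X j).re ≤ 0 := by
  have k : ∀ j, 4 ≤ j → (TT ν ℓ X j).re ≤ 0 := fun j hj => by
    rw [TT_ge hj]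
    exact NF_re hl (by linarith [re_lev h hj]) hX
  rcases Nat.lt_or_ge j 4 with h4 | h4
  · rw [TT_rec hl h hX]
    have : (3 : ℝ) ≤ j := by exact_mod_cast hj
    exact (mob_re_le (sq_nonneg ℓ) (by rw [add_re, natCast_re]; linarith) (k _ (by omega))).2
  · exact k j h4

theorem ReLe_big (hl : 0 ≤ ℓ) (h : 0 < ν.re) (hX : 0 < X) : ReLe ν ℓ X 0 := by
  have h' : -5 / 2 ≤ ν.re := by linarith
  have k : ∀ j : ℕ, (TT ν ℓ X (j + 1)).re ≤ 0 → bb ν ℓ X j ≠ 0 ∧ (TT ν ℓ X j).re ≤ 0 := fun j hj => by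
    rw [TT_rec hl h' hX j]
    have : (0 : ℝ) ≤ j := Nat.cast_nonneg j
    exact mob_re_le (sq_nonneg ℓ) (by rw [add_re, natCast_re]; linarith) hj
  have k3 := k 3 (TT_re hl h' hX (by norm_num))
  have k2 := k 2 k3.2
  have k1 := k 1 k2.2
  have k0 := k 0 k1.2
  exact ⟨⟨k1.1, k2.1, k3.1⟩, k0.1, k0.2⟩

theorem rowStep_mob {B N : ℂ} (h : ν - (N + I * X) ≠ 0) : rowStep ν ℓ X (B * -N, B) =
    (B * (ν - (N + I * X)) * -mob ν (ℓ ^ 2) X N, B * (ν - (N + I * X))) := by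
  unfold rowStep mob
  refine Prod.ext ?_ ?_
  · push_cast
    field_simp
    ring
  · simp only
    ring

theorem row_eq (h : G3 ν ℓ X) :
    (row ν ℓ X).1 + ℓ * (row ν ℓ X).2 = bb ν ℓ X 3 * bb ν ℓ X 2 * (bb ν ℓ X 1 * KK ν ℓ X) ∧
      (row ν ℓ X).2 = bb ν ℓ X 3 * bb ν ℓ X 2 * (bb ν ℓ X 1 * bb ν ℓ X 0) := by
  obtain ⟨h1, h2, h3⟩ := h
  have e3 : bb ν ℓ X 3 = ν + 3 - (NF (ν + 4) ℓ X + I * X) := by simp [bb, TT]
  have e2 : bb ν ℓ X 2 = ν + 2 - (TT ν ℓ X 3 + I * X) := by simp [bb]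
  have e1 : bb ν ℓ X 1 = ν + 1 - (TT ν ℓ X 2 + I * X) := by simp [bb]
  have e0 : bb ν ℓ X 0 = ν - (TT ν ℓ X 1 + I * X) := by simp [bb]
  have r : row ν ℓ X = rowStep ν ℓ X (bb ν ℓ X 3 * bb ν ℓ X 2 * bb ν ℓ X 1 * -TT ν ℓ X 1,
      bb ν ℓ X 3 * bb ν ℓ X 2 * bb ν ℓ X 1) := by
    have a3 := rowStep_mob (ℓ := ℓ) (B := 1) (e3 ▸ h3)
    have a2 := rowStep_mob (ℓ := ℓ) (B := bb ν ℓ X 3) (e2 ▸ h2)
    have a1 := rowStep_mob (ℓ := ℓ) (B := bb ν ℓ X 3 * bb ν ℓ X 2) (e1 ▸ h1)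
    rw [one_mul, one_mul, ← e3] at a3
    rw [← e2] at a2
    rw [← e1] at a1
    unfold row
    rw [a3]
    exact congrArg _ ((congrArg _ a2).trans a1)
  rw [r, e0]
  unfold rowStep KK
  constructor
  · simp only
    ring
  · simp only
    ring

theorem Mis_eq {β : ℝ} (h : G3 (-I * β - 5 / 2) (5 / 2) X) : Mis X β =
    bb (-I * β - 5 / 2) (5 / 2) X 3 * bb (-I * β - 5 / 2) (5 / 2) X 2 *
      (bb (-I * β - 5 / 2) (5 / 2) X 1 * KK (-I * β - 5 / 2) (5 / 2) X) := by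
  have k := (row_eq h).1
  push_cast at k
  exact k

theorem Det_eq {β : ℝ} {lam : ℂ} (e : ν = lam - I * β - 5 / 2) (e' : ν' = conj lam - I * β - 5 / 2)
    (h : G3 ν ℓ X) (h' : G3 ν' ℓ X) : Det X β ℓ lam =
      bb ν ℓ X 3 * bb ν ℓ X 2 * bb ν ℓ X 1 * conj (bb ν' ℓ X 3 * bb ν' ℓ X 2 * bb ν' ℓ X 1) *
        (KK ν ℓ X * conj (bb ν' ℓ X 0) + bb ν ℓ X 0 * conj (KK ν' ℓ X)) := by
  unfold Det
  rw [← e, ← e', (row_eq h).1, (row_eq h').1, (row_eq h).2, (row_eq h').2]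
  simp only [map_mul]
  ring

theorem Det_ne1 {β : ℝ} {lam : ℂ} (e : ν = lam - I * β - 5 / 2) (e' : ν' = conj lam - I * β - 5 / 2)
    (h : G3 ν ℓ X) (h' : G3 ν' ℓ X)
    (hD : KK ν ℓ X * conj (bb ν' ℓ X 0) + bb ν ℓ X 0 * conj (KK ν' ℓ X) ≠ 0) :
    Det X β ℓ lam ≠ 0 := by
  rw [Det_eq e e' h h']
  refine mul_ne_zero (mul_ne_zero (mul_ne_zero (mul_ne_zero h.2.2 h.2.1) h.1) ?_) hD
  rw [map_ne_zero]
  exact mul_ne_zero (mul_ne_zero h'.2.2 h'.2.1) h'.1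

theorem KK_eq (h : bb ν ℓ X 0 ≠ 0) : KK ν ℓ X = bb ν ℓ X 0 * (ℓ - TT ν ℓ X 0) := by
  have e0 : bb ν ℓ X 0 = ν - (TT ν ℓ X 1 + I * X) := by simp [bb]
  have e1 : TT ν ℓ X 0 = mob ν (ℓ ^ 2) X (TT ν ℓ X 1) := rfl
  rw [e0] at h
  rw [e0, e1, mob, KK]
  push_cast
  field_simp
  ring

theorem Det_ne0 {β : ℝ} {lam : ℂ} (e : ν = lam - I * β - 5 / 2) (e' : ν' = conj lam - I * β - 5 / 2)
    (h : G3 ν ℓ X) (h' : G3 ν' ℓ X) (h0 : bb ν ℓ X 0 ≠ 0) (h0' : bb ν' ℓ X 0 ≠ 0)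
    (hD : (ℓ : ℂ) + ℓ - TT ν ℓ X 0 - conj (TT ν' ℓ X 0) ≠ 0) : Det X β ℓ lam ≠ 0 := by
  refine Det_ne1 e e' h h' ?_
  rw [KK_eq h0, KK_eq h0', map_mul, map_sub, conj_ofReal,
    show ∀ a b c d : ℂ, a * c * b + a * (b * d) = a * b * (c + d) from fun _ _ _ _ => by ring]
  refine mul_ne_zero (mul_ne_zero h0 ((map_ne_zero _).2 h0')) ?_
  rwa [show (ℓ : ℂ) - TT ν ℓ X 0 + (ℓ - conj (TT ν' ℓ X 0)) =
    ℓ + ℓ - TT ν ℓ X 0 - conj (TT ν' ℓ X 0) by ring]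

theorem Det_ne_re {β c c' : ℝ} {lam : ℂ} (h : ReLe (lam - I * β - 5 / 2) ℓ X c)
    (h' : ReLe (conj lam - I * β - 5 / 2) ℓ X c') (hc : c + c' < 2 * ℓ) : Det X β ℓ lam ≠ 0 := by
  refine Det_ne0 rfl rfl h.1 h'.1 h.2.1 h'.2.1 fun e => ?_
  have := congrArg re e
  simp only [sub_re, add_re, ofReal_re, conj_re, zero_re] at this
  linarith [h.2.2, h'.2.2]

theorem Det_conj (β : ℝ) (lam : ℂ) : Det X β ℓ (conj lam) = conj (Det X β ℓ lam) := by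
  unfold Det
  simp only [conj_conj, map_add, map_mul, conj_ofReal]
  ring

/-- divided difference of one step -/
theorem mob_sub {L : ℝ} {N N' δ : ℂ} (h : ν - (N + I * X) ≠ 0) (h' : ν' - (N' + I * X) ≠ 0)
    (e : N' - N = (ν' - ν) * δ) : mob ν' L X N' - mob ν L X N = (ν' - ν) *
      ((L - (N + I * X) * (N' + I * X) + δ * (ν * ν' - L)) * (ν - (N + I * X))⁻¹ *
        (ν' - (N' + I * X))⁻¹) := by
  have e' : N' = N + (ν' - ν) * δ := by linear_combination e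
  unfold mob
  field_simp
  rw [e']
  ring

/-- divided difference at a high level, from `NF_lip` with `σ = j - 5/2` -/
theorem TT_lip (hl : 0 ≤ ℓ) (h : -5 / 2 ≤ ν.re) (h' : -5 / 2 ≤ ν'.re) (hX : 0 < X) {j : ℕ}
    (hj : 4 ≤ j) {A : ℝ} (hA : (TT ν ℓ X j).im + X / 2 ≤ A) (hA' : (TT ν' ℓ X j).im + X / 2 ≤ A) :
    ∃ δ : ℂ, TT ν' ℓ X j - TT ν ℓ X j = (ν' - ν) * δ ∧ ‖δ‖ ≤ A / (j - 3) := by
  have a := re_lev h hj
  have a' := re_lev h' hj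
  have h4 : (4 : ℝ) ≤ j := by exact_mod_cast hj
  have k := NF_lip (ν := ν' + j) (ν' := ν + j) (σ := j - 5 / 2) hl (by linarith)
    (by rw [add_re, natCast_re]; linarith) (by rw [add_re, natCast_re]; linarith) hX
  have b := TT_im hl h hX hj
  have b' := TT_im hl h' hX hj
  rw [← TT_ge hj, ← TT_ge hj, add_sub_add_right_eq_sub] at k
  have hA0 : 0 ≤ A := by linarith
  have k2 : √(((TT ν' ℓ X j).im + X / 2) * ((TT ν ℓ X j).im + X / 2)) ≤ A := by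
    rw [Real.sqrt_le_left hA0, sq]
    exact mul_le_mul hA' hA (by linarith) hA0
  have k3 : ‖TT ν' ℓ X j - TT ν ℓ X j‖ ≤ ‖ν' - ν‖ * (A / (j - 3)) := by
    refine k.trans ?_
    rw [show (j : ℝ) - 5 / 2 - 1 / 2 = j - 3 by ring, mul_div_assoc]
    gcongr
    linarith
  rcases eq_or_ne (ν' - ν) 0 with e | e
  · refine ⟨0, ?_, by rw [norm_zero]; exact div_nonneg hA0 (by linarith)⟩
    rw [sub_eq_zero.1 e, sub_self, mul_zero]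
  · refine ⟨(TT ν' ℓ X j - TT ν ℓ X j) / (ν' - ν), by field_simp, ?_⟩
    rw [norm_div, div_le_iff₀ (norm_pos_iff.2 e), mul_comm]
    exact k3

end Vale.Agent.P139.D
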