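import Vale.Agent.P139.D.Step
import Vale.Agent.P139.D.TT

/-! P139 D/Leaf: soundness of the bounded region checker `cover`.
`runF_sound`, `runG_sound`: `start_sound` for `N = TT ν ℓ X (m+1)` (`TT_H TT_im TT_re TT_F`; `kF`: `kN_le`, 1855255447571 = 368116492980 + 2974277909182/2,
2974233928715 ≤ Xlo 2^40, Xhi 2^40 ≤ 2974277909182), then `chain_sound` with `ν j = ν + j` (`mem_nuB`, `TT_rec`, `PM_par`).
`leaf`: `mem_of_rect` with `ab2_ge`; 368072512514 ≤ βlo 2^40, βhi 2^40 ≤ 368116492980, centre 368094502747, radius 21990233.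
`fin0`: `step_sound` twice, `TT_rec 0`, `Det_ne0`; `fin1`: `mem_til mem_KB mem_mulT`, `Det_ne1`. `cover_sound`: induction on the tree. -/

noncomputable section

open Set Complex
open scoped ComplexConjugate

namespace Vale.Agent.P139.D

open Vale.Agent.P139 Vale.Agent.P206.U.Num

variable {l a b c d mx r m t w : ℕ} {y : ℤ} {k : B → Bool} {ν : ℂ} {X : ℝ}

theorem sig_ge (hb : (ν.re + 5 / 2) * 2 ^ 40 ≤ b) (m : ℕ) :
    (ν.re + (m + 1 : ℕ)) * 2 ^ 40 ≤ sig b m := by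
  have e : sig b m = b + (m + 1) * 2 ^ 40 - 2748779069440 := by
    rw [← Nat.shiftLeft_eq]
    rfl
  have h : b + (m + 1) * 2 ^ 40 ≤ sig b m + 2748779069440 := by
    rw [e]
    generalize b + (m + 1) * 2 ^ 40 = q
    omega
  have h' : (b : ℝ) + (m + 1) * 2 ^ 40 ≤ sig b m + 2748779069440 := by exact_mod_cast h
  push_cast
  linarith

theorem run_end {T : B} (hX : X ∈ Icc Xlo Xhi) (h0 : -5 / 2 ≤ ν.re) (hν : Mem 40 (nuB mx y r 0) ν)
    (hm : 3 ≤ m) (hT : Mem 40 T (TT ν ((l + 5) / 2) X (m + 1)))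
    (h : chain (par l) (nuB mx y r) m T k = true) :
    G3 ν ((l + 5) / 2) X ∧ ∃ F, Mem 40 F (TT ν ((l + 5) / 2) X 1) ∧ k F = true := by
  have hX0 : 0 < X := lt_of_lt_of_le (by norm_num [Xlo]) hX.1
  obtain ⟨k1, k2⟩ := chain_sound (ν := fun j => ν + j) (PM_par l hX) (mem_nuB hν)
    (TT_rec (by positivity) h0 hX0) m hT h
  exact ⟨⟨norm_pos_iff.1 (lt_of_lt_of_le (by norm_num) (k1 1 le_rfl (by omega))),
    norm_pos_iff.1 (lt_of_lt_of_le (by norm_num) (k1 2 (by norm_num) (by omega))),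
    norm_pos_iff.1 (lt_of_lt_of_le (by norm_num) (k1 3 (by norm_num) hm))⟩, k2⟩

theorem runF_sound (hX : X ∈ Icc Xlo Xhi) (h0 : -5 / 2 ≤ ν.re) (hb : (ν.re + 5 / 2) * 2 ^ 40 ≤ b)
    (hc : (c : ℝ) - 368116492980 ≤ ν.im * 2 ^ 40) (hd : ν.im * 2 ^ 40 ≤ d - 368072512514)
    (hν : Mem 40 (nuB mx y r 0) ν) (h : runF l b c d mx y r m t k = true) :
    G3 ν ((l + 5) / 2) X ∧ ∃ F, Mem 40 F (TT ν ((l + 5) / 2) X 1) ∧ k F = true := by
  have hX0 : 0 < X := lt_of_lt_of_le (by norm_num [Xlo]) hX.1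
  have x1 : 2974233928715 ≤ X * 2 ^ 40 := by have := hX.1; unfold Xlo at this; linarith
  have x2 : X * 2 ^ 40 ≤ 2974277909182 := by have := hX.2; unfold Xhi at this; linarith
  have hl : (0 : ℝ) ≤ (l + 5) / 2 := by positivity
  unfold runF at h
  simp only [fN_eq, gd_iff] at h
  have hm : 3 ≤ m := Nat.le_of_ble_eq_true h.1
  have hk : (TT ν ((l + 5) / 2) X (m + 1)).re * 2 ^ 40 ≤ -(kF l c : ℝ) := by
    unfold kF cond'
    cases e : Nat.ble 1855255447571 c
    · have := TT_re hl h0 hX0 (j := m + 1) (by omega)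
      simp only [Nat.cast_zero, neg_zero]
      linarith
    · have e' : 1855255447571 ≤ c := Nat.le_of_ble_eq_true e
      have e2 : (1855255447571 : ℝ) ≤ c := by exact_mod_cast e'
      have a1 := TT_F hl h0 hX0 (j := m + 1) (by omega) (by linarith)
      have a2 := kN_le (Nat.add (LL l) (Nat.mul 2974233928715 (Nat.sub c 1855255447571)))
      have a3 : √((Nat.add (LL l) (Nat.mul 2974233928715 (Nat.sub c 1855255447571)) : ℕ) : ℝ) ≤
          √(((l + 5) / 2) ^ 2 + X * (ν.im - X / 2)) * 2 ^ 40 := by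
        rw [← Real.sqrt_sq (by positivity : (0 : ℝ) ≤ 2 ^ 40), ← Real.sqrt_mul' _ (by positivity)]
        refine Real.sqrt_le_sqrt ?_
        rw [Nat.add_eq, Nat.mul_eq, Nat.sub_eq, Nat.cast_add, LL_cast, Nat.cast_mul, Nat.cast_sub e']
        push_cast
        have := mul_le_mul x1 (by linarith : (c : ℝ) - 1855255447571 ≤ (ν.im - X / 2) * 2 ^ 40)
          (by linarith) (by positivity)
        linarith
      show _ ≤ -((kN _ : ℕ) : ℝ)
      linarith
  obtain ⟨T, m1, k1⟩ := start_sound (TT_H hl h0 hX0 (j := m + 1) (by omega))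
    (TT_im hl h0 hX0 (by omega)) hk (sig_ge hb m) (by rw [snn_eq]; push_cast; linarith)
    (by rw [snn_eq]; push_cast; linarith) (LL_cast l).ge hX0.le (by exact_mod_cast x2) h.2
  exact run_end hX h0 hν hm m1 k1

theorem runG_sound (hX : X ∈ Icc Xlo Xhi) (h0 : -5 / 2 ≤ ν.re) (hb : (ν.re + 5 / 2) * 2 ^ 40 ≤ b)
    (hc : -((d : ℝ) + 368116492980) ≤ ν.im * 2 ^ 40) (hd : ν.im * 2 ^ 40 ≤ -(c + 368072512514))
    (hν : Mem 40 (nuB mx y r 0) ν) (h : runG l b c d mx y r m k = true) :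
    G3 ν ((l + 5) / 2) X ∧ ∃ G, Mem 40 G (TT ν ((l + 5) / 2) X 1) ∧ k G = true := by
  have hX0 : 0 < X := lt_of_lt_of_le (by norm_num [Xlo]) hX.1
  have x2 : X * 2 ^ 40 ≤ 2974277909182 := by have := hX.2; unfold Xhi at this; linarith
  have hl : (0 : ℝ) ≤ (l + 5) / 2 := by positivity
  unfold runG at h
  simp only [fN_eq, gd_iff] at h
  have hm : 3 ≤ m := Nat.le_of_ble_eq_true h.1
  obtain ⟨T, m1, k1⟩ := start_sound (TT_H hl h0 hX0 (j := m + 1) (by omega))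
    (TT_im hl h0 hX0 (by omega))
    (by have := TT_re hl h0 hX0 (j := m + 1) (by omega); push_cast; linarith) (sig_ge hb m)
    (by rw [snn_eq, Nat.add_eq]; push_cast; linarith)
    (by rw [snn_eq, Nat.add_eq]; push_cast; linarith) (LL_cast l).ge hX0.le (by exact_mod_cast x2) h.2
  exact run_end hX h0 hν hm m1 k1

theorem mid_near {x : ℝ} (h1 : (a : ℝ) ≤ x) (h2 : x ≤ b) :
    |x - mid a b| ≤ (Nat.shiftRight (Nat.sub b a) 1 : ℕ) + 1 := by
  have h3 : a ≤ b := by exact_mod_cast h1.trans h2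
  have e1 : mid a b = (a + b) / 2 := Nat.shiftRight_eq_div_pow _ 1
  have e2 : Nat.shiftRight (Nat.sub b a) 1 = (b - a) / 2 := Nat.shiftRight_eq_div_pow _ 1
  have a1 : b ≤ mid a b + Nat.shiftRight (Nat.sub b a) 1 + 1 := by omega
  have a2 : mid a b ≤ a + Nat.shiftRight (Nat.sub b a) 1 + 1 := by omega
  have b1 : (b : ℝ) ≤ mid a b + Nat.shiftRight (Nat.sub b a) 1 + 1 := by exact_mod_cast a1
  have b2 : (mid a b : ℝ) ≤ a + Nat.shiftRight (Nat.sub b a) 1 + 1 := by exact_mod_cast a2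
  rw [abs_le]
  constructor <;> linarith

theorem leaf_sound {fin : ℕ → B → B → B → B → Bool} {m' : ℕ} (h : leaf fin l a b c d m t m' = true)
    {β : ℝ} (hb : InBox X β) {lam : ℂ} (h0 : 0 ≤ lam.re) (h1 : (a : ℝ) ≤ lam.re * 2 ^ 40)
    (h2 : lam.re * 2 ^ 40 ≤ b) (h3 : (c : ℝ) ≤ lam.im * 2 ^ 40) (h4 : lam.im * 2 ^ 40 ≤ d) :
    G3 (lam - I * β - 5 / 2) ((l + 5) / 2) X ∧ G3 (conj lam - I * β - 5 / 2) ((l + 5) / 2) X ∧
      ∃ n n' F G, Mem 40 n (lam - I * β - 5 / 2) ∧ Mem 40 n' (conj lam - I * β - 5 / 2) ∧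
        Mem 40 F (TT (lam - I * β - 5 / 2) ((l + 5) / 2) X 1) ∧
        Mem 40 G (TT (conj lam - I * β - 5 / 2) ((l + 5) / 2) X 1) ∧ fin l n n' F G = true := by
  have b1 : 368072512514 ≤ β * 2 ^ 40 := by have := hb.2.1; unfold βlo at this; linarith
  have b2 : β * 2 ^ 40 ≤ 368116492980 := by have := hb.2.2; unfold βhi at this; linarith
  have e1 : (lam - I * β - 5 / 2).re = lam.re - 5 / 2 := by simp
  have e2 : (conj lam - I * β - 5 / 2).re = lam.re - 5 / 2 := by simp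
  have e3 : (lam - I * β - 5 / 2).im = lam.im - β := by simp
  have e4 : (conj lam - I * β - 5 / 2).im = -(lam.im + β) := by simp; ring
  have p1 := abs_le.1 (mid_near h1 h2)
  have p2 := abs_le.1 (mid_near h3 h4)
  have n0 : ∀ {z : ℂ} {y : ℤ}, z.re = lam.re - 5 / 2 → |z.im * 2 ^ 40 - y| ≤
      ((Nat.add (Nat.shiftRight (Nat.sub d c) 1) 21990234 : ℕ) : ℝ) →
      Mem 40 (nuB (mid a b) y (rad a b c d) 0) z := fun {z y} hz hy => by
    refine mem_of_rect ?_ hy (ab2_ge (Nat.succ (Nat.shiftRight (Nat.sub b a) 1)) _)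
    rw [hz, snn_eq, Nat.succ_eq_add_one, abs_le]
    simp only [Nat.add_eq, Nat.shiftLeft_eq', Nat.zero_shiftLeft]
    push_cast
    constructor <;> linarith
  have n1 := n0 (y := snn (mid c d) 368094502747) e1 (by
    rw [e3, snn_eq, Nat.add_eq, abs_le]
    push_cast
    constructor <;> linarith)
  have n2 := n0 (y := snn 0 (Nat.add (mid c d) 368094502747)) e2 (by
    rw [e4, snn_eq, Nat.add_eq, Nat.add_eq, abs_le]
    push_cast
    constructor <;> linarith)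
  unfold leaf at h
  simp only [fN_eq, fZ_eq] at h
  obtain ⟨g1, F, m1, k1⟩ := runF_sound hb.1 (by rw [e1]; linarith) (by rw [e1]; linarith)
    (by rw [e3]; linarith) (by rw [e3]; linarith) n1 h
  obtain ⟨g2, G, m2, k2⟩ := runG_sound hb.1 (by rw [e2]; linarith) (by rw [e2]; linarith)
    (by rw [e4]; linarith) (by rw [e4]; linarith) n2 k1
  exact ⟨g1, g2, _, _, F, G, n1, n2, m1, m2, k2⟩

theorem leaf0_sound {m' : ℕ} (h : leaf fin0 l a b c d m t m' = true) : Box l a b c d := by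
  intro X β hb lam h0 h1 h2 h3 h4 _
  obtain ⟨g1, g2, n, n', F, G, n1, n2, m1, m2, k⟩ := leaf_sound h hb h0 h1 h2 h3 h4
  obtain ⟨a1, F0, a2, k1⟩ := step_sound (PM_par l hb.1) n1 m1 k
  obtain ⟨b1, G0, b2, k2⟩ := step_sound (PM_par l hb.1) n2 m2 k1
  rw [fB_eq] at k2
  refine Det_ne0 rfl rfl g1 g2 ?_ ?_
    (nz_ne (mem_sub (mem_sub ((mem_ell l).add (mem_ell l)) a2) (mem_conj b2)) k2)
  · rw [bb, Nat.cast_zero, add_zero]
    exact norm_pos_iff.1 (lt_of_lt_of_le (by norm_num) a1)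
  · rw [bb, Nat.cast_zero, add_zero]
    exact norm_pos_iff.1 (lt_of_lt_of_le (by norm_num) b1)

theorem leaf1_sound {m' : ℕ} (h : leaf fin1 l a b c d m t m' = true) : Box l a b c d := by
  intro X β hb lam h0 h1 h2 h3 h4 _
  obtain ⟨g1, g2, n, n', F, G, n1, n2, m1, m2, k⟩ := leaf_sound h hb h0 h1 h2 h3 h4
  unfold fin1 at k
  simp only [fB_eq] at k
  have t1 := mem_til (PM_par l hb.1) m1
  have t2 := mem_til (PM_par l hb.1) m2
  refine Det_ne1 rfl rfl g1 g2 ?_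
  simp only [bb, Nat.cast_zero, add_zero]
  exact nz_ne ((mem_mulT (mem_KB l n1 t1) (mem_conj (mem_sub n2 t2))).add
    (mem_mulT (mem_sub n1 t1) (mem_conj (mem_KB l n2 t2)))) k

theorem inS_sound {z : ℕ} (h : symZ l z = true) (h' : inS z a b d = true) : Box l a b c d := by
  intro X β _ lam h0 h1 h2 h3 h4 hs
  have hz : Sym l (z / 2) := by
    simp only [symZ, Bool.or_eq_true, Bool.and_eq_true, Nat.beq_eq] at h
    rcases h with ⟨rfl, rfl | rfl⟩ | ⟨rfl, rfl⟩ <;> norm_num [Sym]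
  have k1 := hs _ hz
  have k2 : sq2 (max (z * 2 ^ 39 - a) (b - z * 2 ^ 39)) d < 1 * 2 ^ 68 := by
    rw [← mx2_eq, ← Nat.shiftLeft_eq, ← Nat.shiftLeft_eq]
    exact Nat.blt_eq.mp h'
  generalize hM : max (z * 2 ^ 39 - a) (b - z * 2 ^ 39) = M at k2
  have a1 : z * 2 ^ 39 ≤ a + M := by omega
  have a2 : b ≤ z * 2 ^ 39 + M := by omega
  have b1 : (z : ℝ) * 2 ^ 39 ≤ a + M := by exact_mod_cast a1
  have b2 : (b : ℝ) ≤ z * 2 ^ 39 + M := by exact_mod_cast a2
  have b3 : (M : ℝ) * M + d * d < 2 ^ 68 := by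
    simp only [sq2, Nat.add_eq, Nat.mul_eq, one_mul] at k2
    exact_mod_cast k2
  have c0 : (0 : ℝ) ≤ c := Nat.cast_nonneg c
  have c1 : ((lam.re - z / 2) * 2 ^ 40) ^ 2 ≤ M ^ 2 := sq_le_sq' (by linarith) (by linarith)
  have c2 : (lam.im * 2 ^ 40) ^ 2 ≤ d ^ 2 := sq_le_sq' (by linarith) h4
  have c3 := pow_le_pow_left₀ (by norm_num) k1 2
  rw [Complex.sq_norm, normSq_apply] at c3
  simp only [sub_re, sub_im, div_ofNat_re, div_ofNat_im, natCast_re, natCast_im] at c3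
  exact absurd b3 (not_lt.2 (by nlinarith))

theorem Box_h (h : Box l a w c d) (h' : Box l w b c d) : Box l a b c d := by
  intro X β hb lam h0 h1 h2 h3 h4 hs
  rcases le_total (lam.re * 2 ^ 40) (w : ℝ) with e | e
  · exact h X β hb lam h0 h1 e h3 h4 hs
  · exact h' X β hb lam h0 e h2 h3 h4 hs

theorem Box_v (h : Box l a b c w) (h' : Box l a b w d) : Box l a b c d := by
  intro X β hb lam h0 h1 h2 h3 h4 hs
  rcases le_total (lam.im * 2 ^ 40) (w : ℝ) with e | e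
  · exact h X β hb lam h0 h1 h2 h3 e hs
  · exact h' X β hb lam h0 h1 h2 e h4 hs

theorem cover_sound (T : Tr) : ∀ a b c d, cover l T a b c d = true → Box l a b c d := by
  induction T with
  | a m t m' => exact fun a b c d h => leaf0_sound h
  | b m t m' => exact fun a b c d h => leaf1_sound h
  | s z => exact fun a b c d h => inS_sound (gd_iff.1 h).1 (gd_iff.1 h).2
  | h u v ih ih' =>
    intro a b c d h
    have h' := gd_iff.1 ((fN_eq _ fun w => gd (cover l u a w c d) (cover l v w b c d)).symm.trans h)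
    exact Box_h (ih _ _ _ _ h'.1) (ih' _ _ _ _ h'.2)
  | v u v ih ih' =>
    intro a b c d h
    have h' := gd_iff.1 ((fN_eq _ fun w => gd (cover l u a b c w) (cover l v a b w d)).symm.trans h)
    exact Box_v (ih _ _ _ _ h'.1) (ih' _ _ _ _ h'.2)

end Vale.Agent.P139.D
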