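import Vale.Agent.P139.D.Step
import Vale.Agent.P139.D.TT

/-! P139 D/Mis: the sign conditions for the mismatch. `mis_sound`: `ν = -iβ - 5/2`, `ℓ = 5/2`, `start_sound` at level 24, `chain_sound` (shifted by 3),
three `step_sound`, `Mis_eq`, `mem_til mem_KB mem_mulT`, `Mem.re_near`, `zge_le`. Each edge is covered by 8 segments of half length 2748780. -/

noncomputable section

open Set Complex
open scoped ComplexConjugate

namespace Vale.Agent.P139.D

open Vale.Agent.P139 Vale.Agent.P206.U.Num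

theorem mis_sound {u : B} {x e b r : ℕ} (h : misOK u x e b r = true) {w : ℂ} (hw : Mem 40 u w)
    {X β : ℝ} (hX : X ∈ Icc Xlo Xhi) (hβ : β ∈ Icc βlo βhi) (hx : |X * 2 ^ 40 - x| ≤ (e : ℝ))
    (hb : |β * 2 ^ 40 - b| ≤ (r : ℝ)) : 1 / 2 ^ 40 ≤ (w * Mis X β).re := by
  obtain ⟨hX1, hX2⟩ := hX
  obtain ⟨hβ1, hβ2⟩ := hβ
  unfold Xlo at hX1
  unfold Xhi at hX2
  unfold βlo at hβ1
  unfold βhi at hβ2
  have hX0 : 0 < X := by linarith
  have hl : (0 : ℝ) ≤ 5 / 2 := by norm_num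
  have e0 : (((0 : ℕ) : ℝ) + 5) / 2 = 5 / 2 := by norm_num
  have hL := LL_cast 0
  rw [e0] at hL
  have hM := @Mis_eq X β
  have hre : (-I * β - 5 / 2 : ℂ).re = -5 / 2 := by simp; norm_num
  have him : (-I * β - 5 / 2 : ℂ).im = -β := by simp
  generalize (-I * β - 5 / 2 : ℂ) = ν at hM hre him
  have hp : PM ⟨x, e, LL 0, 0⟩ X ((5 / 2) ^ 2) := ⟨hx, by simp [hL]⟩
  have hν0 : Mem 40 (nuB 0 (snn 0 b) r 0) ν := by
    refine mem_of_rect (s := 0) (t := r) ?_ ?_ (by simp)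
    · rw [hre, snn_eq]
      norm_num
    · rw [him, snn_eq, ← abs_neg]
      push_cast
      convert hb using 2
      ring
  have hν := mem_nuB hν0
  have hT := TT_rec hl hre.ge hX0
  have hS : ((SS : ℕ) : ℝ) = 2 ^ 40 := by norm_num [SS]
  obtain ⟨T, hT24, h⟩ := start_sound (TT_H hl hre.ge hX0 (j := 24) (by norm_num))
    (TT_im hl hre.ge hX0 (by norm_num))
    (by have := TT_re hl hre.ge hX0 (j := 24) (by norm_num); push_cast; linarith)
    (by rw [hre, Nat.mul_eq, Nat.cast_mul, hS]; norm_num)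
    (by rw [him, snn_eq]; push_cast; rw [hS]; linarith) (by rw [him]; simp; linarith) hL.ge hX0.le
    (by push_cast; linarith) h
  obtain ⟨-, T4, m4, h⟩ := chain_sound (ν := fun j => ν + (j + 3 : ℕ))
    (T := fun j => TT ν (5 / 2) X (j + 3)) hp (fun j => hν (j + 3)) (fun j => hT (j + 3)) 20 hT24 h
  obtain ⟨g3, T3, m3, h⟩ := step_sound hp (hν 3) m4 h
  rw [← hT 3] at m3
  obtain ⟨g2, T2, m2, h⟩ := step_sound hp (hν 2) m3 h
  rw [← hT 2] at m2
  obtain ⟨g1, T1, m1, h⟩ := step_sound hp (hν 1) m2 h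
  rw [← hT 1] at m1
  have n0 : ∀ {z : ℂ}, 1 / 1024 ≤ ‖z‖ → z ≠ 0 := fun hz => norm_pos_iff.1 (by linarith)
  rw [hM ⟨n0 g1, n0 g2, n0 g3⟩]
  have hK := mem_KB 0 hν0 (mem_til hp m1)
  rw [e0] at hK
  have hm := (mem_mulT hw (mem_mulT (mem_mulT (mem_sub (hν 3) (mem_til hp m4))
    (mem_sub (hν 2) (mem_til hp m3))) (mem_mulT (mem_sub (hν 1) (mem_til hp m2)) hK))).re_near
  rw [fB_eq, fB_eq, fB_eq] at h
  have h2 := (Int.cast_le (R := ℝ)).2 (zge_le h)
  rw [div_le_iff₀ (by positivity)]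
  push_cast at h2
  have h3 := (abs_le.1 hm).1
  unfold bb KK
  linarith

theorem cover_Mis {a r t : ℝ} (h0 : a - r ≤ t) (n : ℕ) (h1 : t ≤ a + n * (2 * r) + r) :
    ∃ i ≤ n, |t - (a + (i : ℕ) * (2 * r))| ≤ r := by
  induction n with
  | zero => exact ⟨0, le_rfl, abs_le.2 ⟨by simp; linarith, by linarith⟩⟩
  | succ n ih =>
    rcases le_total t (a + n * (2 * r) + r) with h | h
    · obtain ⟨i, hi, h2⟩ := ih h
      exact ⟨i, hi.trans n.le_succ, h2⟩
    · exact ⟨n + 1, le_rfl, abs_le.2 ⟨by push_cast; linarith, by linarith⟩⟩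

theorem allB_Mis {g : ℕ → Bool} {n : ℕ} (h : allB g n = true) : ∀ i < n, g i = true := by
  induction n with
  | zero => simp
  | succ n ih =>
    have e : allB g (n + 1) = Bool.rec false (g n) (allB g n) := rfl
    rw [e] at h
    cases hn : allB g n with
    | false => simp [hn] at h
    | true =>
      intro i hi
      rcases Nat.lt_succ_iff_lt_or_eq.1 hi with h1 | rfl
      · exact ih hn i h1
      · simpa [hn] using h

def uB : B := ⟨-335351046471680, 1064327255687168, 0⟩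

def vB : B := ⟨649811372015616, -580542139465728, 0⟩

def misA : Bool := allB (fun i =>
  and (and (misOK uB.neg 2974233928715 1 (Nat.add 368075261294 (Nat.mul i 5497560)) 2748780)
      (misOK uB 2974277909181 1 (Nat.add 368075261294 (Nat.mul i 5497560)) 2748780))
    (and (misOK vB.neg (Nat.add 2974236677495 (Nat.mul i 5497560)) 2748780 368072512514 1)
      (misOK vB (Nat.add 2974236677495 (Nat.mul i 5497560)) 2748780 368116492980 1))) 8

theorem misA_ok : misA = true := by decide +kernel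

theorem mis_all : ∃ (u v : ℂ) (c : ℝ), 0 < c ∧ (u * conj v).im ≠ 0 ∧
    (∀ β ∈ Icc βlo βhi, (u * Mis Xlo β).re ≤ -c ∧ c ≤ (u * Mis Xhi β).re) ∧
    ∀ X ∈ Icc Xlo Xhi, (v * Mis X βlo).re ≤ -c ∧ c ≤ (v * Mis X βhi).re := by
  have hu : Mem 40 uB ⟨-305, 968⟩ := mem_of_rect (s := 0) (t := 0) (by norm_num) (by norm_num) (by simp)
  have hv : Mem 40 vB ⟨591, -528⟩ := mem_of_rect (s := 0) (t := 0) (by norm_num) (by norm_num) (by simp)
  have hA := allB_Mis misA_ok
  simp only [Bool.and_eq_true] at hA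
  have hX : Xlo ≤ Xhi := by norm_num [Xlo, Xhi]
  have hβ : βlo ≤ βhi := by norm_num [βlo, βhi]
  refine ⟨⟨-305, 968⟩, ⟨591, -528⟩, 1 / 2 ^ 40, by positivity, by norm_num, fun β hb => ?_,
    fun X hx => ?_⟩
  · obtain ⟨i, hi, h⟩ := cover_Mis (a := 368075261294) (r := 2748780) (t := β * 2 ^ 40)
      (by have := hb.1; unfold βlo at this; linarith) 7
      (by have := hb.2; unfold βhi at this; push_cast; linarith)
    have h' : |β * 2 ^ 40 - (Nat.add 368075261294 (Nat.mul i 5497560) : ℕ)| ≤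
        ((2748780 : ℕ) : ℝ) := by
      rw [Nat.add_eq, Nat.mul_eq]
      push_cast
      convert h using 4
      norm_num
    obtain ⟨⟨h1, h2⟩, -⟩ := hA i (by omega)
    have h3 := mis_sound h1 hu.neg ⟨le_rfl, hX⟩ hb (by norm_num [Xlo, abs_le]) h'
    rw [neg_mul, neg_re] at h3
    exact ⟨by linarith, mis_sound h2 hu ⟨hX, le_rfl⟩ hb (by norm_num [Xhi, abs_le]) h'⟩
  · obtain ⟨i, hi, h⟩ := cover_Mis (a := 2974236677495) (r := 2748780) (t := X * 2 ^ 40)
      (by have := hx.1; unfold Xlo at this; linarith) 7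
      (by have := hx.2; unfold Xhi at this; push_cast; linarith)
    have h' : |X * 2 ^ 40 - (Nat.add 2974236677495 (Nat.mul i 5497560) : ℕ)| ≤
        ((2748780 : ℕ) : ℝ) := by
      rw [Nat.add_eq, Nat.mul_eq]
      push_cast
      convert h using 4
      norm_num
    obtain ⟨-, h1, h2⟩ := hA i (by omega)
    have h3 := mis_sound h1 hv.neg hx ⟨le_rfl, hβ⟩ h' (by norm_num [βlo, abs_le])
    rw [neg_mul, neg_re] at h3
    exact ⟨by linarith, mis_sound h2 hv hx ⟨hβ, le_rfl⟩ h' (by norm_num [βhi, abs_le])⟩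

end Vale.Agent.P139.D
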