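import Vale.Agent.P139.D.TT

/-! P139 D/Rad: large angular momentum, `ℓ ≥ 15`. `τ = 4ℓ/(ℓ² + Ω²) ∈ (0, 4/15]`, invariant `‖ℓ + N‖² ≤ (1 - s τ) ‖ℓ - N‖²`, `s ≥ 0`.
`rad_shift`: `α = ℓ - N`, `γ = ℓ + N`, `t = X/(2ℓ) ≤ 0.0902`, `ℓ - Ñ = (1 - i t) α - i t γ`, so `‖ℓ - Ñ‖ ≤ κ ‖α‖` (`‖1 - i t‖ ≤ 1 + t²/2`, `‖γ‖ ≤ θ ‖α‖`);
`‖α‖² - ‖γ‖² = -4 ℓ re N` is unchanged by the shift. `rad_mob`: `(ℓ - N') (ν - M) = (ν + ℓ)(ℓ - M)`, `(ℓ + N')(ν - M) = (ν - ℓ)(ℓ + M)`; if `M = ν` then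
`‖ℓ+ν‖² ≤ (1 - u)‖ℓ-ν‖² ≤ (1 - u')‖ν+ℓ‖²`, impossible. `rad_num`: `D = ‖ν+ℓ‖² = E + 2σℓ + σ²`, `E = ℓ² + Ω²`, `‖ν-ℓ‖² = D - 4σℓ`, `4ℓ = τ E`; the claim is
`s' D ≤ u D + σ E (1 - u τ)`; for `j ≥ 3`: `D ≤ E (1 + j t2/2 + j² t2/60)`; for `j ≤ 2`: `D ≥ E (1 - a t2/2)`, `σ ≥ -a`, `a = 5/2 - j`.
`radL_sound`: induction on the list (level = length), start `s = 0` by `TT_re`; at the end `re (TT 0) ≤ 0`. -/

noncomputable section

open Set Complex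
open scoped ComplexConjugate

namespace Vale.Agent.P139.D

open Vale.Agent.P139 Vale.Agent.P206.U.Num

def radS (t1 t2 s θ s' : ℚ) (j : ℕ) : Bool :=
  decide (0 ≤ θ ∧ 1 - s * t1 ≤ θ ^ 2 ∧ s / (1 + 0.0902 ^ 2 / 2 + 0.0902 * θ) ^ 2 * t2 ≤ 1 ∧ 0 < s' ∧
    s' ≤ s / (1 + 0.0902 ^ 2 / 2 + 0.0902 * θ) ^ 2 + if 3 ≤ j then
      (j - 5 / 2) * (1 - s / (1 + 0.0902 ^ 2 / 2 + 0.0902 * θ) ^ 2 * t2) /
        (1 + j * t2 / 2 + j ^ 2 * t2 / 60)
    else -((5 / 2 - j) * (1 - s / (1 + 0.0902 ^ 2 / 2 + 0.0902 * θ) ^ 2 * t1) /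
      (1 - (5 / 2 - j) * t2 / 2)))

def radL (t1 t2 : ℚ) : List (ℕ × ℕ) → ℚ → Bool
  | [], _ => true
  | p :: r, s => radS t1 t2 s (p.1 / 1000) (p.2 / 1000) r.length && radL t1 t2 r (p.2 / 1000)

def radC : List (ℕ × List (ℕ × ℕ)) → ℕ → Bool
  | [], t1 => decide (2667 ≤ t1)
  | p :: r, t1 => decide (4 ≤ p.2.length ∧ p.1 ≤ 2667) && radL (t1 / 10000) (p.1 / 10000) p.2 0 &&
      radC r p.1

def radD : List (ℕ × List (ℕ × ℕ)) :=
  [(600,[(1000,6316),(1000,9278),(1000,10614),(1000,11116),(1000,11151),(1000,10889),(1000,10401),(1000,9704),(1000,8782),(1000,7588),(1000,5829),(1000,3297),(1000,50)]),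
  (1047,[(1000,6056),(798,7903),(726,8496),(701,8672),(693,8696),(692,8653),(694,8574),(697,8465),(702,8325),(708,8146),(716,7917),(725,7621),(737,7231),(753,6706),(774,5981),(801,4808),(844,2895),(910,1)]),
  (1377,[(1000,4764),(708,6131),(599,6559),(560,6682),(549,6688),(548,6638),(553,6549),(561,6421),(573,6244),(589,5998),(610,5648),(640,5136),(680,4252),(745,2681),(849,1)]),
  (1631,[(1000,4299),(639,5388),(509,5700),(464,5783),(452,5786),(451,5751),(457,5689),(466,5600),(479,5474),(497,5294),(521,5031),(555,4630),(603,3908),(680,2544),(807,2)]),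
  (1833,[(1000,4155),(568,5021),(426,5231),(384,5279),(373,5281),(373,5265),(376,5238),(382,5200),(390,5149),(401,5079),(415,4981),(434,4839),(460,4626),(496,4293),(548,3674),(634,2448),(776,1)]),
  (1996,[(1000,3771),(556,4578),(402,4782),(352,4832),(339,4832),(339,4810),(344,4773),(354,4718),(368,4639),(387,4522),(414,4342),(452,4054),(507,3507),(598,2381),(751,7)]),
  (2131,[(1000,3607),(530,4333),(368,4510),(316,4552),(303,4552),(303,4534),(309,4502),(319,4456),(333,4388),(353,4287),(380,4130),(420,3874),(477,3377),(571,2325),(733,3)]),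
  (2244,[(1000,3480),(509,4147),(341,4303),(289,4339),(275,4339),(275,4324),(281,4297),(291,4257),(305,4198),(325,4109),(353,3969),(393,3737),(452,3279),(549,2285),(717,7)]),
  (2340,[(1000,3379),(492,4000),(320,4142),(266,4174),(252,4174),(252,4160),(258,4137),(268,4101),(283,4048),(303,3968),(332,3840),(372,3626),(432,3199),(532,2250),(704,6)]),
  (2422,[(1000,3224),(496,3839),(319,3985),(260,4020),(244,4020),(244,4004),(252,3974),(265,3927),(285,3854),(314,3736),(355,3536),(416,3132),(517,2220),(694,2)]),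
  (2493,[(1000,3160),(485,3745),(305,3882),(245,3914),(229,3914),(229,3899),(236,3872),(250,3828),(270,3760),(299,3650),(341,3461),(403,3077),(505,2196),(685,1)]),
  (2555,[(1000,3174),(457,3705),(277,3819),(219,3844),(205,3844),(205,3834),(211,3816),(221,3789),(236,3748),(257,3684),(286,3580),(328,3401),(391,3033),(494,2178),(677,4)]),
  (2609,[(1000,3126),(449,3637),(266,3745),(208,3769),(193,3769),(193,3760),(199,3743),(209,3718),(224,3679),(245,3619),(275,3520),(318,3348),(381,2994),(485,2161),(670,4)]),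
  (2657,[(1000,3084),(443,3579),(258,3682),(199,3704),(184,3705),(183,3696),(189,3681),(200,3657),(215,3620),(236,3563),(266,3468),(309,3303),(372,2960),(478,2145),(664,2)]),
  (2667,[(1000,2699),(532,3326),(342,3507),(262,3559),(234,3559),(234,3522),(254,3441),(293,3287),(356,2961),(462,2181),(649,106)])]

theorem radD_ok : radC radD 0 = true := by decide +kernel

theorem rad_shift {N : ℂ} {ℓ X s τ t1 θ : ℝ} (hl : 15 ≤ ℓ) (hX : X ∈ Icc Xlo Xhi) (hs : 0 ≤ s)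
    (h1 : t1 ≤ τ) (hτ : 0 ≤ τ) (hθ : 0 ≤ θ) (h2 : 1 - s * t1 ≤ θ ^ 2)
    (h : ‖ℓ + N‖ ^ 2 ≤ (1 - s * τ) * ‖ℓ - N‖ ^ 2) :
    ‖ℓ + (N + I * X)‖ ^ 2 ≤
      (1 - s / (1 + 0.0902 ^ 2 / 2 + 0.0902 * θ) ^ 2 * τ) * ‖ℓ - (N + I * X)‖ ^ 2 := by
  have hX0 : 0 < X := lt_of_lt_of_le (by norm_num [Xlo]) hX.1
  have hX1 : X ≤ 2.70509 := hX.2
  have hl0 : 0 < ℓ := by linarith
  set t : ℝ := X / (2 * ℓ) with ht
  have t0 : 0 ≤ t := by positivity
  have t1' : t ≤ 0.0902 := by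
    rw [ht, div_le_iff₀ (by positivity)]
    linarith
  set κ : ℝ := 1 + 0.0902 ^ 2 / 2 + 0.0902 * θ with hκ
  have κ0 : 0 < κ := by positivity
  have a0 := norm_nonneg ((ℓ : ℂ) - N)
  have g1 : ‖ℓ + N‖ ≤ θ * ‖ℓ - N‖ := by
    refine (abs_le_of_sq_le_sq' (h.trans ?_) (by positivity)).2
    rw [mul_pow]
    refine mul_le_mul_of_nonneg_right ?_ (sq_nonneg _)
    nlinarith
  have g2 : ‖1 - I * t‖ ≤ 1 + 0.0902 ^ 2 / 2 := by
    refine (abs_le_of_sq_le_sq' ?_ (by positivity)).2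
    rw [Complex.sq_norm, normSq_apply]
    simp only [sub_re, one_re, mul_re, I_re, I_im, ofReal_re, ofReal_im, sub_im, one_im, mul_im]
    nlinarith
  have e : (ℓ : ℂ) - (N + I * X) = (1 - I * t) * (ℓ - N) - I * t * (ℓ + N) := by
    have : (X : ℂ) = t * (2 * ℓ) := by
      rw [ht]
      have : (ℓ : ℂ) ≠ 0 := by exact_mod_cast hl0.ne'
      push_cast
      field_simp
    rw [this]
    ring
  have g3 : ‖ℓ - (N + I * X)‖ ≤ κ * ‖ℓ - N‖ := by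
    rw [e]
    refine (norm_sub_le _ _).trans ?_
    rw [norm_mul, norm_mul, norm_mul, norm_I, Complex.norm_real, Real.norm_of_nonneg t0, one_mul]
    have b1 := mul_le_mul_of_nonneg_right g2 a0
    have b2 := mul_le_mul t1' g1 (norm_nonneg _) (by norm_num)
    rw [hκ]
    linarith
  have g4 : ‖ℓ - (N + I * X)‖ ^ 2 - ‖ℓ + (N + I * X)‖ ^ 2 = ‖ℓ - N‖ ^ 2 - ‖ℓ + N‖ ^ 2 := by
    simp only [Complex.sq_norm, normSq_apply, sub_re, add_re, mul_re, I_re, I_im, ofReal_re, ofReal_im,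
      sub_im, add_im, mul_im]
    ring
  have g5 : ‖ℓ - (N + I * X)‖ ^ 2 / κ ^ 2 ≤ ‖ℓ - N‖ ^ 2 := by
    rw [div_le_iff₀ (by positivity), ← mul_pow, mul_comm _ κ]
    exact pow_le_pow_left₀ (norm_nonneg _) g3 2
  have g6 := mul_le_mul_of_nonneg_left g5 (mul_nonneg hs hτ)
  have e2 : (1 - s / κ ^ 2 * τ) * ‖ℓ - (N + I * X)‖ ^ 2 =
      ‖ℓ - (N + I * X)‖ ^ 2 - s * τ * (‖ℓ - (N + I * X)‖ ^ 2 / κ ^ 2) := by ring
  rw [e2]
  linarith

theorem rad_mob {ν N : ℂ} {ℓ X u u' : ℝ} (hν : ν + ℓ ≠ 0) (hu : u ≤ 1) (hu' : 0 < u')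
    (h : ‖ℓ + (N + I * X)‖ ^ 2 ≤ (1 - u) * ‖ℓ - (N + I * X)‖ ^ 2)
    (h' : (1 - u) * ‖ν - ℓ‖ ^ 2 ≤ (1 - u') * ‖ν + ℓ‖ ^ 2) : ν - (N + I * X) ≠ 0 ∧
      ‖ℓ + mob ν (ℓ ^ 2) X N‖ ^ 2 ≤ (1 - u') * ‖ℓ - mob ν (ℓ ^ 2) X N‖ ^ 2 := by
  have h0 : ν - (N + I * X) ≠ 0 := fun e => by
    rw [← sub_eq_zero.1 e, add_comm, norm_sub_rev] at h
    have := pow_pos (norm_pos_iff.2 hν) 2
    nlinarith
  refine ⟨h0, ?_⟩
  have e1 : ℓ + mob ν (ℓ ^ 2) X N = (ν - ℓ) * (ℓ + (N + I * X)) / (ν - (N + I * X)) := by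
    unfold mob
    push_cast
    field_simp
    ring
  have e2 : ℓ - mob ν (ℓ ^ 2) X N = (ν + ℓ) * (ℓ - (N + I * X)) / (ν - (N + I * X)) := by
    unfold mob
    push_cast
    field_simp
    ring
  rw [e1, e2, norm_div, norm_div, norm_mul, norm_mul, div_pow, div_pow, ← mul_div_assoc, mul_pow,
    mul_pow]
  refine div_le_div_of_nonneg_right ?_ (sq_nonneg _)
  have b1 := mul_le_mul_of_nonneg_left h (sq_nonneg ‖ν - ℓ‖)
  have b2 := mul_le_mul_of_nonneg_right h' (sq_nonneg ‖ℓ - (N + I * X)‖)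
  linarith

theorem rad_num {ν : ℂ} {ℓ u s' t1 t2 : ℝ} {j : ℕ} (hl : 15 ≤ ℓ) (hr : ν.re ∈ Icc (-5 / 2 : ℝ) 0)
    (h1 : t1 ≤ 4 * ℓ / (ℓ ^ 2 + ν.im ^ 2)) (h2 : 4 * ℓ / (ℓ ^ 2 + ν.im ^ 2) ≤ t2) (h3 : t2 ≤ 1 / 2)
    (hu : 0 ≤ u) (hu' : u * t2 ≤ 1)
    (h : s' ≤ u + if 3 ≤ j then (j - 5 / 2) * (1 - u * t2) / (1 + j * t2 / 2 + j ^ 2 * t2 / 60)
      else -((5 / 2 - j) * (1 - u * t1) / (1 - (5 / 2 - j) * t2 / 2))) :
    (1 - u * (4 * ℓ / (ℓ ^ 2 + ν.im ^ 2))) * ‖ν + j - ℓ‖ ^ 2 ≤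
      (1 - s' * (4 * ℓ / (ℓ ^ 2 + ν.im ^ 2))) * ‖ν + j + ℓ‖ ^ 2 := by
  obtain ⟨r1, r2⟩ := hr
  have hj : (0 : ℝ) ≤ j := Nat.cast_nonneg j
  set E := ℓ ^ 2 + ν.im ^ 2 with hE
  have E0 : 0 < E := by positivity
  set τ := 4 * ℓ / E with hτ
  have eτ : τ * E = 4 * ℓ := div_mul_cancel₀ _ E0.ne'
  have τ0 : 0 ≤ τ := by positivity
  set σ := ν.re + j with hσ
  have e1 : ‖ν + j + ℓ‖ ^ 2 = E + 2 * σ * ℓ + σ ^ 2 := by
    simp only [Complex.sq_norm, normSq_apply, add_re, add_im, natCast_re, natCast_im, ofReal_re,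
      ofReal_im, hE, hσ]
    ring
  have e2 : ‖ν + j - ℓ‖ ^ 2 = E - 2 * σ * ℓ + σ ^ 2 := by
    simp only [Complex.sq_norm, normSq_apply, add_re, add_im, sub_re, sub_im, natCast_re, natCast_im,
      ofReal_re, ofReal_im, hE, hσ]
    ring
  have u1 : u * τ ≤ u * t2 := mul_le_mul_of_nonneg_left h2 hu
  have u2 : u * t1 ≤ u * τ := mul_le_mul_of_nonneg_left h1 hu
  have D0 : 0 ≤ E + 2 * σ * ℓ + σ ^ 2 := e1 ▸ sq_nonneg _
  have k1 : 4 * ℓ ≤ t2 * E := eτ ▸ mul_le_mul_of_nonneg_right h2 E0.le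
  have key : (s' - u) * (E + 2 * σ * ℓ + σ ^ 2) ≤ σ * E * (1 - u * τ) := by
    split_ifs at h with h4
    · have h5 : (3 : ℝ) ≤ j := by exact_mod_cast h4
      have t0 : 0 ≤ t2 := τ0.trans h2
      have g0 : 0 < 1 + j * t2 / 2 + j ^ 2 * t2 / 60 := by positivity
      have d1 : E + 2 * σ * ℓ + σ ^ 2 ≤ E * (1 + j * t2 / 2 + j ^ 2 * t2 / 60) := by
        have a1 : σ * ℓ ≤ j * ℓ := mul_le_mul_of_nonneg_right (by linarith) (by linarith)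
        have a2 : σ ^ 2 ≤ j ^ 2 := pow_le_pow_left₀ (by linarith) (by linarith) 2
        have a3 := mul_le_mul_of_nonneg_left k1 hj
        have a4 := mul_le_mul_of_nonneg_left (by linarith : 60 ≤ t2 * E) (sq_nonneg (j : ℝ))
        linarith
      have c0 : 0 ≤ (j - 5 / 2) * (1 - u * t2) := mul_nonneg (by linarith) (by linarith)
      calc _ ≤ (j - 5 / 2) * (1 - u * t2) / (1 + j * t2 / 2 + j ^ 2 * t2 / 60) *
            (E * (1 + j * t2 / 2 + j ^ 2 * t2 / 60)) :=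
          (mul_le_mul_of_nonneg_right (by linarith) D0).trans
            (mul_le_mul_of_nonneg_left d1 (div_nonneg c0 g0.le))
        _ = (j - 5 / 2) * (1 - u * t2) * E := by field_simp
        _ ≤ σ * (1 - u * τ) * E := mul_le_mul_of_nonneg_right
          (mul_le_mul (by linarith) (by linarith) (by linarith) (by linarith)) E0.le
        _ = _ := by ring
    · have h5 : (j : ℝ) ≤ 2 := by exact_mod_cast (by omega : j ≤ 2)
      have t0 : 0 ≤ t2 := τ0.trans h2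
      have g0 : 0 < 1 - (5 / 2 - j) * t2 / 2 := by nlinarith
      have d1 : E * (1 - (5 / 2 - j) * t2 / 2) ≤ E + 2 * σ * ℓ + σ ^ 2 := by
        have a1 : -(5 / 2 - j) * ℓ ≤ σ * ℓ := mul_le_mul_of_nonneg_right (by linarith) (by linarith)
        have a3 := mul_le_mul_of_nonneg_left k1 (by linarith : (0 : ℝ) ≤ 5 / 2 - j)
        nlinarith [sq_nonneg σ]
      have c0 : 0 ≤ (5 / 2 - j) * (1 - u * t1) := mul_nonneg (by linarith) (by linarith)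
      have c1 := mul_le_mul_of_nonneg_left d1 (div_nonneg c0 g0.le)
      have c2 : (5 / 2 - j) * (1 - u * t1) / (1 - (5 / 2 - j) * t2 / 2) *
          (E * (1 - (5 / 2 - j) * t2 / 2)) = (5 / 2 - j) * (1 - u * t1) * E := by
        rw [mul_comm E, ← mul_assoc, div_mul_cancel₀ _ g0.ne']
      have c3 : (s' - u) * (E + 2 * σ * ℓ + σ ^ 2) ≤ -((5 / 2 - j) * (1 - u * t1) /
          (1 - (5 / 2 - j) * t2 / 2)) * (E + 2 * σ * ℓ + σ ^ 2) :=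
        mul_le_mul_of_nonneg_right (by linarith) D0
      have c4 : -σ * (1 - u * τ) * E ≤ (5 / 2 - j) * (1 - u * t1) * E := mul_le_mul_of_nonneg_right
        (mul_le_mul (by linarith) (by linarith) (by linarith) (by linarith)) E0.le
      linarith
  have key2 := mul_le_mul_of_nonneg_left key τ0
  rw [e1, e2]
  have e3 : τ * (σ * E * (1 - u * τ)) = 4 * ℓ * σ * (1 - u * τ) := by rw [← eτ]; ring
  linarith

theorem radL_sound {ν : ℂ} {ℓ X : ℝ} (hl : 15 ≤ ℓ) (hX : X ∈ Icc Xlo Xhi)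
    (hr : ν.re ∈ Icc (-5 / 2 : ℝ) 0) {t1 t2 : ℚ} (h1 : t1 ≤ 4 * ℓ / (ℓ ^ 2 + ν.im ^ 2))
    (h2 : 4 * ℓ / (ℓ ^ 2 + ν.im ^ 2) ≤ t2) (h3 : (t2 : ℝ) ≤ 1 / 2) (c : List (ℕ × ℕ)) :
    ∀ s : ℚ, 0 ≤ s → radL t1 t2 c s = true → ‖ℓ + TT ν ℓ X c.length‖ ^ 2 ≤
      (1 - s * (4 * ℓ / (ℓ ^ 2 + ν.im ^ 2))) * ‖ℓ - TT ν ℓ X c.length‖ ^ 2 →
      (∀ j < c.length, bb ν ℓ X j ≠ 0) ∧ (TT ν ℓ X 0).re ≤ 0 := by
  have hX0 : 0 < X := lt_of_lt_of_le (by norm_num [Xlo]) hX.1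
  have τ0 : 0 < 4 * ℓ / (ℓ ^ 2 + ν.im ^ 2) := by positivity
  induction c with
  | nil =>
    intro s hs _ h
    refine ⟨fun j hj => absurd hj (Nat.not_lt_zero j), ?_⟩
    have hs' : (0 : ℝ) ≤ s := by exact_mod_cast hs
    have a := mul_nonneg (mul_nonneg hs' τ0.le) (sq_nonneg ‖ℓ - TT ν ℓ X 0‖)
    have e : ‖ℓ + TT ν ℓ X 0‖ ^ 2 - ‖ℓ - TT ν ℓ X 0‖ ^ 2 = 4 * ℓ * (TT ν ℓ X 0).re := by
      simp only [Complex.sq_norm, normSq_apply, add_re, add_im, sub_re, sub_im, ofReal_re, ofReal_im]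
      ring
    rw [List.length_nil] at h
    nlinarith
  | cons p r ih =>
    intro s hs hc h
    rw [radL, Bool.and_eq_true, radS, decide_eq_true_eq] at hc
    obtain ⟨⟨c1, c2, c3, c4, c5⟩, hc⟩ := hc
    generalize (p.1 / 1000 : ℚ) = θ at *
    generalize (p.2 / 1000 : ℚ) = s' at *
    have hs' : (0 : ℝ) ≤ s := by exact_mod_cast hs
    have d1 : (0 : ℝ) ≤ θ := by exact_mod_cast c1
    have d2 : (1 : ℝ) - s * t1 ≤ θ ^ 2 := by exact_mod_cast c2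
    have d3 := (Rat.cast_le (K := ℝ)).2 c3
    have d4 : (0 : ℝ) < s' := by exact_mod_cast c4
    have d5 := (Rat.cast_le (K := ℝ)).2 c5
    rw [Rat.cast_add, apply_ite (Rat.cast : ℚ → ℝ)] at d5
    push_cast at d3 d5
    have k1 := rad_shift hl hX hs' h1 τ0.le d1 d2 h
    have u0 : (0 : ℝ) ≤ s / (1 + 0.0902 ^ 2 / 2 + 0.0902 * θ) ^ 2 := by positivity
    have k2 := rad_num (j := r.length) hl hr h1 h2 h3 u0 d3 d5
    have hν : ν + r.length + ℓ ≠ 0 := fun e => by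
      have := congrArg re e
      simp only [add_re, natCast_re, ofReal_re, zero_re] at this
      have : (0 : ℝ) ≤ r.length := Nat.cast_nonneg _
      linarith [hr.1]
    obtain ⟨k3, k4⟩ := rad_mob hν ((mul_le_mul_of_nonneg_left h2 u0).trans d3) (mul_pos d4 τ0) k1 k2
    rw [List.length_cons, ← TT_rec (by linarith) hr.1 hX0] at k4
    obtain ⟨k5, k6⟩ := ih s' c4.le hc k4
    refine ⟨fun j hj => ?_, k6⟩
    rcases Nat.lt_or_ge j r.length with h4 | h4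
    · exact k5 j h4
    · rw [List.length_cons] at hj
      rw [show j = r.length by omega]
      exact k3

theorem radC_sound {ν : ℂ} {ℓ X : ℝ} (hl : 15 ≤ ℓ) (hX : X ∈ Icc Xlo Xhi)
    (hr : ν.re ∈ Icc (-5 / 2 : ℝ) 0) (c : List (ℕ × List (ℕ × ℕ))) :
    ∀ t1 : ℕ, radC c t1 = true → (t1 : ℝ) / 10000 ≤ 4 * ℓ / (ℓ ^ 2 + ν.im ^ 2) → ReLe ν ℓ X 0 := by
  have hX0 : 0 < X := lt_of_lt_of_le (by norm_num [Xlo]) hX.1
  induction c with
  | nil =>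
    intro t1 h h1
    rw [radC, decide_eq_true_eq] at h
    have h' : (2667 : ℝ) ≤ t1 := by exact_mod_cast h
    rw [le_div_iff₀ (by positivity)] at h1
    nlinarith [sq_nonneg ν.im]
  | cons p r ih =>
    intro t1 h h1
    rw [radC, Bool.and_eq_true, Bool.and_eq_true, decide_eq_true_eq] at h
    obtain ⟨⟨⟨c1, c2⟩, c3⟩, c4⟩ := h
    rcases le_total (4 * ℓ / (ℓ ^ 2 + ν.im ^ 2)) ((p.1 : ℝ) / 10000) with h2 | h2
    · have c2' : (p.1 : ℝ) ≤ 2667 := by exact_mod_cast c2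
      have a := TT_re (ℓ := ℓ) (by linarith) hr.1 hX0 (j := p.2.length) (by omega)
      obtain ⟨k1, k2⟩ := radL_sound hl hX hr (by push_cast; exact h1) (by push_cast; exact h2)
        (by push_cast; linarith) p.2 0 le_rfl c3 (by
          simp only [Complex.sq_norm, normSq_apply, add_re, add_im, sub_re, sub_im, ofReal_re,
            ofReal_im, Rat.cast_zero]
          nlinarith)
      exact ⟨⟨k1 1 (by omega), k1 2 (by omega), k1 3 (by omega)⟩, k1 0 (by omega), k2⟩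
    · exact ih p.1 c4 h2

theorem rad_main {ν : ℂ} {ℓ X : ℝ} (hl : 15 ≤ ℓ) (hX : X ∈ Icc Xlo Xhi)
    (hr : ν.re ∈ Icc (-5 / 2 : ℝ) 0) : ReLe ν ℓ X 0 := by
  exact radC_sound hl hX hr radD 0 radD_ok (by rw [Nat.cast_zero, zero_div]; positivity)

end Vale.Agent.P139.D
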