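import Vale.Agent.P139.D.Step
import Vale.Agent.P139.D.TT

/-! P139 D/Sym: simple zeros at the symmetry eigenvalues. One ball `nuS z 0` (radius `2^40/64 + 21990236`) contains
`ν = lam - iβ - 5/2`, `ν' = conj lam - iβ - 5/2` and `ν0 = z/2 - iβ - 5/2`. `sym_pair`: for `ν0, ν` in the ball, `start_sound` at level 24 and `chain_sound`
(shifted by 11) for both sequences give the same ball (to keep the same ball for several sequences use `step_ball`/`chain_ball` below: the output ball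
does not depend on the point); `TT_lip` at level 12 (`mem_im_le`); `dchain_sound` by induction with `mob_sub`.
`sym_sound`: `Det_eq` at `lam` and at `z/2`; with `h = lam - z/2`, `D1 lam - D1 z = h (κF conj bG + Kz conj (1 - δG) + (1 - δF) conj KG + bz conj κG)`,
`κF = (ℓ - ÑF) - (ν0 + ℓ) δF`, `b = bb 0`, `K = KK`; six factors of norm at least `1/1024`. -/

noncomputable section

open Set Complex
open scoped ComplexConjugate

namespace Vale.Agent.P139.D

open Vale.Agent.P139 Vale.Agent.P206.U.Num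

/-- the continuation only sees one ball -/
theorem step_ball {p : Par} {n T : B} {k : B → Bool} (h : step p n T k = true) :
    ∃ b, k b = true ∧ ∀ k', step p n T k' = k' b := by
  unfold step at h ⊢
  simp only [fN_eq, fZ_eq, fB_eq, gd_iff] at h ⊢
  refine ⟨_, h.2, fun k' => ?_⟩
  rw [h.1]
  rfl

theorem chain_ball {p : Par} {nu : ℕ → B} (m : ℕ) {T : B} {k : B → Bool}
    (h : chain p nu m T k = true) : ∃ b, k b = true ∧ ∀ k', chain p nu m T k' = k' b := by
  induction m generalizing T with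
  | zero => exact ⟨T, h, fun _ => rfl⟩
  | succ m ih =>
    have e : ∀ k', chain p nu (m + 1) T k' = step p (nu (m + 1)) T fun T => chain p nu m T k' :=
      fun k' => fB_eq _ fun n => step p n T fun T => chain p nu m T k'
    rw [e] at h
    obtain ⟨b, h1, h2⟩ := step_ball h
    obtain ⟨b', h3, h4⟩ := ih h1
    exact ⟨b', h3, fun k' => by rw [e, h2, h4]⟩

theorem start_ball {L1 X1 s1 a kk : ℕ} {o0 o1 q : ℤ} {k : B → Bool}
    (h : start L1 X1 s1 o0 o1 a q kk k = true) :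
    ∃ b, k b = true ∧ ∀ k', start L1 X1 s1 o0 o1 a q kk k' = k' b := by
  unfold start at h ⊢
  simp only [fB_eq, gd_iff] at h ⊢
  refine ⟨_, h.2.2, fun k' => ?_⟩
  rw [h.1, h.2.1]
  rfl

def isB (b : B) (c : B) : Bool := decide (c.x = b.x ∧ c.y = b.y ∧ c.r = b.r)

theorem isB_self (b : B) : isB b b = true := by simp [isB]

theorem isB_eq {b c : B} (h : isB b c = true) : c = b := by
  cases b
  cases c
  simpa [isB] using h

theorem step_all {p : Par} {n T : B} {k : B → Bool} (h : step p n T k = true) :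
    ∃ b, k b = true ∧ ∀ {ν N : ℂ} {L X : ℝ}, PM p X L → Mem 40 n ν → Mem 40 T N →
      1 / 1024 ≤ ‖ν - (N + I * X)‖ ∧ Mem 40 b (mob ν L X N) := by
  obtain ⟨b, h1, h2⟩ := step_ball h
  refine ⟨b, h1, fun hp hν hN => ?_⟩
  obtain ⟨k1, b', k2, k3⟩ := step_sound hp hν hN ((h2 (isB b)).trans (isB_self b))
  exact ⟨k1, isB_eq k3 ▸ k2⟩

/-- `P` is a set of parameters; all sequences run through the same balls -/
theorem dchain_sound {p : Par} {nu : ℕ → B} {ι : Type} {ν : ι → ℂ} {T : ι → ℕ → ℂ} {X L : ℝ}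
    (hp : PM p X L) (hL : Mem 40 (reB (Nat.shiftRight p.L 40)) L)
    (hν : ∀ i j, Mem 40 (nu j) (ν i + j))
    (hT : ∀ i j, T i j = mob (ν i + j) L X (T i (j + 1))) (m : ℕ) {b D : B} {k : B → B → Bool}
    (hb : ∀ i, Mem 40 b (T i (m + 1)))
    (hD : ∀ i i', ∃ δ, Mem 40 D δ ∧ T i' (m + 1) - T i (m + 1) = (ν i' - ν i) * δ)
    (h : dchain p nu m b D k = true) :
    (∀ i j, 1 ≤ j → j ≤ m → 1 / 1024 ≤ ‖ν i + j - (T i (j + 1) + I * X)‖) ∧
      ∃ b' D', k b' D' = true ∧ (∀ i, Mem 40 b' (T i 1)) ∧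
        ∀ i i', ∃ δ, Mem 40 D' δ ∧ T i' 1 - T i 1 = (ν i' - ν i) * δ := by
  induction m generalizing b D with
  | zero => exact ⟨fun i j h1 h2 => by omega, b, D, h, hb, hD⟩
  | succ m ih =>
    have e : dchain p nu (m + 1) b D k = gd (nz (subB (nu (m + 1)) (til p b)) 1)
        (fB (dstep p (nu (m + 1)) b D) fun D' => step p (nu (m + 1)) b fun T' =>
          dchain p nu m T' D' k) :=
      fB_eq _ fun n => gd (nz (subB n (til p b)) 1)
        (fB (dstep p n b D) fun D' => step p n b fun T' => dchain p nu m T' D' k)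
    rw [e, gd_iff, fB_eq] at h
    obtain ⟨hz, h⟩ := h
    obtain ⟨b', h1, h2⟩ := step_all h
    have k1 := fun i => h2 hp (hν i (m + 1)) (hb i)
    have k2 := fun i => mem_sub (hν i (m + 1)) (mem_til hp (hb i))
    obtain ⟨k4, k5⟩ := ih (fun i => by rw [hT i]; exact (k1 i).2) (fun i i' => by
      obtain ⟨δ, a1, a2⟩ := hD i i'
      have a3 := mob_sub (L := L) (nz_ne (k2 i) hz) (nz_ne (k2 i') hz) (δ := δ)
        (by rw [add_sub_add_right_eq_sub]; exact a2)
      rw [← hT, ← hT, add_sub_add_right_eq_sub] at a3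
      exact ⟨_, mem_mulT (mem_mulT ((mem_sub hL (mem_mulT (mem_til hp (hb i)) (mem_til hp (hb i')))).add
        (mem_mulT a1 (mem_sub (mem_mulT (hν i _) (hν i' _)) hL))) (mem_invT (k2 i) hz))
        (mem_invT (k2 i') hz), a3⟩) h1
    refine ⟨fun i j h1 h2 => ?_, k5⟩
    rcases Nat.lt_or_ge m j with hj | hj
    · rw [show j = m + 1 by omega]
      exact (k1 i).1
    · exact k4 i j h1 hj

theorem sym_run {l z : ℕ} (h : symOK l z = true) {X : ℝ} (hX : X ∈ Icc Xlo Xhi) {ι : Type}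
    {ν : ι → ℂ} (hν : ∀ i, Mem 40 (nuS z 0) (ν i)) (hr : ∀ i, (ν i).re ∈ Icc (-5 / 2 : ℝ) (-1))
    (hi : ∀ i, (ν i).im ∈ Icc (-1 : ℝ) 0) :
    (∀ i j, 1 ≤ j → j ≤ 11 → 1 / 1024 ≤ ‖bb (ν i) ((l + 5) / 2) X j‖) ∧
      ∃ b D, symF l (nuS z 0) b D = true ∧ (∀ i, Mem 40 b (TT (ν i) ((l + 5) / 2) X 1)) ∧
        ∀ i i', ∃ δ, Mem 40 D δ ∧
          TT (ν i') ((l + 5) / 2) X 1 - TT (ν i) ((l + 5) / 2) X 1 = (ν i' - ν i) * δ := by
  have hX0 : 0 < X := lt_of_lt_of_le (by norm_num [Xlo]) hX.1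
  have hX1 : X * 2 ^ 40 ≤ 2974277909182 := by
    have := hX.2
    unfold Xhi at this
    linarith
  have hl : (0 : ℝ) ≤ (l + 5) / 2 := by positivity
  have hp := PM_par l hX
  have hrec := fun i => TT_rec (ν := ν i) hl (hr i).1 hX0
  obtain ⟨b1, h1, g1⟩ := start_ball h
  obtain ⟨b2, h2, g2⟩ := chain_ball _ h1
  have m1 : ∀ i, Mem 40 b1 (TT (ν i) ((l + 5) / 2) X 24) := fun i => by
    obtain ⟨b', k2, k3⟩ := start_sound (TT_H hl (hr i).1 hX0 (j := 24) (by norm_num))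
      (TT_im hl (hr i).1 hX0 (by norm_num))
      (by have := TT_re hl (hr i).1 hX0 (j := 24) (by norm_num); push_cast; linarith)
      (by have := (hr i).2; norm_num [SS]; linarith)
      (by have := (hi i).1; rw [snn_eq]; norm_num [SS]; linarith)
      (by have := (hi i).2; norm_num; linarith) (LL_cast l).ge hX0.le (by exact_mod_cast hX1)
      ((g1 (isB b1)).trans (isB_self b1))
    exact isB_eq k3 ▸ k2
  have m2 : ∀ i, Mem 40 b2 (TT (ν i) ((l + 5) / 2) X 12) := fun i => by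
    obtain ⟨-, b', k2, k3⟩ := chain_sound (ν := fun j => ν i + (j + 11 : ℕ))
      (T := fun j => TT (ν i) ((l + 5) / 2) X (j + 11)) hp (fun j => mem_nuB (hν i) (j + 11))
      (fun j => by rw [hrec i (j + 11), Nat.add_right_comm j 1 11]) 12 (m1 i)
      ((g2 (isB b2)).trans (isB_self b2))
    exact isB_eq k3 ▸ k2
  have hL : Mem 40 (reB (Nat.shiftRight (par l).L 40)) ((((l + 5) / 2) ^ 2 : ℝ) : ℂ) := by
    refine mem_re ?_
    have e : Nat.shiftRight (par l).L 40 = (l + 5) * (l + 5) * 2 ^ 38 := by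
      show (((l + 5) * (l + 5)) <<< 78) >>> 40 = _
      rw [Nat.shiftLeft_eq, Nat.shiftRight_eq_div_pow, show 78 = 38 + 40 from rfl, pow_add,
        ← mul_assoc, Nat.mul_div_cancel _ (by positivity)]
    rw [e, Nat.cast_mul, Nat.cast_pow, Nat.cast_ofNat]
    push_cast
    ring
  refine dchain_sound (T := fun i => TT (ν i) ((l + 5) / 2) X) hp hL (fun i j => mem_nuB (hν i) j)
    hrec 11 m2 (fun i i' => ?_) h2
  have a : ∀ i, (TT (ν i) ((l + 5) / 2) X 12).im + X / 2 ≤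
      (zpos (zadd b2.y (Int.ofNat (Nat.add b2.r 1487138954591))) : ℝ) / 2 ^ 40 := fun i => by
    have a1 := mem_im_le (m2 i)
    have a2 : ((zadd b2.y (Int.ofNat (Nat.add b2.r 1487138954591)) : ℤ) : ℝ) ≤
        zpos (zadd b2.y (Int.ofNat (Nat.add b2.r 1487138954591))) := by
      rw [zpos_eq]
      exact_mod_cast Int.self_le_toNat _
    rw [zadd_eq] at a2 ⊢
    simp only [Nat.add_eq, Int.ofNat_eq_natCast] at a2 ⊢
    push_cast at a2 ⊢
    rw [le_div_iff₀ (by positivity)]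
    linarith
  obtain ⟨δ, k1, k2⟩ := TT_lip hl (hr i).1 (hr i').1 hX0 (j := 12) (by norm_num) (a i) (a i')
  refine ⟨δ, ?_, k1⟩
  have a3 := ndiv_le (zpos (zadd b2.y (Int.ofNat (Nat.add b2.r 1487138954591)))) (b := 9)
    (by norm_num)
  have ec : ∀ r, (⟨Int.ofNat 0, Int.ofNat 0, r⟩ : B).c = 0 := fun r => by
    apply Complex.ext <;> simp [B.c]
  unfold Mem
  rw [ec, sub_zero, norm_mul, norm_pow, Complex.norm_ofNat, Nat.succ_eq_add_one, Nat.cast_add,
    Nat.cast_one]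
  push_cast at k2 a3
  linarith

theorem mem_nuS {z : ℕ} {β : ℝ} (hβ : β ∈ Icc βlo βhi) {lam : ℂ} (hn : ‖lam - z / 2‖ ≤ 1 / 64) :
    Mem 40 (nuS z 0) (lam - I * β - 5 / 2) := by
  have e : (lam - I * β - 5 / 2) * 2 ^ 40 - (nuS z 0).c =
      (lam - z / 2) * 2 ^ 40 - I * ((β * 2 ^ 40 - 368094502747 : ℝ) : ℂ) := by
    have : (nuS z 0).c = ((z * 2 ^ 39 - 2748779069440 : ℝ) : ℂ) - I * (368094502747 : ℝ) := by
      apply Complex.ext
      · simp only [nuS, nuB, B.c, snn_eq, Nat.add_eq, Nat.shiftLeft_eq', Nat.shiftLeft_eq, sub_re,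
          ofReal_re, mul_re, I_re, I_im, ofReal_im]
        push_cast
        ring
      · simp only [nuS, nuB, B.c, snn_eq, sub_im, ofReal_re, mul_im, I_re, I_im, ofReal_im]
        push_cast
        ring
    rw [this]
    push_cast
    ring
  obtain ⟨h1, h2⟩ := hβ
  unfold βlo at h1
  unfold βhi at h2
  have h3 : |β * 2 ^ 40 - 368094502747| ≤ 21990233 := by
    rw [abs_le]
    constructor <;> linarith
  unfold Mem
  rw [e]
  refine (norm_sub_le _ _).trans ?_
  rw [norm_mul, norm_mul, norm_I, Complex.norm_real, Real.norm_eq_abs, norm_pow, Complex.norm_ofNat]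
  have : ((nuS z 0).r : ℝ) = 17201859420 := by norm_num [nuS, nuB]
  have h4 := mul_le_mul_of_nonneg_right hn (by positivity : (0 : ℝ) ≤ 2 ^ 40)
  rw [this, one_mul]
  exact (add_le_add h4 h3).trans (by norm_num)

theorem sym_sound {l z : ℕ} (hz : z ≤ 2) (h : symOK l z = true) {X β : ℝ} (hb : InBox X β) {lam : ℂ}
    (hr : 0 ≤ lam.re) (hn : ‖lam - z / 2‖ ≤ 1 / 64) (h0 : Det X β ((l + 5) / 2) (z / 2) = 0) :
    1 / 2 ^ 60 * ‖lam - z / 2‖ ≤ ‖Det X β ((l + 5) / 2) lam‖ := by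
  have hz' : (z : ℝ) ≤ 2 := by exact_mod_cast hz
  have hz0 : (0 : ℝ) ≤ z := Nat.cast_nonneg z
  have hc : conj lam - z / 2 = conj (lam - z / 2) := by simp [map_ofNat]
  have a1 := abs_le.1 ((abs_re_le_norm _).trans hn)
  have a2 := abs_le.1 ((abs_im_le_norm _).trans hn)
  simp only [sub_re, sub_im, div_ofNat_re, div_ofNat_im, natCast_re, natCast_im] at a1 a2
  have b1 : 0.33476 ≤ β := hb.2.1
  have b2 : β ≤ 0.33480 := hb.2.2
  obtain ⟨k1, b, D, k2, k3, k4⟩ := sym_run h hb.1 (ι := Fin 3)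
    (ν := ![lam - I * β - 5 / 2, conj lam - I * β - 5 / 2, z / 2 - I * β - 5 / 2])
    (fun i => by
      fin_cases i
      · exact mem_nuS hb.2 hn
      · exact mem_nuS hb.2 (by rw [hc, Complex.norm_conj]; exact hn)
      · exact mem_nuS hb.2 (by rw [sub_self, norm_zero]; norm_num))
    (fun i => by fin_cases i <;> simp <;> constructor <;> linarith)
    (fun i => by fin_cases i <;> simp <;> constructor <;> linarith)
  set ℓ : ℝ := (l + 5) / 2 with hℓ
  obtain ⟨δ, d1, d2⟩ := k4 2 0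
  obtain ⟨δ', d3, d4⟩ := k4 2 1
  have g : ∀ i, G3 (![lam - I * β - 5 / 2, conj lam - I * β - 5 / 2, z / 2 - I * β - 5 / 2] i) ℓ X :=
    fun i => ⟨norm_pos_iff.1 (by linarith [k1 i 1 (by norm_num) (by norm_num)]),
      norm_pos_iff.1 (by linarith [k1 i 2 (by norm_num) (by norm_num)]),
      norm_pos_iff.1 (by linarith [k1 i 3 (by norm_num) (by norm_num)])⟩
  have n0 := mem_nuS (z := z) hb.2 hn
  have n1 := mem_nuS (z := z) (lam := conj lam) hb.2 (by rw [hc, Complex.norm_conj]; exact hn)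
  have n2 := mem_nuS (z := z) (lam := z / 2) hb.2 (by rw [sub_self, norm_zero]; norm_num)
  have t0 := mem_til (PM_par l hb.1) (k3 0)
  have t1 := mem_til (PM_par l hb.1) (k3 1)
  have t2 := mem_til (PM_par l hb.1) (k3 2)
  have c0 := fun j => k1 0 j
  have c1 := fun j => k1 1 j
  have g0 := g 0
  have g1 := g 1
  have g2 := g 2
  simp only [Matrix.cons_val_zero, Matrix.cons_val_one, Matrix.cons_val] at *
  set ν := lam - I * β - 5 / 2 with hν
  set ν' := conj lam - I * β - 5 / 2 with hν'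
  set ν0 := (z : ℂ) / 2 - I * β - 5 / 2 with hν0
  have e0 : KK ν0 ℓ X * conj (bb ν0 ℓ X 0) + bb ν0 ℓ X 0 * conj (KK ν0 ℓ X) = 0 := by
    by_contra hne
    exact Det_ne1 hν0 (by rw [hν0]; simp [map_ofNat]) g2 g2 hne h0
  unfold symF at k2
  simp only [fB_eq] at k2
  have k5 := nz_le (((mem_mulT (mem_sub (mem_sub (mem_ell l) t0) (mem_mulT (n2.add (mem_ell l)) d1))
    (mem_conj (mem_sub n1 t1))).add (mem_mulT (mem_KB l n2 t2) (mem_conj (mem_sub mem_SS d3)))).add
    ((mem_mulT (mem_sub mem_SS d1) (mem_conj (mem_KB l n1 t1))).add (mem_mulT (mem_sub n2 t2)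
    (mem_conj (mem_sub (mem_sub (mem_ell l) t1) (mem_mulT (n2.add (mem_ell l)) d3)))))) k2
  rw [← hℓ] at k5
  set Δ := (ℓ - (TT ν ℓ X 1 + I * X) - (ν0 + ℓ) * δ) * conj (ν' - (TT ν' ℓ X 1 + I * X)) +
    (ν0 + ℓ) * (ℓ - (TT ν0 ℓ X 1 + I * X)) * conj (1 - δ') +
    ((1 - δ) * conj ((ν' + ℓ) * (ℓ - (TT ν' ℓ X 1 + I * X))) +
      (ν0 - (TT ν0 ℓ X 1 + I * X)) * conj (ℓ - (TT ν' ℓ X 1 + I * X) - (ν0 + ℓ) * δ')) with hΔ
  have k6 : 1 ≤ ‖Δ‖ := by
    norm_num [SS] at k5
    exact k5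
  have f1 : ν = ν0 + (lam - z / 2) := by rw [hν, hν0]; ring
  have f2 : ν' = ν0 + conj (lam - z / 2) := by rw [hν', hν0, ← hc]; ring
  have e1 : KK ν ℓ X * conj (bb ν' ℓ X 0) + bb ν ℓ X 0 * conj (KK ν' ℓ X) = (lam - z / 2) * Δ := by
    rw [hΔ]
    simp only [KK, bb, Nat.cast_zero, add_zero, zero_add] at e0 ⊢
    rw [← sub_eq_zero, ← e0]
    have f3 : TT ν ℓ X 1 = TT ν0 ℓ X 1 + (ν - ν0) * δ := by linear_combination d2
    have f4 : TT ν' ℓ X 1 = TT ν0 ℓ X 1 + (ν' - ν0) * δ' := by linear_combination d4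
    rw [f3, f4]
    generalize TT ν0 ℓ X 1 = T0
    rw [f1, f2]
    generalize lam - z / 2 = w
    simp only [map_add, map_sub, map_mul, map_one, conj_conj, conj_ofReal]
    ring
  rw [Det_eq hν hν' g0 g1, e1]
  simp only [norm_mul, Complex.norm_conj]
  calc 1 / 2 ^ 60 * ‖lam - z / 2‖ = 1 / 1024 * (1 / 1024) * (1 / 1024) *
        (1 / 1024 * (1 / 1024) * (1 / 1024)) * (‖lam - z / 2‖ * 1) := by ring
    _ ≤ _ := by
      gcongr
      exacts [c0 3 (by norm_num) (by norm_num), c0 2 (by norm_num) (by norm_num),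
        c0 1 (by norm_num) (by norm_num), c1 3 (by norm_num) (by norm_num),
        c1 2 (by norm_num) (by norm_num), c1 1 (by norm_num) (by norm_num)]

theorem sym00 : symOK 0 0 = true := by decide +kernel

theorem sym02 : symOK 0 2 = true := by decide +kernel

theorem sym11 : symOK 1 1 = true := by decide +kernel

theorem sym_main {l : ℕ} {z : ℂ} (hz : Sym l z) {X β : ℝ} (hb : InBox X β) {lam : ℂ}
    (hr : 0 ≤ lam.re) (hn : ‖lam - z‖ ≤ 1 / 64) (h0 : Det X β ((l + 5) / 2) z = 0) :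
    1 / 2 ^ 60 * ‖lam - z‖ ≤ ‖Det X β ((l + 5) / 2) lam‖ := by
  rcases hz with ⟨rfl, rfl⟩ | ⟨rfl, rfl⟩ | ⟨rfl, rfl⟩
  · have := sym_sound (by norm_num) sym00 hb hr (by simpa using hn) (by simpa using h0)
    simpa using this
  · have := sym_sound (by norm_num) sym02 hb hr (by simpa using hn) (by simpa using h0)
    simpa using this
  · have := sym_sound (by norm_num) sym11 hb hr (by simpa using hn) (by simpa using h0)
    simpa using this

end Vale.Agent.P139.D
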