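import Vale.Agent.P139.D.Step
import Vale.Agent.P139.D.TT

/-! P139 D/Tail: large frequencies. Put `ε = 1 / |im ν|`, `ε 2^40 ≤ 13917868707` (as `|im ν| ≥ 79`), and run the checker on the scaled
quantities `ε (ν + j)`, `ε² ℓ²`, `ε X`, `ε TT j` (`mob_smul`, `TT_rec`; the hypotheses `TT_H TT_im TT_re` scale). `im (ε (ν + j)) = ± 1`,
`re (ε (ν + j)) ∈ [-(5/2 - j)₊ ε, j ε]` (`mem_nuT`, `mem_of_rect` with `t = 0`, `zdiv_near`). `reS_sound`: `mob_re`, `mem_invT`, `mem_mulT`, `mem_norm`, `shr_ge`.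
`tail_sound`: `start_sound`, `chain_sound` (shifted by 2) gives `bb 3 ≠ 0`, `TT_re` at level 3, then three times `reS_sound` and two `step_sound`. -/

noncomputable section

open Set Complex
open scoped ComplexConjugate

namespace Vale.Agent.P139.D

open Vale.Agent.P139 Vale.Agent.P206.U.Num

theorem PM_parT (l : ℕ) {X ε : ℝ} (hX : X ∈ Icc Xlo Xhi) (h0 : 0 < ε) (h1 : ε * 2 ^ 40 ≤ 13917868707) :
    PM (parT l) (ε * X) (ε ^ 2 * ((l + 5) / 2) ^ 2) := by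
  obtain ⟨a1, a2⟩ := hX
  unfold Xlo at a1
  unfold Xhi at a2
  have hl : (0 : ℝ) ≤ ((l : ℝ) + 5) ^ 2 := sq_nonneg _
  refine ⟨?_, ?_⟩
  · simp only [parT]
    push_cast
    rw [abs_le]
    constructor <;> nlinarith
  · simp only [parT, Nat.add_eq, Nat.mul_eq]
    push_cast
    have b1 : (ε * 2 ^ 40) ^ 2 ≤ 13917868707 ^ 2 := pow_le_pow_left₀ (by positivity) h1 2
    have b2 : 0 ≤ ε ^ 2 * ((l + 5) / 2) ^ 2 * 2 ^ 80 := by positivity
    have b3 := mul_le_mul_of_nonneg_right b1 hl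
    rw [abs_le]
    constructor <;> nlinarith

theorem mem_nuT {ν : ℂ} {ε : ℝ} {y : ℤ} (h0 : 0 < ε) (h1 : ε * 2 ^ 40 ≤ 13917868707)
    (hr : ν.re ∈ Icc (-5 / 2 : ℝ) 0) (hy : ε * ν.im * 2 ^ 40 = y) (j : ℕ) :
    Mem 40 (nuT y j) (ε * (ν + j)) := by
  have e1 : ((ε : ℂ) * (ν + j)).re = ε * (ν.re + j) := by simp
  have e2 : ((ε : ℂ) * (ν + j)).im = ε * ν.im := by simp
  obtain ⟨r1, r2⟩ := hr
  set u := Nat.sub 5 (Nat.mul 2 j) with hu
  have hj : (0 : ℝ) ≤ j := Nat.cast_nonneg j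
  have u0 : (0 : ℝ) ≤ u := Nat.cast_nonneg u
  have u1 : (5 : ℝ) - 2 * j ≤ u := by
    have : 5 ≤ u + 2 * j := by rw [hu]; simp only [Nat.sub_eq, Nat.mul_eq]; omega
    have : (5 : ℝ) ≤ u + 2 * j := by exact_mod_cast this
    linarith
  have a1 := abs_le.1 (zdiv_near (snn (Nat.mul (Nat.mul 2 j) 13917868707) (Nat.mul u 13917868707))
    (n := 2 ^ 2) (by norm_num))
  have a2 := shr_ge (Nat.mul (Nat.add (Nat.mul 2 j) u) 13917868707) 2
  unfold nuT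
  rw [← hu, zshr_eq]
  refine mem_of_rect (s := (Nat.add (Nat.shiftRight (Nat.mul (Nat.add (Nat.mul 2 j) u) 13917868707) 2)
    2 : ℕ)) (t := 0) ?_ (by rw [e2, hy, sub_self, abs_zero])
    (by rw [zero_pow two_ne_zero, add_zero, Real.sqrt_sq (Nat.cast_nonneg _)])
  rw [snn_eq] at a1 ⊢
  generalize zdiv _ _ = w at a1 ⊢
  rw [Nat.add_eq, Nat.cast_add]
  generalize Nat.shiftRight _ _ = w' at a2 ⊢
  simp only [Nat.add_eq, Nat.mul_eq] at a1 a2
  push_cast at a1 a2 ⊢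
  have a3 : ε * 2 ^ 40 * (ν.re + j) ≤ 13917868707 * j := by nlinarith
  have a4 : -(13917868707 * (u / 2)) ≤ ε * 2 ^ 40 * (ν.re + j) := by nlinarith
  rw [e1, abs_le]
  constructor <;> linarith

theorem reS_num {x1 x2 x3 L a u v M c s ε R σ : ℝ} (p1 : 0 ≤ x1) (p2 : 0 ≤ x2) (p3 : 0 ≤ x3)
    (h1 : x1 * 2 ^ 40 ≤ u) (h2 : x2 * 2 ^ 40 ≤ v) (h3 : x3 * 2 ^ 40 ≤ a) (hL : 0 ≤ L)
    (hM : L * 2 ^ 80 ≤ M) (hc : R * 2 ^ 40 ≤ ε * c) (hs : -σ * 2 ^ 40 ≤ ε * s) (hε : 0 ≤ ε)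
    (c0 : 0 ≤ c) (s0 : 0 ≤ s) : ((x1 ^ 2 + L * x3 ^ 2) * R - σ * (x2 ^ 2 + L * x3 ^ 2)) * 2 ^ 40 ≤
      ε * (((u * u * 2 ^ 80 + M * (a * a)) * c + (v * v * 2 ^ 80 + M * (a * a)) * s) / 2 ^ 160) := by
  have b1 := mul_self_le_mul_self (by positivity) h1
  have b2 := mul_self_le_mul_self (by positivity) h2
  have b3 := mul_le_mul hM (mul_self_le_mul_self (by positivity) h3) (by positivity)
    (le_trans (by positivity) hM)
  have d1 : x1 ^ 2 + L * x3 ^ 2 ≤ (u * u * 2 ^ 80 + M * (a * a)) / 2 ^ 160 := by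
    rw [le_div_iff₀ (by positivity)]
    linarith
  have d2 : x2 ^ 2 + L * x3 ^ 2 ≤ (v * v * 2 ^ 80 + M * (a * a)) / 2 ^ 160 := by
    rw [le_div_iff₀ (by positivity)]
    linarith
  have f1 := mul_le_mul_of_nonneg_left hc (by positivity : 0 ≤ x1 ^ 2 + L * x3 ^ 2)
  have f2 := mul_le_mul_of_nonneg_left hs (by positivity : 0 ≤ x2 ^ 2 + L * x3 ^ 2)
  have f3 := mul_le_mul_of_nonneg_right d1 (mul_nonneg hε c0)
  have f4 := mul_le_mul_of_nonneg_right d2 (mul_nonneg hε s0)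
  linarith

theorem reS_sound {p : Par} {n T : B} {s c : ℕ} {k : ℕ → Bool} {ν N : ℂ} {L X ε : ℝ} (hp : PM p X L)
    (hL : 0 ≤ L) (hε : 0 ≤ ε) (hν : Mem 40 n ν) (hN : Mem 40 T N) (hc : N.re * 2 ^ 40 ≤ ε * c)
    (hs : -ν.re * 2 ^ 40 ≤ ε * s) (h : reS p n T s c k = true) :
    ν - (N + I * X) ≠ 0 ∧ ∃ c' : ℕ, (mob ν L X N).re * 2 ^ 40 ≤ ε * c' ∧ k c' = true := by
  unfold reS at h
  simp only [fN_eq, fB_eq, gd_iff] at h
  obtain ⟨hz, h⟩ := h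
  have hw := mem_sub hν (mem_til hp hN)
  have h0 := nz_ne hw hz
  have hW := mem_invT hw hz
  have hP := mem_mulT hν hW
  have a1 := mem_norm hW
  have a2 := mem_norm hP
  have a3 := mem_norm (mem_sub hP mem_SS)
  refine ⟨h0, _, ?_, h⟩
  rw [mob_re h0]
  set W := invT (subB n (til p T))
  have e3 : ((subB (mulT n W) (reB SS)).r : ℝ) = (mulT n W).r := rfl
  rw [e3] at a3
  have a4 : L * 2 ^ 80 ≤ p.L + p.eL := by linarith [(abs_le.1 hp.2).2]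
  refine (reS_num (norm_nonneg _) (norm_nonneg _) (norm_nonneg _) a2 a3 a1 hL a4 hc hs hε
    (Nat.cast_nonneg c) (Nat.cast_nonneg s)).trans (mul_le_mul_of_nonneg_left ?_ hε)
  rw [Nat.succ_eq_add_one, Nat.cast_add, Nat.cast_one]
  refine le_trans (le_of_eq ?_) (shr_ge _ 160)
  simp only [Nat.add_eq, Nat.mul_eq, Nat.shiftLeft_eq', Nat.shiftLeft_eq, Nat.cast_add, Nat.cast_mul,
    Nat.cast_pow, Nat.cast_ofNat]

theorem tail_sound {l m : ℕ} {y q : ℤ} {k : ℕ → Bool} {ν : ℂ} {X : ℝ} (hX : X ∈ Icc Xlo Xhi)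
    (hr : ν.re ∈ Icc (-5 / 2 : ℝ) 0) (hi : 79 ≤ |ν.im|) (hy : ν.im / |ν.im| * 2 ^ 40 = y)
    (h : tail l y q m k = true) :
    ∃ c : ℕ, ReLe ν ((l + 5) / 2) X (c / 2 ^ 40) ∧ k c = true := by
  have hX0 : 0 < X := lt_of_lt_of_le (by norm_num [Xlo]) hX.1
  have hX1 : X ≤ 2.70509 := hX.2
  set ℓ : ℝ := (l + 5) / 2 with hℓ
  have hl : 0 ≤ ℓ := by positivity
  have hp0 : 0 < |ν.im| := by linarith
  set ε : ℝ := 1 / |ν.im| with hε
  have h0 : 0 < ε := by positivity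
  have h1 : ε * 2 ^ 40 ≤ 13917868707 := by
    rw [hε, div_mul_eq_mul_div, div_le_iff₀ hp0]
    linarith
  have hy' : ε * ν.im * 2 ^ 40 = y := by rw [← hy, hε]; ring
  have hp : PM (parT l) (ε * X) (ε ^ 2 * ℓ ^ 2) := PM_parT l hX h0 h1
  have hν := mem_nuT h0 h1 hr hy'
  have hrec : ∀ j, (ε : ℂ) * TT ν ℓ X j =
      mob (ε * (ν + j)) (ε ^ 2 * ℓ ^ 2) (ε * X) (ε * TT ν ℓ X (j + 1)) := fun j => by
    rw [mob_smul h0.ne', ← TT_rec hl hr.1 hX0]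
  have hbb : ∀ j : ℕ, (ε : ℂ) * (ν + j) - (ε * TT ν ℓ X (j + 1) + I * (ε * X : ℝ)) ≠ 0 →
      bb ν ℓ X j ≠ 0 := fun j hj e => hj (by
    unfold bb at e
    push_cast
    linear_combination ε * e)
  have hre : ∀ w : ℂ, ((ε : ℂ) * w).re = ε * w.re := fun w => re_ofReal_mul _ _
  have him : ∀ w : ℂ, ((ε : ℂ) * w).im = ε * w.im := fun w => im_ofReal_mul _ _
  have hs : ∀ j : ℕ, -((ε : ℂ) * (ν + j)).re * 2 ^ 40 ≤ ε * ((5 / 2 - j) * 2 ^ 40) := fun j => by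
    rw [hre, add_re, natCast_re]
    nlinarith [hr.1]
  unfold tail at h
  rw [gd_iff] at h
  have hm : 4 ≤ m + 3 := by have := Nat.le_of_ble_eq_true h.1; omega
  have c1 := TT_H hl hr.1 hX0 hm
  have c2 := TT_im hl hr.1 hX0 hm
  have c3 := TT_re hl hr.1 hX0 (j := m + 3) (by omega)
  have c4 := TT_re hl hr.1 hX0 (j := 3) le_rfl
  obtain ⟨b, m1, k1⟩ := start_sound (N := ε * TT ν ℓ X (m + 3)) (σ := ε * (ν.re + (m + 3 : ℕ)))
    (Ω := ε * ν.im) (L := ε ^ 2 * ℓ ^ 2) (X := ε * X)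
    (by
      rw [norm_mul, Complex.norm_real, Real.norm_of_nonneg h0.le, hre, him]
      nlinarith [sq_nonneg ε])
    (by rw [him]; nlinarith) (by rw [hre]; push_cast; nlinarith)
    (by
      simp only [Nat.add_eq, Nat.mul_eq]
      push_cast
      have : (0 : ℝ) ≤ m := Nat.cast_nonneg m
      nlinarith [hr.2])
    hy'.ge hy'.le
    (by
      have := (abs_le.1 hp.2).2
      have e : ((parT l).eL : ℝ) = (parT l).L := rfl
      rw [Nat.mul_eq, Nat.cast_mul, Nat.cast_ofNat]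
      linarith)
    (by positivity) (by push_cast; nlinarith) h.2
  obtain ⟨k2, T3, m3, k3⟩ := chain_sound (ν := fun j => ε * (ν + (j + 2 : ℕ)))
    (T := fun j => ε * TT ν ℓ X (j + 2)) hp (fun j => hν (j + 2))
    (fun j => by rw [hrec (j + 2), Nat.add_right_comm j 1 2]) m m1 k1
  have hL : 0 ≤ ε ^ 2 * ℓ ^ 2 := by positivity
  have g3 := hbb 3 (norm_pos_iff.1 (lt_of_lt_of_le (by norm_num) (k2 1 le_rfl (by omega))))
  obtain ⟨g2, d2, r2, k4⟩ := reS_sound hp hL h0.le (hν 2) m3 (by rw [hre]; push_cast; nlinarith)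
    ((hs 2).trans (by norm_num)) k3
  obtain ⟨-, T2, m2, k5⟩ := step_sound hp (hν 2) m3 k4
  rw [← hrec 2] at r2 m2
  obtain ⟨g1, d1, r1, k6⟩ := reS_sound hp hL h0.le (hν 1) m2 r2 ((hs 1).trans (by norm_num)) k5
  obtain ⟨-, T1, m1, k7⟩ := step_sound hp (hν 1) m2 k6
  rw [← hrec 1] at r1 m1
  obtain ⟨g0, d0, r0, k8⟩ := reS_sound hp hL h0.le (hν 0) m1 r1 ((hs 0).trans (by norm_num)) k7
  rw [← hrec 0, hre, mul_assoc] at r0
  exact ⟨d0, ⟨⟨hbb 1 g1, hbb 2 g2, g3⟩, hbb 0 g0,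
    (le_div_iff₀ (by positivity)).2 (le_of_mul_le_mul_left r0 h0)⟩, k8⟩

theorem tail_all : allB tailOK 25 = true := by decide +kernel

theorem allB_Tail {g : ℕ → Bool} {n : ℕ} (h : allB g n = true) : ∀ i < n, g i = true := by
  induction n with
  | zero => intro i hi; omega
  | succ n ih =>
    have h' : gd (allB g n) (g n) = true := h
    rw [gd_iff] at h'
    intro i hi
    rcases Nat.lt_or_ge i n with h1 | h1
    · exact ih h'.1 i h1
    · rw [show i = n by omega]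
      exact h'.2

theorem tail_main {l : ℕ} (hl : l < 25) {X β : ℝ} (h : InBox X β) {lam : ℂ}
    (hr : lam.re ∈ Icc (0 : ℝ) (5 / 2)) (hi : 80 ≤ lam.im) : Det X β ((l + 5) / 2) lam ≠ 0 := by
  have b1 : 0.33476 ≤ β := h.2.1
  have b2 : β ≤ 0.33480 := h.2.2
  have e1 : (lam - I * β - 5 / 2).re = lam.re - 5 / 2 := by simp
  have e2 : (conj lam - I * β - 5 / 2).re = lam.re - 5 / 2 := by simp
  have e3 : (lam - I * β - 5 / 2).im = lam.im - β := by simp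
  have e4 : (conj lam - I * β - 5 / 2).im = -(lam.im + β) := by simp; ring
  have p1 : 0 < lam.im - β := by linarith
  have p2 : 0 < lam.im + β := by linarith
  obtain ⟨c, r1, k1⟩ := tail_sound (ν := lam - I * β - 5 / 2) h.1
    (by rw [e1]; constructor <;> linarith [hr.1, hr.2]) (by rw [e3, abs_of_pos p1]; linarith)
    (by rw [e3, abs_of_pos p1, div_self p1.ne']; norm_num [SS]) (allB_Tail tail_all l hl)
  obtain ⟨c', r2, k2⟩ := tail_sound (ν := conj lam - I * β - 5 / 2) h.1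
    (by rw [e2]; constructor <;> linarith [hr.1, hr.2]) (by rw [e4, abs_neg, abs_of_pos p2]; linarith)
    (by rw [e4, abs_neg, abs_of_pos p2, neg_div, div_self p2.ne', snn_eq]; norm_num [SS]) k1
  refine Det_ne_re r1 r2 ?_
  have k3 : c + c' < (l + 5) * 2 ^ 40 := by
    rw [← Nat.shiftLeft_eq]
    exact Nat.blt_eq.mp k2
  have k4 : (c : ℝ) + c' < (l + 5) * 2 ^ 40 := by exact_mod_cast k3
  rw [← add_div, div_lt_iff₀ (by positivity)]
  linarith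

end Vale.Agent.P139.D
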