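import Vale.Agent.P139.D.Cov
import Vale.Agent.P139.D.Tail
import Vale.Agent.P139.D.Rad
import Vale.Agent.P139.D.Sym
import Vale.Agent.P139.D.Mis

/-! P139 part D: assembly. -/

noncomputable section

open Set Complex
open scoped ComplexConjugate

namespace Vale.Agent.P139.D

open Vale.Agent.P139

theorem Sym_conj {l : ℕ} {z : ℂ} (h : Sym l z) : conj z = z := by
  rcases h with ⟨-, rfl⟩ | ⟨-, rfl⟩ | ⟨-, rfl⟩
  · simp
  · simp
  · simp [map_ofNat]

theorem away_up {X β : ℝ} (h : InBox X β) (l : ℕ) {lam : ℂ} (h0 : 0 ≤ lam.re) (hi : 0 ≤ lam.im)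
    (hs : ∀ z, Sym l z → 1 / 64 ≤ ‖lam - z‖) : Det X β ((l + 5) / 2) lam ≠ 0 := by
  have hX : 0 < X := lt_of_lt_of_le (by norm_num [Xlo]) h.1.1
  have hl0 : (0 : ℝ) ≤ l := Nat.cast_nonneg l
  have e1 : (lam - I * β - 5 / 2).re = lam.re - 5 / 2 := by simp
  have e2 : (conj lam - I * β - 5 / 2).re = lam.re - 5 / 2 := by simp
  rcases lt_or_ge (5 / 2 : ℝ) lam.re with hb | hb
  · exact Det_ne_re (ReLe_big (by positivity) (by rw [e1]; linarith) hX)
      (ReLe_big (by positivity) (by rw [e2]; linarith) hX) (by linarith)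
  rcases lt_or_ge l 25 with hl | hl
  · rcases le_total 80 lam.im with hi' | hi'
    · exact tail_main hl h ⟨h0, hb⟩ hi'
    · exact box_all hl X β h lam h0 (by push_cast; positivity) (by push_cast; linarith)
        (by push_cast; positivity) (by push_cast; linarith) hs
  · have hl' : (25 : ℝ) ≤ l := by exact_mod_cast hl
    exact Det_ne_re (rad_main (by linarith) h.1 ⟨by rw [e1]; linarith, by rw [e1]; linarith⟩)
      (rad_main (by linarith) h.1 ⟨by rw [e2]; linarith, by rw [e2]; linarith⟩) (by linarith)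

theorem away {X β : ℝ} (h : InBox X β) (l : ℕ) {lam : ℂ} (h0 : 0 ≤ lam.re)
    (hs : ∀ z, Sym l z → 1 / 64 ≤ ‖lam - z‖) : Det X β ((l + 5) / 2) lam ≠ 0 := by
  rcases le_total 0 lam.im with hi | hi
  · exact away_up h l h0 hi hs
  · have := away_up h l (lam := conj lam) (by simpa using h0) (by simpa using hi) fun z hz => by
      have e : conj lam - z = conj (lam - z) := by rw [map_sub, Sym_conj hz]
      rw [e, Complex.norm_conj]
      exact hs z hz
    rw [Det_conj] at this
    exact fun e => this (by rw [e, map_zero])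

end Vale.Agent.P139.D
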