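import Vale.Agent.P139.N
import Vale.Agent.P139.D.Chk
import Vale.Agent.P206.U.NumBall

/-! P139 part D: the meaning of the checker (definitions only). `Mem 40 b z` says `‖z * 2^40 - b.c‖ ≤ b.r`. -/

noncomputable section

open Set Complex
open scoped ComplexConjugate

namespace Vale.Agent.P139.D

open Vale.Agent.P139 Vale.Agent.P206.U.Num

/-- `X` and `L` lie in the intervals of `p`. -/
def PM (p : Par) (X L : ℝ) : Prop := 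
  |X * 2 ^ 40 - p.x| ≤ (p.e : ℝ) ∧ |L * 2 ^ 80 - p.L| ≤ (p.eL : ℝ)

/-- One step of the continued fraction. -/
def mob (ν : ℂ) (L X : ℝ) (N : ℂ) : ℂ := (ν * (N + I * X) - L) / (ν - (N + I * X))

/-- The logarithmic derivative at level `j`. -/
def TT (ν : ℂ) (ℓ X : ℝ) : ℕ → ℂ
  | 0 => mob ν (ℓ ^ 2) X (mob (ν + 1) (ℓ ^ 2) X (mob (ν + 2) (ℓ ^ 2) X
      (mob (ν + 3) (ℓ ^ 2) X (NF (ν + 4) ℓ X))))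
  | 1 => mob (ν + 1) (ℓ ^ 2) X (mob (ν + 2) (ℓ ^ 2) X (mob (ν + 3) (ℓ ^ 2) X (NF (ν + 4) ℓ X)))
  | 2 => mob (ν + 2) (ℓ ^ 2) X (mob (ν + 3) (ℓ ^ 2) X (NF (ν + 4) ℓ X))
  | 3 => mob (ν + 3) (ℓ ^ 2) X (NF (ν + 4) ℓ X)
  | j + 4 => NF (ν + (j + 4 : ℕ)) ℓ X

/-- The denominator at level `j`. -/
def bb (ν : ℂ) (ℓ X : ℝ) (j : ℕ) : ℂ := ν + j - (TT ν ℓ X (j + 1) + I * X)

def KK (ν : ℂ) (ℓ X : ℝ) : ℂ := (ν + ℓ) * (ℓ - (TT ν ℓ X 1 + I * X))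

def G3 (ν : ℂ) (ℓ X : ℝ) : Prop := bb ν ℓ X 1 ≠ 0 ∧ bb ν ℓ X 2 ≠ 0 ∧ bb ν ℓ X 3 ≠ 0

def ReLe (ν : ℂ) (ℓ X c : ℝ) : Prop := G3 ν ℓ X ∧ bb ν ℓ X 0 ≠ 0 ∧ (TT ν ℓ X 0).re ≤ c

/-- No zero of `Det` in a box (coordinates at scale `2^40`). -/
def Box (l a b c d : ℕ) : Prop :=
  ∀ X β, InBox X β → ∀ lam : ℂ, 0 ≤ lam.re → (a : ℝ) ≤ lam.re * 2 ^ 40 → lam.re * 2 ^ 40 ≤ b →
    (c : ℝ) ≤ lam.im * 2 ^ 40 → lam.im * 2 ^ 40 ≤ d → (∀ z, Sym l z → 1 / 64 ≤ ‖lam - z‖) →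
      Det X β ((l + 5) / 2) lam ≠ 0

end Vale.Agent.P139.D
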