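import Vale.Agent.P139.D.Ball

/-! P139 D/Step: soundness of `step`, `chain`, `start`.
`step_core`: `M = (n t - L0)/(n - t) = -n + (n² - L0) (n - t)⁻¹` is within `r0` of `c'` by `inv_disc` (for `n - t` about `n - c`), and
`(ν t - L)/(ν - t) = M + ((ν - n) (t - M) - (L - L0)) / (ν - t)`, `‖t - M‖ ≤ ‖c - c'‖ + rt + r0`, `‖ν - t‖ ≥ ‖n - c‖ - rt - d ≥ g`.
`step_sound`: unfold with `fN_eq fZ_eq fB_eq gd_iff`, apply `step_core` to `2^40 ν`, `2^40 (N + I X)`, `2^80 L` (`mob` is homogeneous), Gaussian integer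
centres; `div_nw_le`, `norm_le_ab2`, `div_near`, `nat_div_bounds`. `start_core`: expand the square, nlinarith. -/

noncomputable section

open Set Complex
open scoped ComplexConjugate

namespace Vale.Agent.P139.D

open Vale.Agent.P139 Vale.Agent.P206.U.Num

theorem step_core {ν n t c c' : ℂ} {L L0 d rt eL g r0 : ℝ} (hν : ‖ν - n‖ ≤ d) (ht : ‖t - c‖ ≤ rt)
    (hL : |L - L0| ≤ eL) (hg : 0 < g) (hw : g + rt + d ≤ ‖n - c‖)
    (h0 : ‖-n + (n ^ 2 - L0) * conj (n - c) / ((‖n - c‖ ^ 2 - rt ^ 2 : ℝ) : ℂ) - c'‖ +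
      ‖n ^ 2 - L0‖ * rt / (‖n - c‖ ^ 2 - rt ^ 2) ≤ r0) :
    g ≤ ‖ν - t‖ ∧ ‖(ν * t - L) / (ν - t) - c'‖ ≤ (d * (‖c - c'‖ + rt + r0) + eL) / g + r0 := by
  have hd : 0 ≤ d := (norm_nonneg _).trans hν
  have hrt : 0 ≤ rt := (norm_nonneg _).trans ht
  have heL : 0 ≤ eL := (abs_nonneg _).trans hL
  have h1 : ‖(n - t) - (n - c)‖ ≤ rt := by
    rw [show (n - t) - (n - c) = -(t - c) by ring, norm_neg]
    exact ht
  obtain ⟨hu, h2⟩ := inv_disc h1 (by linarith)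
  have h3 : g ≤ ‖ν - t‖ := by
    have a1 := norm_sub_le (ν - t) (ν - n)
    have a2 := norm_add_le (ν - t - (ν - n)) (t - c)
    rw [show ν - t - (ν - n) + (t - c) = n - c by ring] at a2
    linarith
  have hv : ν - t ≠ 0 := norm_pos_iff.1 (by linarith)
  refine ⟨h3, ?_⟩
  set M := -n + (n ^ 2 - L0) * (n - t)⁻¹ with hM
  have h4 : ‖M - c'‖ ≤ r0 := by
    have e : M - c' = (n ^ 2 - L0) * ((n - t)⁻¹ - conj (n - c) / ((‖n - c‖ ^ 2 - rt ^ 2 : ℝ) : ℂ)) +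
        (-n + (n ^ 2 - L0) * conj (n - c) / ((‖n - c‖ ^ 2 - rt ^ 2 : ℝ) : ℂ) - c') := by
      rw [hM]
      ring
    rw [e]
    refine (norm_add_le _ _).trans ?_
    rw [norm_mul]
    have := mul_le_mul_of_nonneg_left h2 (norm_nonneg (n ^ 2 - L0))
    rw [← mul_div_assoc] at this
    linarith
  have h5 : ‖t - M‖ ≤ ‖c - c'‖ + rt + r0 := by
    have a1 := norm_add_le (t - c) (c - c')
    have a2 := norm_sub_le (t - c + (c - c')) (M - c')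
    rw [show t - c + (c - c') - (M - c') = t - M by ring] at a2
    linarith
  have e : (ν * t - L) / (ν - t) - c' =
      ((ν - n) * (t - M) - ((L - L0 : ℝ) : ℂ)) / (ν - t) + (M - c') := by
    rw [hM]
    push_cast
    field_simp
    ring
  rw [e]
  refine (norm_add_le _ _).trans (add_le_add ?_ h4)
  rw [norm_div]
  refine div_le_div₀ (add_nonneg (mul_nonneg hd ((norm_nonneg _).trans h5)) heL) ?_ hg h3
  refine (norm_sub_le _ _).trans ?_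
  rw [norm_mul, Complex.norm_real, Real.norm_eq_abs]
  gcongr

theorem ndiv_le (a : ℕ) {b : ℕ} (hb : 0 < b) : (a : ℝ) / b ≤ (Nat.div a b : ℕ) + 1 := by
  have h := (nat_div_bounds a hb).2
  have hb' : (0 : ℝ) < b := by exact_mod_cast hb
  refine le_trans ?_ h
  gcongr
  linarith

theorem step_int {n t : B} {L eL q gap den r0 : ℕ} {wx wy ax ay cx cy : ℤ} {ν u : ℂ} {M : ℝ}
    (hν : ‖ν - n.c‖ ≤ n.r) (hu : ‖u - t.c‖ ≤ t.r) (hM : |M - L| ≤ (eL : ℝ))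
    (e1 : wx = n.x - t.x) (e2 : wy = n.y - t.y) (e3 : q = sq2 (zabs wx) (zabs wy))
    (e4 : gap = Nat.div q (nw q (nw q (Nat.succ (Nat.add (zabs wx) (zabs wy))))) - (t.r + n.r))
    (hg : 1073741824 ≤ gap) (e5 : den = q - t.r * t.r) (e6 : ax = n.x * n.x - n.y * n.y - L)
    (e7 : ay = 2 * (n.x * n.y)) (e8 : cx = zdiv (ax * wx + ay * wy) den - n.x)
    (e9 : cy = zdiv (ay * wx - ax * wy) den - n.y)
    (e10 : r0 = Nat.div (ab2 (zabs ax) (zabs ay) * t.r) den + 3) :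
    1073741824 ≤ ‖ν - u‖ ∧ ‖(ν * u - M) / (ν - u) - (⟨cx, cy⟩ : ℂ)‖ ≤
      (Nat.div (n.r * (ab2 (zabs (t.x - cx)) (zabs (t.y - cy)) + t.r + r0) + eL) gap +
        (r0 + 1) : ℕ) := by
  have ew : n.c - t.c = ⟨wx, wy⟩ := by apply Complex.ext <;> simp [B.c, e1, e2]
  have eq : (q : ℝ) = ‖n.c - t.c‖ ^ 2 := by rw [e3, sq2_cast, ew]
  have h1 := div_nw_le q (nw_pos q (Nat.succ (Nat.add (zabs wx) (zabs wy))))
  rw [eq, Real.sqrt_sq (norm_nonneg _)] at h1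
  have h2 : gap + t.r + n.r ≤ Nat.div q (nw q (nw q (Nat.succ (Nat.add (zabs wx) (zabs wy))))) := by
    omega
  have h3 : (gap : ℝ) + t.r + n.r ≤ ‖n.c - t.c‖ := le_trans (by exact_mod_cast h2) h1
  have hg' : (1073741824 : ℝ) ≤ gap := by exact_mod_cast hg
  have t0 : (0 : ℝ) ≤ t.r := Nat.cast_nonneg _
  have n0 : (0 : ℝ) ≤ n.r := Nat.cast_nonneg _
  have hlt : t.r * t.r < q := by
    have : (t.r : ℝ) * t.r < q := by rw [eq]; nlinarith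
    exact_mod_cast this
  have hd : 0 < den := by omega
  have ed : (den : ℝ) = ‖n.c - t.c‖ ^ 2 - t.r ^ 2 := by
    rw [e5, Nat.cast_sub hlt.le, eq]
    push_cast
    ring
  have hd' : (0 : ℝ) < den := by exact_mod_cast hd
  have ea : n.c ^ 2 - (L : ℝ) = ⟨ax, ay⟩ := by
    apply Complex.ext <;> simp [B.c, e6, e7, sq]
    ring
  have h4 := div_near (ax * wx + ay * wy) (ay * wx - ax * wy) 0 hd
  have h5 := ndiv_le (ab2 (zabs ax) (zabs ay) * t.r) hd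
  have h6 := norm_le_ab2 ax ay
  have h0 : ‖-n.c + (n.c ^ 2 - (L : ℝ)) * conj (n.c - t.c) / ((‖n.c - t.c‖ ^ 2 - t.r ^ 2 : ℝ) : ℂ) -
      (⟨cx, cy⟩ : ℂ)‖ + ‖n.c ^ 2 - (L : ℝ)‖ * t.r / (‖n.c - t.c‖ ^ 2 - t.r ^ 2) ≤ r0 := by
    rw [← ed, ea, ew]
    have e : -n.c + (⟨ax, ay⟩ : ℂ) * conj (⟨wx, wy⟩ : ℂ) / ((den : ℝ) : ℂ) - (⟨cx, cy⟩ : ℂ) =
        (⟨(ax * wx + ay * wy : ℤ), (ay * wx - ax * wy : ℤ)⟩ : ℂ) / den -
          (⟨zdiv (ax * wx + ay * wy) den, zdiv (ay * wx - ax * wy) den, 0⟩ : B).c := by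
      have a1 : (⟨ax, ay⟩ : ℂ) * conj (⟨wx, wy⟩ : ℂ) =
          ⟨(ax * wx + ay * wy : ℤ), (ay * wx - ax * wy : ℤ)⟩ := by
        apply Complex.ext <;> simp
        ring
      have a2 : (⟨zdiv (ax * wx + ay * wy) den, zdiv (ay * wx - ax * wy) den, 0⟩ : B).c =
          n.c + ⟨cx, cy⟩ := by
        apply Complex.ext <;> simp [B.c, e8, e9]
      rw [a1, a2, ofReal_natCast]
      ring
    rw [e, e10]
    have a3 : ‖(⟨ax, ay⟩ : ℂ)‖ * t.r / den ≤ ((ab2 (zabs ax) (zabs ay) * t.r : ℕ) : ℝ) / den := by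
      push_cast
      gcongr
    push_cast at *
    linarith
  obtain ⟨k1, k2⟩ := step_core hν hu hM (by linarith) h3 h0
  refine ⟨hg'.trans k1, k2.trans ?_⟩
  have h7 := ndiv_le (n.r * (ab2 (zabs (t.x - cx)) (zabs (t.y - cy)) + t.r + r0) + eL)
    (b := gap) (by omega)
  have h8 := norm_le_ab2 (t.x - cx) (t.y - cy)
  have e : t.c - (⟨cx, cy⟩ : ℂ) = ⟨(t.x - cx : ℤ), (t.y - cy : ℤ)⟩ := by
    apply Complex.ext <;> simp [B.c]
  rw [← e] at h8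
  have h9 : (n.r * (‖t.c - (⟨cx, cy⟩ : ℂ)‖ + t.r + r0) + eL) / gap ≤
      ((n.r * (ab2 (zabs (t.x - cx)) (zabs (t.y - cy)) + t.r + r0) + eL : ℕ) : ℝ) / gap := by
    push_cast
    gcongr
  rw [Nat.cast_add, Nat.cast_add r0, Nat.cast_one]
  linarith

theorem step_sound {p : Par} {n T : B} {k : B → Bool} {ν N : ℂ} {L X : ℝ} (hp : PM p X L)
    (hν : Mem 40 n ν) (hN : Mem 40 T N) (h : step p n T k = true) :
    1 / 1024 ≤ ‖ν - (N + I * X)‖ ∧ ∃ b, Mem 40 b (mob ν L X N) ∧ k b = true := by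
  unfold step at h
  simp only [fN_eq, fZ_eq, fB_eq, gd_iff] at h
  obtain ⟨hg, h⟩ := h
  have ht := mem_til hp hN
  obtain ⟨k1, k2⟩ := step_int (n := n) (t := til p T) (L := p.L) (eL := p.eL) hν ht hp.2
    (zsub_eq _ _) (zsub_eq _ _) rfl rfl (Nat.le_of_ble_eq_true hg) rfl
    (ax := zsub (zsub (zmul n.x n.x) (zmul n.y n.y)) (Int.ofNat p.L))
    (by simp only [zsub_eq, zmul_eq]; rfl) (ay := zmul (Int.ofNat 2) (zmul n.x n.y))
    (by simp only [zmul_eq]; rfl) rfl rfl rfl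
  have e : ν * 2 ^ 40 - (N + I * X) * 2 ^ 40 = (ν - (N + I * X)) * 2 ^ 40 := by ring
  rw [e, norm_mul, norm_pow, Complex.norm_ofNat] at k1
  have k3 : 1 / 1024 ≤ ‖ν - (N + I * X)‖ := by linarith
  refine ⟨k3, _, ?_, h⟩
  have hv : ν - (N + I * X) ≠ 0 := norm_pos_iff.1 (by linarith)
  have e' : mob ν L X N * 2 ^ 40 = (ν * 2 ^ 40 * ((N + I * X) * 2 ^ 40) - ((L * 2 ^ 80 : ℝ) : ℂ)) /
      (ν * 2 ^ 40 - (N + I * X) * 2 ^ 40) := by
    rw [e, mob]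
    push_cast
    field_simp
  unfold Mem
  rw [e']
  simp only [zsub_eq, zadd_eq, zmul_eq] at k2 ⊢
  exact k2

theorem chain_sound {p : Par} {nu : ℕ → B} {ν T : ℕ → ℂ} {L X : ℝ} (hp : PM p X L)
    (hν : ∀ j, Mem 40 (nu j) (ν j)) (hT : ∀ j, T j = mob (ν j) L X (T (j + 1))) (m : ℕ) {b : B}
    {k : B → Bool} (hb : Mem 40 b (T (m + 1))) (h : chain p nu m b k = true) :
    (∀ j, 1 ≤ j → j ≤ m → 1 / 1024 ≤ ‖ν j - (T (j + 1) + I * X)‖) ∧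
      ∃ b', Mem 40 b' (T 1) ∧ k b' = true := by
  induction m generalizing b with
  | zero => exact ⟨fun j h1 h2 => by omega, b, hb, h⟩
  | succ m ih =>
    have h' : step p (nu (m + 1)) b (fun T => chain p nu m T k) = true := by
      rw [← h]
      exact (fB_eq _ fun n => step p n b fun T => chain p nu m T k).symm
    obtain ⟨k1, b', k2, k3⟩ := step_sound hp (hν (m + 1)) hb h'
    rw [← hT] at k2
    obtain ⟨k4, k5⟩ := ih k2 k3
    refine ⟨fun j h1 h2 => ?_, k5⟩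
    rcases Nat.lt_or_ge m j with hj | hj
    · rwa [show j = m + 1 by omega]
    · exact k4 j h1 hj

theorem start_core {N : ℂ} {σ Ω L X k s1 o1 L1 X1 a q : ℝ}
    (hH : ‖N‖ ^ 2 + 2 * (σ * N.re + Ω * N.im) ≤ L) (hI : -X / 2 ≤ N.im) (hR : N.re ≤ -k)
    (hk : 0 ≤ k) (hs : σ ≤ s1) (ha : s1 ≤ a) (hq : q ≤ Ω) (ho : Ω ≤ o1) (hL : L ≤ L1) (hX0 : 0 ≤ X)
    (hX : X ≤ X1) :
    ‖N - ⟨-a, -q⟩‖ ^ 2 ≤ L1 + a * a + q * q + (o1 - q) * X1 - 2 * (a - s1) * k := by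
  have e : ‖N - ⟨-a, -q⟩‖ ^ 2 = ‖N‖ ^ 2 + 2 * a * N.re + 2 * q * N.im + a * a + q * q := by
    simp only [Complex.sq_norm, normSq_apply, sub_re, sub_im]
    ring
  have h1 : (a - σ) * N.re ≤ -((a - s1) * k) := by nlinarith
  have h2 : -(2 * (Ω - q) * N.im) ≤ (o1 - q) * X1 := by nlinarith
  rw [e]
  linarith

theorem start_sound {L1 X1 s1 a kk : ℕ} {o0 o1 q : ℤ} {k : B → Bool} {N : ℂ} {σ Ω L X : ℝ}
    (hH : ‖N‖ ^ 2 + 2 * (σ * N.re + Ω * N.im) ≤ L) (hI : -X / 2 ≤ N.im)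
    (hR : N.re * 2 ^ 40 ≤ -kk) (hs : σ * 2 ^ 40 ≤ s1) (ho0 : o0 ≤ Ω * 2 ^ 40) (ho1 : Ω * 2 ^ 40 ≤ o1)
    (hL : L * 2 ^ 80 ≤ L1) (hX0 : 0 ≤ X) (hX : X * 2 ^ 40 ≤ X1)
    (h : start L1 X1 s1 o0 o1 a q kk k = true) : ∃ b, Mem 40 b N ∧ k b = true := by
  unfold start at h
  simp only [fB_eq, gd_iff] at h
  obtain ⟨h1, h2, h⟩ := h
  refine ⟨_, ?_, h⟩
  have h1' : s1 ≤ a := Nat.le_of_ble_eq_true h1
  have h2' := zge_le h2
  rw [zsub_eq] at h2'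
  have h3 : (q : ℝ) ≤ o0 := by exact_mod_cast (by omega : q ≤ o0)
  have e2 : (2 : ℂ) ^ 40 = ((2 ^ 40 : ℝ) : ℂ) := by push_cast; rfl
  have k := start_core (N := N * 2 ^ 40) (σ := σ * 2 ^ 40) (Ω := Ω * 2 ^ 40) (L := L * 2 ^ 80)
    (X := X * 2 ^ 40) (k := kk) (a := a) (q := q)
    (by rw [norm_mul, norm_pow, Complex.norm_ofNat, e2, re_mul_ofReal, im_mul_ofReal]; linarith)
    (by rw [e2, im_mul_ofReal]; linarith) (by rw [e2, re_mul_ofReal]; exact hR)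
    (Nat.cast_nonneg _) hs (by exact_mod_cast h1') (h3.trans ho0) ho1 hL (by positivity) hX
  unfold Mem
  refine le_trans ?_ (sqU_ge _)
  refine Real.le_sqrt_of_sq_le ?_
  have ec : ∀ r, (⟨snn 0 a, zneg q, r⟩ : B).c = ⟨-a, -q⟩ := fun r => by
    apply Complex.ext <;> simp [B.c, snn_eq, zneg_eq]
  rw [ec]
  refine k.trans ?_
  have a1 : ∀ z : ℤ, (z : ℝ) ≤ zpos z := fun z => by
    rw [zpos_eq]
    exact_mod_cast Int.self_le_toNat z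
  refine le_trans (le_of_eq ?_) (a1 _)
  simp only [zsub_eq, zadd_eq, zmul_eq, Nat.add_eq, Nat.mul_eq, Nat.sub_eq, Int.ofNat_eq_natCast]
  push_cast [Nat.cast_sub h1']
  ring

end Vale.Agent.P139.D
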